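import Vale.Agent.P297Z.Surf.SspA2
import Vale.Agent.P297Z.Diff.Can

/-!
# P297, diagonal: regular parameters give a local generator of the canonical divisor
-/

noncomputable section

namespace Vale.Agent.P297Z.Dg

open Sf Sf.SA _root_.P297Z.Diff IsLocalRing

variable {K : Type} [Field K] [Algebra ℂ K] {S : Surf K}

/-- the two coordinates of the plane -/
def pl (S : Surf K) : Fin 2 → K := ![S.x 1 / S.x 0, S.x 2 / S.x 0]

theorem exists_pl (S : Surf K) : ∃ d : Fin 2 → Derivation ℂ K K, Coord (pl S) d :=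
  exists_coord (SB.trb S.model.td S.indep)

/-- the differential, as a pair -/
def dv (d : Fin 2 → Derivation ℂ K K) : K →ₗ[ℂ] K × K := (d 0).toLinearMap.prod (d 1).toLinearMap

theorem dv_mul (d : Fin 2 → Derivation ℂ K K) (a b : K) :
    dv d (a * b) = a • dv d b + b • dv d a := Prod.ext ((d 0).leibniz a b) ((d 1).leibniz a b)

theorem dv_const (d : Fin 2 → Derivation ℂ K K) (c : ℂ) : dv d (algebraMap ℂ K c) = 0 :=
  Prod.ext ((d 0).map_algebraMap c) ((d 1).map_algebraMap c)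

theorem dv_frac (d : Fin 2 → Derivation ℂ K K) {f a b : K} (hb : b ≠ 0) (e : f * b = a) :
    dv d f = b⁻¹ • (dv d a - f • dv d b) := by
  rw [← e, dv_mul, add_sub_cancel_left, smul_smul, inv_mul_cancel₀ hb, one_smul]

/-- the differentials of regular parameters generate -/
theorem dv_par (h : S.All) (d : Fin 2 → Derivation ℂ K K) {p : Pt S.W} {w l₁ l₂ : S.W}
    (hp : Par p w l₁ l₂) {a : K} (ha : a ∈ p.ring) :
    ∃ α ∈ p.ring, ∃ β ∈ p.ring, dv d a = α • dv d (l₁ / w) + β • dv d (l₂ / w) := by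
  have := S.model.fin
  obtain ⟨T, hT⟩ : S.W.FG := Module.Finite.iff_fg.1 inferInstance
  let N : Submodule p.ring (K × K) := Submodule.span p.ring ((fun a => dv d (a / w)) '' T)
  have sm : ∀ r ∈ p.ring, ∀ x ∈ N, r • x ∈ N := fun r hr x hx => N.smul_mem ⟨r, hr⟩ hx
  have h1 : ∀ a ∈ chart S.W w, dv d a ∈ N := fun a ha => by
    induction ha using Algebra.adjoin_induction with
    | mem x hx =>
      obtain ⟨b, hb, rfl⟩ := hx
      rw [← hT] at hb
      induction hb using Submodule.span_induction with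
      | mem x hx => exact Submodule.subset_span ⟨x, hx, rfl⟩
      | zero => simp
      | add x y _ _ hx hy =>
        simp only [add_div, map_add]
        exact add_mem hx hy
      | smul c x _ hx =>
        simp only [smul_div_assoc, map_smul]
        exact N.smul_of_tower_mem c hx
    | algebraMap c => rw [dv_const]; exact zero_mem _
    | add x y _ _ hx hy => rw [map_add]; exact add_mem hx hy
    | mul x y h1 h2 hx hy =>
      rw [dv_mul]
      exact add_mem (sm _ (hp.mem.chart_le h1) _ hy) (sm _ (hp.mem.chart_le h2) _ hx)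
  have h2 : ∀ a ∈ p.ring, dv d a ∈ N := fun a ha => by
    obtain ⟨m, hm, e, -⟩ := h.pt_chart p w w.2 hp.mem
    obtain ⟨b, c, hc, e'⟩ := mem_loc.1 (e ▸ ha)
    rw [dv_frac d (ne_zero_of_notMem hc) e']
    exact sm _ (e ▸ inv_mem_loc hm.isPrime hc) _ (sub_mem (h1 _ b.2) (sm _ ha _ (h1 _ c.2)))
  have e1 : (dehAt hp.mem (S.lin l₁) : K) = l₁ / w := deh_lin _ _
  have e2 : (dehAt hp.mem (S.lin l₂) : K) = l₂ / w := deh_lin _ _
  have h3 : N ≤ Submodule.span p.ring {dv d (l₁ / w), dv d (l₂ / w)} := by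
    refine Submodule.le_of_le_smul_of_le_jacobson_bot (I := maximalIdeal p.ring)
      (Submodule.fg_span (T.finite_toSet.image _)) (jacobson_eq_maximalIdeal _ bot_ne_top).ge
      (Submodule.span_le.2 ?_)
    rintro _ ⟨b, hb, rfl⟩
    obtain ⟨c, hc⟩ := h.val p (b / w) (hp.mem.2 b (hT ▸ Submodule.subset_span hb))
    obtain ⟨h4, h5⟩ := p.van_iff.1 hc
    rw [hp.gen] at h5
    obtain ⟨α, β, e⟩ := Ideal.mem_span_pair.1 h5
    have h6 : dv d (b / w) = ((α : K) • dv d (l₁ / w) + (β : K) • dv d (l₂ / w)) +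
        ((l₁ / w : K) • dv d α + (l₂ / w : K) • dv d β) := by
      have h7 : (α : K) * (l₁ / w) + β * (l₂ / w) = b / w - algebraMap ℂ K c := by
        rw [← e1, ← e2]
        exact congrArg Subtype.val e
      have h8 := congrArg (dv d) h7
      rw [map_sub, dv_const, sub_zero, map_add, dv_mul, dv_mul] at h8
      rw [← h8]
      abel
    change dv d (b / w) ∈ _
    rw [h6, ← e1, ← e2]
    refine Submodule.add_mem_sup (Submodule.mem_span_pair.2 ⟨α, β, rfl⟩) (add_mem ?_ ?_)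
    · exact Submodule.smul_mem_smul (r := dehAt hp.mem (S.lin l₁))
        (hp.gen ▸ Ideal.subset_span (by simp)) (h2 _ α.2)
    · exact Submodule.smul_mem_smul (r := dehAt hp.mem (S.lin l₂))
        (hp.gen ▸ Ideal.subset_span (by simp)) (h2 _ β.2)
  obtain ⟨α, β, e⟩ := Submodule.mem_span_pair.1 (h3 (h2 a ha))
  exact ⟨α, α.2, β, β.2, e.symm⟩

/-- the Jacobian determinant -/
def jc (d : Fin 2 → Derivation ℂ K K) (s t : K) : K := d 0 s * d 1 t - d 1 s * d 0 t

theorem der_pl {d : Fin 2 → Derivation ℂ K K} (hd : Coord (pl S) d) (δ : Derivation ℂ K K)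
    (a : K) : δ a = δ (S.x 1 / S.x 0) * d 0 a + δ (S.x 2 / S.x 0) * d 1 a := by
  rw [hd.expand δ a, Fin.sum_univ_two]
  rfl

theorem regDer_of_pt (h : S.All) {p : Pt S.W} {C : Crv S.W} (hC : p.On C) {δ : Derivation ℂ K K}
    (hδ : ∀ a ∈ p.ring, δ a ∈ p.ring) : RegDer C.pl δ := fun f hf => by
  obtain ⟨w, hW, hw⟩ := p.exists_in
  obtain ⟨q, hq, -, -, e, -⟩ := h.crv_chart C w hW (hC.crv_in hw)
  obtain ⟨a, b, hb, e'⟩ := mem_loc.1 ((e f).1 hf)
  have h1 : δ f = (b : K)⁻¹ * (δ a - f * δ b) := by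
    rw [← e', δ.leibniz, smul_eq_mul, smul_eq_mul, add_sub_cancel_left, ← mul_assoc,
      inv_mul_cancel₀ (ne_zero_of_notMem hb), one_mul]
  rw [h1]
  exact mul_mem ((e _).2 (inv_mem_loc hq hb)) (sub_mem (hC _ (hδ _ (hw.chart_le a.2)))
    (mul_mem hf (hC _ (hδ _ (hw.chart_le b.2)))))

/-- the Jacobian determinant of regular parameters generates the canonical sheaf -/
theorem genAt_jc (h : S.All) {d : Fin 2 → Derivation ℂ K K} (hd : Coord (pl S) d) {p : Pt S.W}
    {w l₁ l₂ : S.W} (hp : Par p w l₁ l₂) : GenAt p S.kap (jc d (l₁ / w) (l₂ / w)) := by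
  have key := fun a => dv_par h d hp (a := a)
  have m1 := hp.mem.2 _ l₁.2
  have m2 := hp.mem.2 _ l₂.2
  generalize (l₁ / w : K) = s at *
  generalize (l₂ / w : K) = t at *
  have d00 : d 0 (S.x 1 / S.x 0) = 1 := hd.dual 0 0
  have d01 : d 0 (S.x 2 / S.x 0) = 0 := hd.dual 0 1
  have d10 : d 1 (S.x 1 / S.x 0) = 0 := hd.dual 1 0
  have d11 : d 1 (S.x 2 / S.x 0) = 1 := hd.dual 1 1
  have h1 : ∀ a : K, dv d a ∈ Submodule.span K {dv d s, dv d t} := fun a => by
    have := h.frac p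
    have h2 : ∀ b : p.ring, dv d b ∈ Submodule.span K {dv d s, dv d t} := fun b => by
      obtain ⟨α, -, β, -, e⟩ := key _ b.2
      exact Submodule.mem_span_pair.2 ⟨α, β, e.symm⟩
    obtain ⟨b, c, hc, rfl⟩ := IsFractionRing.div_surjective (A := p.ring) a
    have h3 : (c : K) ≠ 0 := fun o => nonZeroDivisors.ne_zero hc (Subtype.ext o)
    change dv d ((b : K) / c) ∈ _
    rw [dv_frac d h3 (div_mul_cancel₀ _ h3)]
    exact Submodule.smul_mem _ _ (sub_mem (h2 b) (Submodule.smul_mem _ _ (h2 c)))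
  have hJ : jc d s t ≠ 0 := fun o => by
    obtain ⟨α, β, e⟩ := Submodule.mem_span_pair.1 (h1 (S.x 1 / S.x 0))
    obtain ⟨α', β', e'⟩ := Submodule.mem_span_pair.1 (h1 (S.x 2 / S.x 0))
    have a1 : α * d 0 s + β * d 0 t = 1 := (congrArg Prod.fst e).trans d00
    have a2 : α * d 1 s + β * d 1 t = 0 := (congrArg Prod.snd e).trans d10
    have a3 : α' * d 0 s + β' * d 0 t = 0 := (congrArg Prod.fst e').trans d01
    have a4 : α' * d 1 s + β' * d 1 t = 1 := (congrArg Prod.snd e').trans d11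
    have a5 : (α * β' - β * α') * jc d s t = 1 := by
      unfold jc
      linear_combination (α' * d 1 s + β' * d 1 t) * a1 - (α' * d 0 s + β' * d 0 t) * a2 + a4
    rw [o, mul_zero] at a5
    exact zero_ne_one a5
  refine ⟨hJ, fun C hC => le_antisymm ?_ ?_⟩
  · let δ₁ := (jc d s t)⁻¹ • (d 1 t • d 0 - d 0 t • d 1)
    let δ₂ := (jc d s t)⁻¹ • (d 0 s • d 1 - d 1 s • d 0)
    have v1 : ∀ a, δ₁ a = (jc d s t)⁻¹ * (d 1 t * d 0 a - d 0 t * d 1 a) := fun a => by simp [δ₁]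
    have v2 : ∀ a, δ₂ a = (jc d s t)⁻¹ * (d 0 s * d 1 a - d 1 s * d 0 a) := fun a => by simp [δ₂]
    have r : ∀ a ∈ p.ring, δ₁ a ∈ p.ring ∧ δ₂ a ∈ p.ring := fun a ha => by
      obtain ⟨α, hα, β, hβ, e⟩ := key a ha
      have a1 : d 0 a = α * d 0 s + β * d 0 t := congrArg Prod.fst e
      have a2 : d 1 a = α * d 1 s + β * d 1 t := congrArg Prod.snd e
      rw [v1, v2, a1, a2]
      constructor
      · convert hα using 1
        rw [inv_mul_eq_iff_eq_mul₀ hJ, jc]
        ring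
      · convert hβ using 1
        rw [inv_mul_eq_iff_eq_mul₀ hJ, jc]
        ring
    have hw : wedge (S.x 1 / S.x 0) (S.x 2 / S.x 0) δ₁ δ₂ = 1 / jc d s t := by
      rw [wedge, v1, v1, v2, v2, d00, d01, d10, d11]
      field_simp
      rw [jc]
      ring
    have h2 := (h.least _ _ S.indep C).2 ⟨δ₁, δ₂, regDer_of_pt h hC fun a ha => (r a ha).1,
      regDer_of_pt h hC fun a ha => (r a ha).2, hw ▸ one_div_ne_zero hJ, rfl⟩
    rw [hw, Pl.ord_div _ one_ne_zero hJ, Pl.ord_unit _ (one_mem _) (by simp)] at h2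
    change S.kap C ≤ _ at h2
    unfold Crv.ord
    omega
  · obtain ⟨δ₁, δ₂, r1, r2, h2, h3⟩ := (h.least _ _ S.indep C).1
    have h4 : jc d s t * wedge (S.x 1 / S.x 0) (S.x 2 / S.x 0) δ₁ δ₂ =
        δ₁ s * δ₂ t - δ₁ t * δ₂ s := by
      rw [der_pl hd δ₁ s, der_pl hd δ₂ s, der_pl hd δ₁ t, der_pl hd δ₂ t, jc, wedge]
      ring
    have h5 := Pl.ord_nonneg_of_mem C.pl (h4 ▸ sub_mem (mul_mem (r1 s (hC s m1)) (r2 t (hC t m2)))
      (mul_mem (r1 t (hC t m2)) (r2 s (hC s m1))))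
    rwa [Pl.ord_mul _ hJ h2, h3] at h5

end Vale.Agent.P297Z.Dg
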