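import Vale.Agent.P297Z.Diag.Main
import Vale.Agent.P297Z.Ev.Defs
import Vale.Agent.P297Z.Sh.Frame
import Vale.Agent.P297Z.Top.Glue1

/-!
# P297, diagonal: the results in the graded theory
-/

set_option linter.all false

noncomputable section

namespace Vale.Agent.P297Z.Dg

variable {W S : Spc} {k : Type} [CommRing k]

namespace Smo

variable (hS : Smo S) (a b : Mor W S)
include hS

theorem gc_one_dl : gc k 1 (dl a b) = 0 := by
  rw [gc, hS.cc_one_dl]
  exact amk_of_mem (neg_mem (hS.dl_FF a b))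

theorem gc_dl (i : ℕ) :
    gc k (i + 2) (dl a b) = -(amk k 2 (dl a b) * GA.pull a (gc k i (-Om S))) := by
  have h1 := hS.cc_dl_sub a b (i := i + 2) (Nat.le_add_left _ _)
  have h2 : pullK a (cc i (-Om S)) ∈ FF W i := Gd.FF_pull a (cc_mem_FF i _)
  have h3 := Gd.FF_mul (hS.dl_FF a b) h2
  rw [rr, Nat.add_sub_cancel, map_neg, mul_neg] at h1
  rw [add_comm] at h3
  rw [gc, amk_congr (neg_mem h3) h1, amk_neg h3, add_comm, amk_mul (hS.dl_FF a b) h2, gc,
    GA.pull_amk a (cc_mem_FF i _)]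

theorem gc_two_dl : gc k 2 (dl a b) = -amk k 2 (dl a b) := by
  have h1 := hS.gc_dl (k := k) a b 0
  rwa [gc, gc, cc_zero, amk_one, map_one, mul_one] at h1

theorem gc_gr {e : ℕ} (hW : W.IsVar e) (s : Mor W S) :
    (-gc k 2 (pullK (s.map (Mor.id S)) (delta S))) • fund k (W.prod S) (e + 2) =
      GH.push (Mor.lift (Mor.id W) s) (fund k W e) := by
  have h1 := hS.kact_gr hW.proj s 1
  rw [mul_one, map_one, kact_one] at h1
  rw [GH.push_fund hW (hW.prod hS.var).proj, ← h1, dl_map, hS.gc_two_dl, neg_neg,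
    amk_fund_add (hW.prod hS.var) (hS.dl_FF _ _)]

theorem dia : Ev.Dia S (om S) where
  d1 := fun _ _ hW s x => hS.D1 hW s x
  d2 := fun _ _ hW s x => hS.D2 hW s x
  rk0 := hS.rk_delta
  c1 := dl_fst_snd (S := S) ▸ hS.gc_one_dl _ _
  c2 := fun _ _ hW s => hS.gc_gr hW s

/-- the facts on the diagonal that the shape theorem uses -/
def dg : Sh.DG S where
  var := hS.var
  om := om S
  omc := hS.om_cls
  Om := Om S
  d1 := fun hW s x => hS.D1 hW s x
  d2 := fun hW s x => hS.D2 hW s x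
  c1 := dl_fst_snd (S := S) ▸ hS.gc_one_dl _ _
  c2 := fun hW s => hS.gc_gr hW s
  ci := fun i => by
    rw [← dl_fst_snd, hS.gc_dl, hS.gc_two_dl, neg_mul]

theorem drk : Gl.DRk S := fun W e hW s b x => by
  cases b
  · exact (congrArg (rk W) (hS.D1 hW s x)).trans (rk_pullK _ _)
  · refine (congrArg (rk W) (hS.D2 hW s x)).trans ?_
    rw [map_mul, rk_pullK, rk_pullK, BCls.rk hS.om_cls, Nat.cast_one, one_mul]

end Smo

theorem dia : Ev.DIA := fun _ _ _ S h =>
  ⟨om_spc S h ▸ (smo h).dia, fun _ _ hz => kact_dK S h hz⟩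

theorem drk : Sf.ForAll fun S => ∀ h : S.All, Gl.DRk (S.spc h) := fun _ _ _ _ h => (smo h).drk

end Vale.Agent.P297Z.Dg
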