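import Vale.Agent.P297Z.Diag.Alg
import Vale.Agent.P297Z.Top.Fin
import Vale.Agent.P297Z.K.Cat

/-!
# P297, diagonal: symmetric powers, closed subsets cut by regular pairs, smooth surfaces
-/

set_option linter.all false

open scoped TensorProduct
open MvPolynomial

noncomputable section

namespace Vale.Agent.P297Z.Dg

variable {X Y : Spc} {ι : Type} [Fintype ι]

/-- the free module with generators of degrees `d i` -/
def Fr (X : Spc) (d : ι → X.J → ℤ) : GMod X := GMod.pi fun i => (GMod.one X).shift (-d i)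

/-- the action on the free module -/
def fact (d : ι → X.J → ℤ) (g : X.J → ℂˣ) (v : ι → X.R) : ι → X.R :=
  fun i => chr (d i) g • X.act g (v i)

theorem Fr_act (d : ι → X.J → ℤ) (g : X.J → ℂˣ) (v : ι → X.R) :
    (Fr X d).act g v = fact d g v := funext fun i => by
  change chr (- -d i) g • X.act g (v i) = _
  rw [neg_neg]
  rfl

theorem isHom_Fr {d : ι → X.J → ℤ} {B : GMod X} {φ : B.M →ₗ[X.R] (ι → X.R)} :
    B.IsHom (Fr X d) φ ↔ ∀ g b, φ (B.act g b) = fact d g (φ b) :=
  forall₂_congr fun g b => by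
    rw [← Fr_act]
    exact Iff.rfl

theorem Fr_isHom {d : ι → X.J → ℤ} {B : GMod X} {φ : (ι → X.R) →ₗ[X.R] B.M} :
    (Fr X d).IsHom B φ ↔ ∀ g v, φ (fact d g v) = B.act g (φ v) :=
  ⟨fun h g v => (congrArg φ (Fr_act d g v)).symm.trans (h g v),
    fun h g v => (congrArg φ (Fr_act d g v)).trans (h g v)⟩

/-- the action on the polynomials, the variable `i` has degree `d i` -/
def pact (X : Spc) (d : ι → X.J → ℤ) (g : X.J → ℂˣ) :
    MvPolynomial ι X.R →ₐ[ℂ] MvPolynomial ι X.R :=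
  aevalTower ((IsScalarTower.toAlgHom ℂ X.R (MvPolynomial ι X.R)).comp (X.act g))
    fun i => chr (d i) g • MvPolynomial.X i

theorem pact_C (d : ι → X.J → ℤ) (g : X.J → ℂˣ) (r : X.R) :
    pact X d g (C r) = C (X.act g r) := aevalTower_C _ _ r

theorem pact_X (d : ι → X.J → ℤ) (g : X.J → ℂˣ) (i : ι) :
    pact X d g (MvPolynomial.X i) = chr (d i) g • MvPolynomial.X i := aevalTower_X _ _ i

theorem pact_smul (d : ι → X.J → ℤ) (g : X.J → ℂˣ) (r : X.R) (p : MvPolynomial ι X.R) :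
    pact X d g (r • p) = X.act g r • pact X d g p := by
  rw [smul_eq_C_mul, map_mul, pact_C, smul_eq_C_mul]

theorem pact_lin (d : ι → X.J → ℤ) (g : X.J → ℂˣ) (v : ι → X.R) :
    pact X d g (lin v) = lin (fact d g v) := by
  rw [lin_apply, lin_apply, map_sum]
  refine Finset.sum_congr rfl fun i _ => ?_
  rw [map_mul, pact_C, pact_X, fact, mul_smul_comm, ← smul_mul_assoc]
  congr 1
  exact (map_smul (IsScalarTower.toAlgHom ℂ X.R (MvPolynomial ι X.R)) _ _).symm

theorem pact_hom (d : ι → X.J → ℤ) (g : X.J → ℂˣ) {k : ℕ} {p : MvPolynomial ι X.R}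
    (hp : p.IsHomogeneous k) : (pact X d g p).IsHomogeneous k := by
  have h := hp.eval₂ (n := 1)
    ((IsScalarTower.toAlgHom ℂ X.R (MvPolynomial ι X.R)).comp (X.act g)).toRingHom
    (fun i => chr (d i) g • MvPolynomial.X i) (fun r => isHomogeneous_C ι _) fun i =>
      ((Hk ι X.R 1).restrictScalars ℂ).smul_mem _ (isHomogeneous_X X.R i)
  rw [one_mul] at h
  exact h

theorem pact_span (d : ι → X.J → ℤ) : ⨆ γ, wt (fun g => (pact X d g).toLinearMap) γ = ⊤ :=
  iSup_wt_eq_top fun p => by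
    induction p using MvPolynomial.induction_on with
    | C r =>
      refine X.induction (P := fun r => (C r : MvPolynomial ι X.R) ∈ _) ?_
        (fun γ r hr => ?_) (fun x y hx hy => ?_) r
      · rw [map_zero]; exact Submodule.zero_mem _
      · refine mem_iSup_wt (γ := γ) fun g => ?_
        rw [AlgHom.toLinearMap_apply, pact_C, Spc.mem_wt.1 hr]
        exact map_smul (IsScalarTower.toAlgHom ℂ X.R (MvPolynomial ι X.R)) _ r
      · rw [map_add]; exact Submodule.add_mem _ hx hy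
    | add p q hp hq => exact Submodule.add_mem _ hp hq
    | mul_X p i hp =>
      exact mul_mem_iSup_wt _ hp (mem_iSup_wt (γ := d i) fun g => pact_X d g i)

theorem Hk_fin (ι R : Type) [Fintype ι] [CommRing R] [IsNoetherianRing R] (k : ℕ) :
    Module.Finite R (Hk ι R k) :=
  Module.Finite.of_injective
    (Submodule.inclusion (p := Hk ι R k) (p' := restrictTotalDegree ι R k) fun p hp =>
      (mem_restrictTotalDegree _ _ _).2 (IsHomogeneous.totalDegree_le hp))
    (Submodule.inclusion_injective _)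

/-- the symmetric powers of the free module -/
def Sy (X : Spc) (d : ι → X.J → ℤ) (k : ℕ) : GMod X where
  M := Hk ι X.R k
  fin := Hk_fin ι X.R k
  act := fun g =>
    { toFun := fun p => ⟨pact X d g p.1, pact_hom d g p.2⟩
      map_add' := fun a b => Subtype.ext (map_add (pact X d g) a.1 b.1)
      map_smul' := fun c a => Subtype.ext (map_smul (pact X d g) c a.1) }
  act_smul := fun g r m => Subtype.ext (pact_smul d g r m.1)
  span := iSup_wt_eq_top fun p => by
    obtain ⟨p, hp⟩ := p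
    refine (wt_induction_sub (pact_span d) ((Hk ι X.R k).restrictScalars ℂ)
      (fun g v hv => pact_hom d g hv)
      (P := fun v => ∃ hv : v ∈ Hk ι X.R k, (⟨v, hv⟩ : Hk ι X.R k) ∈ _) ?_ ?_ ?_ p hp).2
    · exact ⟨Submodule.zero_mem _, Submodule.zero_mem _⟩
    · exact fun γ v h hv => ⟨h, mem_iSup_wt (γ := γ) fun g => Subtype.ext (hv g)⟩
    · exact fun x y h1 h2 => ⟨Submodule.add_mem _ h1.1 h2.1, Submodule.add_mem _ h1.2 h2.2⟩

theorem Sy_act (d : ι → X.J → ℤ) (k : ℕ) (g : X.J → ℂˣ) (p : Hk ι X.R k) :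
    ((Sy X d k).act g p : Hk ι X.R k).1 = pact X d g p.1 := rfl

theorem pact_JJ {d : ι → X.J → ℤ} {B : GMod X} {φ : B.M →ₗ[X.R] (ι → X.R)}
    (hφ : B.IsHom (Fr X d) φ) (g : X.J → ℂˣ) {p : MvPolynomial ι X.R} (hp : p ∈ JJ φ) :
    pact X d g p ∈ JJ φ := by
  refine (Ideal.span_le (I := (JJ φ).comap (pact X d g))).2 ?_ hp
  rintro _ ⟨b, rfl⟩
  change pact X d g (lin (φ b)) ∈ JJ φ
  rw [pact_lin]
  exact Ideal.subset_span ⟨B.act g b, congrArg lin (isHom_Fr.1 hφ g b)⟩

/-- the symmetric powers of the cokernel of a map to the free module -/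
def SyQ {d : ι → X.J → ℤ} {B : GMod X} {φ : B.M →ₗ[X.R] (ι → X.R)} (hφ : B.IsHom (Fr X d) φ)
    (k : ℕ) : GMod X :=
  (Sy X d k).quo (JK φ k) fun g _ hp => pact_JJ hφ g hp

/-- the class of the symmetric power of the free module -/
def hK (X : Spc) (d : ι → X.J → ℤ) (k : ℕ) : K0 X :=
  kc (Sy X d k) ((Fintype.card ι).multichoose k)

/-- the ideal of a closed set as a module -/
def IZ (Y : Spc) (Z : Set Y.Pt) (hZ : Y.Stab Z) : GMod Y :=
  (GMod.one Y).sub (Y.van Z) (Spc.van_act hZ)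

/-- the structure module of a closed set -/
def OZ (Y : Spc) (Z : Set Y.Pt) (hZ : Y.Stab Z) : GMod Y :=
  (GMod.one Y).quo (Y.van Z) (Spc.van_act hZ)

/-- a module on a closed subspace as a module on the space -/
def res {Z : Set Y.Pt} {hZ : Y.Stab Z} (W : GMod (Y.sub Z hZ)) : GMod Y where
  M := (Mor.incl Y Z hZ).Res W
  fin := ⟨by
    obtain ⟨s, hs⟩ := W.fin.fg_top
    have key : ∀ m ∈ Submodule.span (Y.sub Z hZ).R (s : Set W.M), (Mor.incl Y Z hZ).toRes W m ∈
        Submodule.span Y.R (M := (Mor.incl Y Z hZ).Res W) (s : Set W.M) := by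
      intro m hm
      induction hm using Submodule.span_induction with
      | mem x hx => exact Submodule.subset_span hx
      | zero => exact Submodule.zero_mem _
      | add x y _ _ hx hy => exact Submodule.add_mem _ hx hy
      | smul a x _ hx =>
        obtain ⟨r, rfl⟩ := Ideal.Quotient.mk_surjective a
        exact Submodule.smul_mem _ r hx
    exact ⟨s, top_unique fun m _ => key m (hs ▸ Submodule.mem_top)⟩⟩
  act := W.act
  act_smul := fun g r m => W.act_smul g (Ideal.Quotient.mk _ r) m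
  span := W.span

/-- The closed set `Z` is cut by the family `f`, which is generated by a regular pair at each
point of `Z`. -/
structure Cut (Y : Spc) (Z : Set Y.Pt) (d : ι → Y.J → ℤ) (f : ι → Y.R) : Prop where
  wt : ∀ i, f i ∈ Y.wt (d i)
  mem : ∀ i, f i ∈ Y.van Z
  gen : ∀ z : Y.Pt, ∀ a ∈ Y.van Z, ∃ r, z.1 r ≠ 0 ∧ r * a ∈ Ideal.span (Set.range f)
  lci : ∀ z : Y.Pt, Lci z.1 f

theorem ev_isHom {d : ι → Y.J → ℤ} {f : ι → Y.R} (h : ∀ i, f i ∈ Y.wt (d i)) :
    (Fr Y d).IsHom (GMod.one Y) (ev f) := Fr_isHom.2 fun g v => by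
  change ev f (fact d g v) = Y.act g (ev f v)
  rw [ev_apply, ev_apply, map_sum]
  refine Finset.sum_congr rfl fun i _ => ?_
  rw [fact, map_mul, Spc.mem_wt.1 (h i), smul_mul_assoc, mul_smul_comm]

/-- the module of relations -/
def syz {d : ι → Y.J → ℤ} {f : ι → Y.R} (h : ∀ i, f i ∈ Y.wt (d i)) : GMod Y :=
  (Fr Y d).sub (LinearMap.ker (ev f)) (ev_isHom h).stab_ker

theorem syz_isHom {d : ι → Y.J → ℤ} {f : ι → Y.R} (h : ∀ i, f i ∈ Y.wt (d i)) :
    (syz h).IsHom (Fr Y d) (LinearMap.ker (ev f)).subtype := fun _ _ => rfl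

/-- the class of the closed set cut by a family -/
def cutK {d : ι → Y.J → ℤ} {f : ι → Y.R} (h : ∀ i, f i ∈ Y.wt (d i)) : K0 Y :=
  1 - (∑ i, line Y (-d i) - kc (syz h) (Fintype.card ι - 1))

/-- a smooth surface with a ring generated by the linear forms `y` -/
structure Sm (S : Spc) {n : ℕ} (y : Fin n → S.R) : Prop where
  var : S.IsVar 2
  uniq : ∃ j : S.J, ∀ j', j' = j
  wt : ∀ i, y i ∈ S.wt 1
  gen : Algebra.adjoin ℂ (Set.range y) = ⊤
  pts : ∀ z : S.R →ₐ[ℂ] ℂ, (∃ f ∈ S.b, z f ≠ 0) ↔ ∃ i, z (y i) ≠ 0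
  reg : ∀ (z : S.Pt) (i₀ : Fin n), z.1 (y i₀) ≠ 0 →
    L2 z.1 fun i => z.1 (y i₀) • y i - z.1 (y i) • y i₀

/-- a smooth surface -/
def Smo (S : Spc) : Prop := ∃ (n : ℕ) (y : Fin n → S.R), Sm S y

/-- the equations of the locus where two maps to the surface agree -/
def gg {S W : Spc} {n : ℕ} (y : Fin n → S.R) (a b : Mor W S) (p : Fin n × Fin n) : W.R :=
  a.φ (y p.1) * b.φ (y p.2) - a.φ (y p.2) * b.φ (y p.1)

/-- the locus where two maps agree -/
def eqS {S W : Spc} (a b : Mor W S) : Set W.Pt := {w | S.Orb (a.onPt w) (b.onPt w)}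

theorem eqS_stab {S W : Spc} (a b : Mor W S) : W.Stab (eqS a b) := fun _ hw _ h =>
  ((a.orb h).symm.trans hw).trans (b.orb h)

/-- the class of the locus where two maps agree -/
def dl {S W : Spc} (a b : Mor W S) : K0 W := pullK (Mor.lift a b) (delta S)

/-- the two maps are transversal -/
def Trans {S W : Spc} {n : ℕ} (y : Fin n → S.R) (a b : Mor W S) : Prop :=
  Cut W (eqS a b) (fun _ => a.ρ 1 + b.ρ 1) (gg y a b)

/-- the conormal module of the diagonal -/
def OmM (S : Spc) : GMod S :=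
  (diag S).pull (IZ (S.prod S) (eqS (Mor.fst S S) (Mor.snd S S)) (eqS_stab _ _))

/-- the class of the cotangent bundle -/
def Om (S : Spc) : K0 S := kc (OmM S) 2

end Vale.Agent.P297Z.Dg
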