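import Vale.Agent.P297Z.Diag.Defs
import Vale.Agent.P297Z.Ch.Cc
import Vale.Agent.P297Z.Ch.KosB

/-!
# P297, diagonal: formal consequences
-/

set_option linter.all false

open scoped TensorProduct

noncomputable section

namespace Vale.Agent.P297Z.Dg

namespace Dual

open Sg Kos GMod AK Finset

/-- the trace of the homotopy between the contraction and the exterior product -/
theorem ct_wd_sum {A C N : Type} [CommRing A] [AddCommGroup C] [Module A C] [AddCommGroup N]
    [Module A N] {r : ℕ} {s : A} {e : Fin (r + 1) → C} {l : Fin (r + 1) → C →ₗ[A] A}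
    (h1 : ∀ c, ∑ k, l k c • e k = s • c) (h2 : ∀ k, l k (e k) = s) (x : T A C N r) :
    ∑ k, ct N r (l k) (wd N r (e k) x) = s • x := by
  cases r with
  | zero => simp only [ct_wd0, h2, Fin.sum_univ_succ, Fin.sum_univ_zero, add_zero]
  | succ r =>
    simp only [ct_wd, h2, sum_sub_distrib, euler h1, sum_const, card_univ, Fintype.card_fin]
    rw [← Nat.cast_smul_eq_nsmul A, ← mul_smul, ← sub_smul]
    congr 1
    push_cast
    ring

variable {X : Spc} {B : GMod X}

theorem ct_act (N : GMod X) (i : ℕ) (g : X.J → ℂˣ) {σ σ' : B.M →ₗ[X.R] X.R}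
    (h : ∀ v, σ' (B.act g v) = X.act g (σ v)) (x : ((B.ext (i + 1)).ten N).M) :
    ct N.M i σ' (((B.ext (i + 1)).ten N).act g x) = ((B.ext i).ten N).act g (ct N.M i σ x) := by
  obtain ⟨F, hF⟩ : ∃ F : ((B.ext (i + 1)).ten N).M →ₗ[X.R] ((B.ext i).ten N).M,
    F = ct N.M i σ := ⟨_, rfl⟩
  obtain ⟨F', hF'⟩ : ∃ F : ((B.ext (i + 1)).ten N).M →ₗ[X.R] ((B.ext i).ten N).M,
    F = ct N.M i σ' := ⟨_, rfl⟩
  have key : F' (((B.ext (i + 1)).ten N).act g x) = ((B.ext i).ten N).act g (F x) := by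
    refine ind_ten (P := fun x : ((B.ext (i + 1)).ten N).M =>
      F' (((B.ext (i + 1)).ten N).act g x) = ((B.ext i).ten N).act g (F x))
      (by simp only [map_zero] :
        F' (((B.ext (i + 1)).ten N).act g 0) = ((B.ext i).ten N).act g (F 0))
      (fun (x y : ((B.ext (i + 1)).ten N).M) hx hy => (by simp only [map_add, hx, hy] :
        F' (((B.ext (i + 1)).ten N).act g (x + y)) = ((B.ext i).ten N).act g (F (x + y))))
      (fun v n => (congrArg F' (act_im N (i + 1) g v n)).trans ?_) x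
    subst hF hF'
    refine (ct_tmul i σ' _ _).trans (Eq.trans ?_ (congrArg _ (ct_tmul i σ v n)).symm)
    refine Eq.trans ?_ (map_sum (((B.ext i).ten N).act g) _ _).symm
    refine sum_congr rfl fun j _ => ?_
    refine Eq.trans ?_ (map_zsmul (((B.ext i).ten N).act g) _ _).symm
    refine congrArg _ (Eq.trans ?_ (((B.ext i).ten N).act_smul g _ _).symm)
    exact congrArg₂ _ (h (v j)) (act_im N i g (j.removeNth v) n).symm
  subst hF hF'
  exact key

theorem qis_ct {r : ℕ} (hB : B.IsBun (r + 1)) :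
    Qis (B.dual.ten ((B.ext (r + 1)).ten (one X))) ((B.ext r).ten (one X))
      (TensorProduct.lift (ct X.R r)) := by
  refine ⟨isHom_ten fun t (u : B.M →ₗ[X.R] X.R) y => ct_act (one X) r t
    (fun v => congrArg (fun y => X.act t (u y)) (B.act_inv_act t v)) y, fun z => ?_⟩
  obtain ⟨s, v, l, hs, h1, h2⟩ := free_basis (hB z)
  have k1 := hB.dual.ten ((hB.ext (r + 1)).ten (isBun_one X)) z
  have k2 := (hB.ext r).ten (isBun_one X) z
  rw [Nat.choose_self, mul_one, mul_one] at k1
  rw [Nat.choose_succ_self_right, mul_one] at k2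
  refine isoAt_of_surjAt k1 k2 fun x =>
    ⟨s, ∑ k, (l k ⊗ₜ[X.R] wd X.R r (v k) x : (B.M →ₗ[X.R] X.R) ⊗[X.R] T X.R B.M X.R (r + 1)),
      hs, ?_⟩
  exact (map_sum (TensorProduct.lift (ct (A := X.R) (C := B.M) X.R r)) _ _).trans
    (ct_wd_sum h1 (fun k => (h2 k k).trans (if_pos rfl)) x)

theorem lam_top {a b : K0 X} {r s : ℕ} (ha : BCls a r) (hb : BCls b s) :
    lam (r + s) (a + b) = lam r a * lam s b := by
  rw [lam_add, sum_eq_single (r, s)]
  · intro p hp hne
    rw [HasAntidiagonal.mem_antidiagonal] at hp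
    rcases lt_or_ge r p.1 with h | h
    · rw [lam_gt ha h, zero_mul]
    · have : s < p.2 := by
        by_contra h'
        exact hne (Prod.ext (by simp only; omega) (by simp only; omega))
      rw [lam_gt hb this, mul_zero]
  · simp

theorem lamS_delta {δ n : K0 X} (h : ∀ k, 2 ≤ k → lam k (δ + n) = lam k n) :
    lamS (δ + n) = lamS n + PowerSeries.C δ * PowerSeries.X := by
  ext k
  rw [map_add, coeff_lamS, coeff_lamS, PowerSeries.coeff_C_mul, PowerSeries.coeff_X]
  rcases k with _ | _ | k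
  · simp [lam_zero]
  · simp [lam_one, add_comm]
  · rw [h _ (by omega), if_neg (by omega), mul_zero, add_zero]

end Dual

open GMod PowerSeries

variable {Y : Spc} {δ n : K0 Y}

theorem dual_mul_det {a : K0 Y} {r : ℕ} (h : BCls a (r + 1)) :
    dualK Y a * lam (r + 1) a = lam r a := by
  obtain ⟨B, hB, rfl⟩ := h.exists
  have h1 := kc_ten hB.dual ((hB.ext (r + 1)).ten (isBun_one Y))
  have h2 := kc_ten (hB.ext r) (isBun_one Y)
  rw [kc_qis (Dual.qis_ct hB), kc_ten (hB.ext (r + 1)) (isBun_one Y), kc_one, mul_one,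
    ← lam_kc hB, Nat.choose_self, mul_one, mul_one] at h1
  rw [kc_one, mul_one, mul_one, ← lam_kc hB, Nat.choose_succ_self_right] at h2
  rw [dualK_kc hB, ← h1, h2]

theorem dual_delta {F B : K0 Y} {N : ℕ} (hF : BCls F (N + 1)) (hB : BCls B N) (hn : BCls n 2)
    (hδ : δ = 1 - (F - B)) (h : ∀ k, 2 ≤ k → lam k (δ + n) = lam k n) :
    lam 2 n * dualK Y δ = δ := by
  have ha : BCls (B + n) (N + 1 + 1) := hB.add hn
  have hb : BCls (F + n) (N + 2 + 1) := by
    have := hF.add hn
    rwa [show N + 1 + 2 = N + 2 + 1 by omega] at this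
  have e : F + (δ + n) = B + n + 1 := by rw [hδ]; ring
  have key : ∀ i, lam (i + 1) (F + n) + δ * lam i F = lam (i + 1) (B + n) + lam i (B + n) := by
    intro i
    have h1 := lam_succ_add bCls_one (B + n) i
    rw [← e, mul_one, ← coeff_lamS, lamS_add, Dual.lamS_delta h, mul_add, ← lamS_add, map_add,
      mul_left_comm, coeff_C_mul, coeff_succ_mul_X] at h1
    exact h1
  have h1 := key (N + 2)
  rw [lam_gt hF (by omega), mul_zero, add_zero, lam_gt ha (by omega), zero_add] at h1
  have h2 := key (N + 1)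
  have h3 := Dual.lam_top hF hn
  rw [← dual_mul_det ha, show N + 1 + 1 = N + 2 from rfl, ← dual_mul_det hb, ← h1,
    show N + 2 + 1 = N + 1 + 2 by omega, h3] at h2
  have h4 := (hF.lam (N + 1))
  rw [Nat.choose_self] at h4
  have h5 := congrArg (dualK Y) e
  simp only [map_add, map_one] at h5 h2
  have h6 := h4.mul_dual
  linear_combination (dualK Y (lam (N + 1) F) * lam (N + 1) F * lam 2 n) * h5
    - dualK Y (lam (N + 1) F) * h2 - (lam 2 n * dualK Y δ - δ) * h6

theorem cT_delta (h0 : rk Y δ = 0) (hn : rk Y n = 2) (h : ∀ k, 2 ≤ k → lam k (δ + n) = lam k n) :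
    cT δ = 1 - C δ * (X + X ^ 2) * cT (-n) := by
  have e : ∀ a : K0 Y, cT a = binomialSeries (K0 Y) (rk Y a) * Cc.sb (K0 Y) (lamS a) := fun a =>
    PowerSeries.ext fun i => by rw [Cc.coeff_ph]; exact coeff_cT i a
  have h1 : Cc.sb (K0 Y) X = Cc.uu (K0 Y) := substAlgHom_X _
  have h2 : Cc.sb (K0 Y) (C δ) = C δ := (Cc.sb (K0 Y)).commutes δ
  have h3 := Cc.bin_mul_uu (A := K0 Y) 2 1
  have h4 := binomialSeries_nat (R := ℤ) (A := K0 Y) 1
  rw [show (2 : ℤ) - (1 : ℕ) = (1 : ℕ) from rfl, h4] at h3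
  have h5 := e (δ + n)
  rw [map_add, h0, zero_add, Dual.lamS_delta h, map_add, mul_add, ← e, map_mul, h1, h2, hn,
    cT_add] at h5
  linear_combination cT (-n) * h5 + C δ * cT (-n) * h3 - (cT δ - 1) * cT_neg_mul n

theorem pullK_cst {S : Spc} (W : Spc) (z : S.Pt) (a : K0 S) :
    pullK (Mor.cst W z) a = (rk S a : K0 W) := by
  induction a using AK.K0_ind with
  | h2 x y hx hy => rw [map_sub, hx, hy, map_sub, Int.cast_sub]
  | h1 M r h =>
    obtain ⟨s, v, l, hs, h1, -⟩ := AK.free_basis (h z)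
    have h2 := kc_pi (M := fun _ : Fin r => one W) fun _ => isBun_one W
    have h3 := isBun_pi (M := fun _ : Fin r => one W) fun _ => isBun_one W
    simp only [kc_one, Finset.sum_const, Finset.card_univ, Fintype.card_fin, smul_eq_mul, mul_one,
      nsmul_eq_mul] at h2 h3
    rw [pullK_kc _ h, rk_kc h, Int.cast_natCast, ← h2]
    obtain ⟨F, hF⟩ : ∃ F : (Fin r → W.R) →ₗ[W.R] ((Mor.cst W z).pull M).M,
        ∀ c, F c = ∑ i, c i • AK.pu (Mor.cst W z) M (v i) :=
      ⟨Fintype.linearCombination W.R _, fun c => Fintype.linearCombination_apply _ _ _⟩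
    refine (kc_qis (A := pi fun _ : Fin r => one W) (f := F) ⟨fun t (c : Fin r → W.R) => ?_,
      fun w => isoAt_of_surjAt (h3 w) (h.pull _ w) fun m => ?_⟩ r).symm
    · have h4 : tor (Mor.cst W z).ρ t = 1 := funext fun j => Finset.prod_eq_one fun _ _ => zpow_zero _
      refine (hF fun i => W.act t (c i)).trans (Eq.trans ?_ (congrArg _ (hF c)).symm)
      rw [map_sum]
      refine Finset.sum_congr rfl fun i _ => ?_
      rw [act_smul, AK.pu_act, h4, M.act_one]
    · have key : ∃ c, F c = (Mor.cst W z).φ s • m := by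
        induction m using AK.pu_ind with
        | h0 => exact ⟨0, by rw [map_zero, smul_zero]⟩
        | h1 x =>
          refine ⟨fun i => (Mor.cst W z).φ (l i x), ?_⟩
          rw [hF, ← AK.pu_smul, ← h1, map_sum]
          exact Finset.sum_congr rfl fun i _ => (AK.pu_smul _ _ _).symm
        | hs t m hm => exact hm.elim fun c hc => ⟨t • c, by rw [map_smul, hc, smul_comm]⟩
        | ha x y hx hy =>
          obtain ⟨c, hc⟩ := hx
          obtain ⟨d, hd⟩ := hy
          exact ⟨c + d, by rw [map_add, hc, hd, smul_add]⟩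
      obtain ⟨c, hc⟩ := key
      exact ⟨_, c, (w.1.commutes (z.1 s)).trans_ne hs, hc⟩

end Vale.Agent.P297Z.Dg
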