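import Vale.Agent.P297Z.Diag.Defs
import Vale.Agent.P297Z.K.Proj
import Vale.Agent.P297Z.K.Homot
import Vale.Agent.P297Z.K.PK

/-!
# P297, diagonal: the direct image of a module on a closed set, the push-forward of a graph
-/

set_option linter.all false

open scoped TensorProduct

noncomputable section

namespace Vale.Agent.P297Z.Dg

open GMod

variable {W X Y S : Spc} {Z : Set Y.Pt} {hZ : Y.Stab Z}

theorem res_ten {m r : ℕ} {U M : GMod Y} {x : K0 Y} (hU : U.IsBun r) (h : Res m M x) :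
    Res m (U.ten M) (kc U r * x) := by
  induction m generalizing M x with
  | zero =>
    obtain ⟨s, hs, rfl⟩ := h
    exact ⟨r * s, hU.ten hs, (kc_ten hU hs).symm⟩
  | succ m ih =>
    obtain ⟨N, P, p, y, f, g, h1, h2, h3, rfl⟩ := h
    exact ⟨U.ten N, U.ten P, r * p, kc U r * y, _, _, h1.ten_left hU, hU.ten h2, ih h3, by
      rw [mul_sub, kc_ten hU h2]⟩

/-- the class of a function in the structure module of a closed set -/
def mkO (Y : Spc) (Z : Set Y.Pt) (hZ : Y.Stab Z) : (GMod.one Y).M →ₗ[Y.R] (OZ Y Z hZ).M :=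
  Submodule.mkQ _

theorem mkO_surj : Function.Surjective (mkO Y Z hZ) := Submodule.mkQ_surjective _

theorem mkO_isHom : (GMod.one Y).IsHom (OZ Y Z hZ) (mkO Y Z hZ) := isHom_mkQ _ _ _

/-- the structure module of a closed set is the ring of the closed subspace -/
def toQ (Y : Spc) (Z : Set Y.Pt) (hZ : Y.Stab Z) : (OZ Y Z hZ).M ≃+ (Y.sub Z hZ).R :=
  AddEquiv.refl _

theorem toQ_mk (a : Y.R) : toQ Y Z hZ (mkO Y Z hZ a) = (Mor.incl Y Z hZ).φ a := rfl

theorem toQ_smul (r : Y.R) (a : (OZ Y Z hZ).M) :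
    toQ Y Z hZ (r • a) = (Mor.incl Y Z hZ).φ r * toQ Y Z hZ a := by
  obtain ⟨a, rfl⟩ := mkO_surj a
  rfl

theorem toQ_act (g : Y.J → ℂˣ) (a : (OZ Y Z hZ).M) :
    toQ Y Z hZ ((OZ Y Z hZ).act g a) = (Y.sub Z hZ).act g (toQ Y Z hZ a) := by
  obtain ⟨a, rfl⟩ := mkO_surj a
  rfl

theorem incl_surj : Function.Surjective (Mor.incl Y Z hZ).φ := Ideal.Quotient.mk_surjective

/-- the identity map to the direct image -/
def toR (A : GMod (Y.sub Z hZ)) : A.M ≃+ (res A).M := AddEquiv.refl _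

theorem smul_toR (A : GMod (Y.sub Z hZ)) (r : Y.R) (m : A.M) :
    r • toR A m = toR A ((Mor.incl Y Z hZ).φ r • m) := rfl

theorem act_toR (A : GMod (Y.sub Z hZ)) (g : Y.J → ℂˣ) (m : A.M) :
    (res A).act g (toR A m) = toR A (A.act g m) := rfl

theorem tor_incl (g : Y.J → ℂˣ) : tor (Mor.incl Y Z hZ).ρ g = g :=
  chr_ext fun γ => chr_tor _ _ _

theorem qis_res_pull (hZ : Y.Stab Z) (U : GMod Y) :
    ∃ e, Qis (U.ten (OZ Y Z hZ)) (res ((Mor.incl Y Z hZ).pull U)) e := by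
  set i := Mor.incl Y Z hZ with hi
  let e : (U.ten (OZ Y Z hZ)).M →ₗ[Y.R] (res (i.pull U)).M := TensorProduct.lift
    (LinearMap.mk₂ Y.R (fun u a => toR _ (i.tm U (toQ Y Z hZ a) u))
      (fun u v a => by rw [i.tm_add, map_add])
      (fun r u a => by rw [i.tm_smul, smul_toR, i.smul_tm])
      (fun u a b => by rw [map_add, i.tm_add_left, map_add])
      (fun r u a => by rw [toQ_smul, smul_toR, i.smul_tm]))
  have he : ∀ u a, e (U.tm _ u a) = toR _ (i.tm U (toQ Y Z hZ a) u) := fun _ _ => rfl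
  let k : (i.pull U).M →+ (U.ten (OZ Y Z hZ)).M := i.pullLift U
    { toFun := fun a => { toFun := fun u => U.tm _ u ((toQ Y Z hZ).symm a)
                          map_zero' := U.tm_zero_left _ _
                          map_add' := fun u v => U.tm_add_left _ u v _ }
      map_zero' := AddMonoidHom.ext fun u => U.tm_zero _ u
      map_add' := fun a b => AddMonoidHom.ext fun u => U.tm_add _ u _ _ }
    fun r a u => by
      obtain ⟨a, rfl⟩ := (toQ Y Z hZ).surjective a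
      rw [← toQ_smul]
      exact U.tm_smul _ r u a
  have hk : ∀ a u, k (i.tm U (toQ Y Z hZ a) u) = U.tm _ u a := fun a u => i.pullLift_tm U _ _ _ _
  refine ⟨e, qis_of_bij (fun g x => ?_) fun z => ⟨InjAt.of_inj ?_, SurjAt.of_surj fun y => ?_⟩⟩
  · induction x using GMod.ten_induction with
    | h0 => simp only [map_zero]
    | ha x y hx hy => simp only [map_add, hx, hy]
    | ht u a =>
      rw [GMod.act_tm, he, he, act_toR, toQ_act]
      refine congrArg (toR _) (Eq.trans ?_ (i.act_tm U g _ u).symm)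
      exact congrArg (fun t => i.tm U _ (U.act t u)) (tor_incl g).symm
  · refine Function.LeftInverse.injective (g := fun y => k ((toR _).symm y)) fun x => ?_
    induction x using GMod.ten_induction with
    | h0 => simp only [map_zero]
    | ha x y hx hy => simp only [map_add, hx, hy]
    | ht u a => exact hk a u
  · obtain ⟨y, rfl⟩ := (toR _).surjective y
    induction y using i.pull_induction with
    | h0 => exact ⟨0, by rw [map_zero, map_zero]⟩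
    | ha x y hx hy =>
      obtain ⟨a, ha⟩ := hx
      obtain ⟨b, hb⟩ := hy
      exact ⟨a + b, by rw [map_add, map_add, ha, hb]⟩
    | ht a u => exact ⟨U.tm _ u ((toQ Y Z hZ).symm a), he _ _⟩

/-- the map on the direct images -/
def resMap {A B : GMod (Y.sub Z hZ)} (u : A.M →ₗ[(Y.sub Z hZ).R] B.M) :
    (res A).M →ₗ[Y.R] (res B).M where
  toFun := u
  map_add' := map_add u
  map_smul' := fun r m => u.map_smul ((Mor.incl Y Z hZ).φ r) m

theorem res_cases (hZ : Y.Stab Z) (z : Y.Pt) :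
    (∃ a, z.1 a ≠ 0 ∧ ∀ (A : GMod (Y.sub Z hZ)) (m : (res A).M), a • m = 0) ∨
      ∃ w : (Y.sub Z hZ).Pt, ∀ r, w.1 r ≠ 0 → ∃ a, z.1 a ≠ 0 ∧ (Mor.incl Y Z hZ).φ a = r := by
  by_cases h : ∀ a ∈ Y.van Z, z.1 a = 0
  · refine Or.inr ⟨⟨Ideal.Quotient.liftₐ (Y.van Z) z.1 h, (Spc.sub_pt Y Z hZ _).2 z.2⟩,
      fun r hr => ?_⟩
    obtain ⟨a, rfl⟩ := incl_surj r
    exact ⟨a, hr, rfl⟩
  · push Not at h
    obtain ⟨a, ha, h⟩ := h
    refine Or.inl ⟨a, h, fun A m => ?_⟩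
    obtain ⟨m, rfl⟩ := (toR A).surjective m
    have h0 : (Mor.incl Y Z hZ).φ a = 0 := Ideal.Quotient.eq_zero_iff_mem.2 ha
    rw [smul_toR, h0, zero_smul, map_zero]

theorem ex_res {A B C : GMod (Y.sub Z hZ)} {u : A.M →ₗ[(Y.sub Z hZ).R] B.M}
    {v : B.M →ₗ[(Y.sub Z hZ).R] C.M} (h : ∀ w : (Y.sub Z hZ).Pt, ExAt w.1 u v) (z : Y.Pt) :
    ExAt z.1 (resMap u) (resMap v) := fun b hb => by
  rcases res_cases hZ z with ⟨a, h1, h2⟩ | ⟨w, hw⟩
  · exact ⟨a, 0, h1, by rw [map_zero, h2]⟩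
  · obtain ⟨r, x, h1, h2⟩ := h w b hb
    obtain ⟨a, h3, rfl⟩ := hw r h1
    exact ⟨a, x, h3, h2⟩

theorem inj_res {A B : GMod (Y.sub Z hZ)} {u : A.M →ₗ[(Y.sub Z hZ).R] B.M}
    (h : ∀ w : (Y.sub Z hZ).Pt, InjAt w.1 u) (z : Y.Pt) : InjAt z.1 (resMap u) :=
  AK.inj_iff.2 (ex_res (u := 0) (fun w => AK.inj_iff.1 (h w)) z)

theorem surj_res {A B : GMod (Y.sub Z hZ)} {u : A.M →ₗ[(Y.sub Z hZ).R] B.M}
    (h : ∀ w : (Y.sub Z hZ).Pt, SurjAt w.1 u) (z : Y.Pt) : SurjAt z.1 (resMap u) :=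
  AK.surj_iff.2 (ex_res (v := 0) (fun w => AK.surj_iff.1 (h w)) z)

theorem ses_res {A B C : GMod (Y.sub Z hZ)} {u : A.M →ₗ[(Y.sub Z hZ).R] B.M}
    {v : B.M →ₗ[(Y.sub Z hZ).R] C.M} (h : SES A B C u v) :
    SES (res A) (res B) (res C) (resMap u) (resMap v) :=
  ⟨h.1, h.2.1, h.2.2.1, fun z => ⟨inj_res (fun w => (h.2.2.2 w).1) z,
    ex_res (fun w => (h.2.2.2 w).2.1) z, surj_res (fun w => (h.2.2.2 w).2.2) z⟩⟩

theorem qis_res {A B : GMod (Y.sub Z hZ)} {u : A.M →ₗ[(Y.sub Z hZ).R] B.M} (h : Qis A B u) :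
    Qis (res A) (res B) (resMap u) :=
  qis_of_bij h.1 fun z => ⟨inj_res (fun w => (h.2 w).injAt) z, surj_res (fun w => (h.2 w).surjAt) z⟩

theorem res_pull {n r : ℕ} {δ : K0 Y} (hδ : Res n (OZ Y Z hZ) δ) {U : GMod Y} (hU : U.IsBun r) :
    Res n (res ((Mor.incl Y Z hZ).pull U)) (δ * kc U r) := by
  obtain ⟨e, he⟩ := qis_res_pull hZ U
  rw [mul_comm]
  exact (Res.qis he).1 (res_ten hU hδ)

theorem res_bun {n r : ℕ} {δ : K0 Y} (hδ : Res n (OZ Y Z hZ) δ) (hF : (Y.sub Z hZ).Free)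
    (t : Mor Y (Y.sub Z hZ)) (ht : (t.comp (Mor.incl Y Z hZ)).Homot (Mor.id _))
    {V : GMod (Y.sub Z hZ)} (h : V.IsBun r) : Res n (res V) (δ * pullK t (kc V r)) := by
  obtain ⟨N, u, v, hu, hv⟩ := ht.roof hF V
  obtain ⟨a, ha, -⟩ := AK.pull_comp t (Mor.incl Y Z hZ) V
  obtain ⟨b, hb⟩ := AK.pull_id V
  rw [pullK_kc t h]
  exact (Res.qis (qis_res (hv.comp hb))).1
    ((Res.qis (qis_res (hu.comp ha))).2 (res_pull hδ (h.pull t)))

theorem res_mono {n : ℕ} {M : GMod Y} {x : K0 Y} (h : Res n M x) (m : ℕ) : Res (m + n) M x := by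
  induction m with
  | zero => rwa [zero_add]
  | succ m ih => rw [Nat.succ_add]; exact ih.succ

theorem res_res {δ : K0 Y} (hδ : Res 2 (OZ Y Z hZ) δ) (hF : (Y.sub Z hZ).Free)
    (t : Mor Y (Y.sub Z hZ)) (ht : (t.comp (Mor.incl Y Z hZ)).Homot (Mor.id _)) (m : ℕ)
    (V : GMod (Y.sub Z hZ)) (x : K0 (Y.sub Z hZ)) (h : Res m V x) :
    Res (m + 2) (res V) (δ * pullK t x) := by
  induction m generalizing V x with
  | zero =>
    obtain ⟨r, hr, rfl⟩ := h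
    exact res_bun hδ hF t ht hr
  | succ m ih =>
    obtain ⟨N, P, p, y, f, g, h1, h2, h3, rfl⟩ := h
    rw [map_sub, mul_sub]
    exact Res.right (n := m + 2) (ses_res h1) (ih N y h3) (res_mono (res_bun hδ hF t ht h2) (m + 1))

theorem mul_restr [Nonempty Y.Pt] {δ : K0 Y} (hδ : Res 2 (OZ Y Z hZ) δ) (hF : (Y.sub Z hZ).Free)
    (t : Mor Y (Y.sub Z hZ)) (ht : (t.comp (Mor.incl Y Z hZ)).Homot (Mor.id _)) (c : K0 Y) :
    δ * c = δ * pullK ((Mor.incl Y Z hZ).comp t) c := by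
  induction c using AK.K0_ind with
  | h1 U r hU =>
    rw [pullK_comp, pullK_kc _ hU]
    exact (res_pull hδ hU).unique' (res_bun hδ hF t ht (hU.pull _))
  | h2 x y hx hy => rw [map_sub, mul_sub, mul_sub, hx, hy, ← hx, ← hy]

theorem gr_mul [Nonempty (X.prod S).Pt] (hX : X.IsProj) (hS : S.IsProj) (x : Mor X S)
    {δ : K0 (X.prod S)} (hδ : Res 2 (OZ _ x.grS x.grS_stab) δ) (c : K0 (X.prod S)) :
    δ * c = δ * pullK (Mor.fst X S) (pullK (Mor.lift (Mor.id X) x) c) := by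
  rw [← pullK_comp, ← x.incl_sec]
  exact mul_restr hδ (x.gr_isProj hX hS).free (x.sec.comp (Mor.fst X S)) (x.sec_gr1 hS) c

/-- the part of the structure module of the image of a section -/
theorem part_sec {f : Mor Y X} (P : Prj f) (s : Mor X Y) (hs : f.comp s = Mor.id X)
    (h1 : ∀ z, s.onPt z ∈ Z) (h2 : ∀ w ∈ Z, Y.Orb w (s.onPt (f.onPt w))) (k : P.E → ℤ)
    (h3 : ∀ z : X.Pt, ∃ a ∈ Y.wt (P.σ k), z.1 (s.φ a) ≠ 0) :
    ∃ e, Qis (P.part k (OZ Y Z hZ)) ((GMod.one X).shift (s.ρ (P.σ k))) e := by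
  have e1 : ∀ r, s.φ (f.φ r) = r := fun r => congrArg (fun u => u.φ r) hs
  have e2 : ∀ γ, s.ρ (f.ρ γ) = γ := fun γ => congrArg (fun u => u.ρ γ) hs
  let L : (P.part k (OZ Y Z hZ)).M → X.R := fun m => (s.toSub Z hZ h1).φ (toQ Y Z hZ (P.val m))
  have hL : ∀ m a, P.val m = mkO Y Z hZ a → L m = s.φ a := fun m a h => by
    simp only [L, h]
    rfl
  have hL2 : ∀ (r : X.R) m, L (r • m) = r * L m := fun r m => by
    simp only [L]
    rw [P.val_smul, toQ_smul, map_mul]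
    exact congrArg (· * _) (e1 r)
  let e : (P.part k (OZ Y Z hZ)).M →ₗ[X.R] ((GMod.one X).shift (s.ρ (P.σ k))).M :=
    { toFun := L
      map_add' := fun a b => by simp only [L, map_add]; rfl
      map_smul' := hL2 }
  have hrep : ∀ γ, ∀ m ∈ (P.part k (OZ Y Z hZ)).wt γ,
      ∃ a ∈ Y.wt (f.ρ γ + P.σ k), P.val m = mkO Y Z hZ a := fun γ m hm => by
    obtain ⟨a, ha⟩ := mkO_surj (P.val m)
    obtain ⟨b, hb, h⟩ := mkO_isHom.exists_preimage (m := a) (ha ▸ P.mem_part_wt'.1 hm)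
    exact ⟨b, hb, (h.trans ha).symm⟩
  have he : (P.part k (OZ Y Z hZ)).IsHom _ e := isHom_of_wt fun γ m hm => by
    obtain ⟨a, ha, h⟩ := hrep γ m hm
    have h4 := s.wt_map _ a ha
    rw [map_add, e2, ← hL m a h] at h4
    exact mem_shift_wt.2 h4
  refine ⟨e, qis_of_bij he fun z => ⟨InjAt.of_inj ((injective_iff_map_eq_zero _).2 fun m hm => ?_),
    fun b => ?_⟩⟩
  · refine GMod.induction_sub _ he.stab_ker (P := fun m => m = 0) rfl (fun γ m h4 hm => ?_)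
      (fun x y hx hy => by rw [hx, hy, add_zero]) m hm
    obtain ⟨a, ha, h⟩ := hrep γ m hm
    have h5 : s.φ a = 0 := (hL m a h).symm.trans h4
    refine P.val_inj (h.trans (Eq.trans ?_ (map_zero _).symm))
    refine (Submodule.Quotient.mk_eq_zero _).2 fun w hw => ?_
    by_contra hn
    exact ((h2 w hw).ne_iff ha).1 hn ((congrArg (f.onPt w).1 h5).trans (map_zero _))
  · obtain ⟨a, ha, h4⟩ := h3 z
    have h5 := P.mem_wtE (mkO_isHom (hZ := hZ).map_wt ha)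
    rw [P.π_σ] at h5
    have h6 : ∀ b : X.R, ∃ m, L m = s.φ a * b := fun b => ⟨b • P.el _ h5, by
      rw [hL2, hL (P.el _ h5) a rfl, mul_comm]⟩
    obtain ⟨m, hm⟩ := h6 b
    exact ⟨s.φ a, m, h4, hm⟩

theorem push_res {f : Mor Y X} {P : Prj f} (hP : P.Nice) (hC : X.Cn) {n : ℕ} {M : GMod Y}
    {x : K0 Y} (h : Res n M x) :
    ∃ k₀, ∀ k, k₀ ≤ k → Res n (P.part k M) (pushK P (line Y (P.σ k) * x)) := by
  induction n generalizing M x with
  | zero =>
    obtain ⟨r, hr, rfl⟩ := h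
    rw [kc_eq hr]
    exact pushK_part hP hC ⟨M, r, hr⟩
  | succ n ih =>
    obtain ⟨N, Q, p, y, u, v, h1, h2, h3, rfl⟩ := h
    obtain ⟨k1, a1⟩ := P.part_ses h1
    obtain ⟨k2, a2⟩ := pushK_part hP hC ⟨Q, p, h2⟩
    obtain ⟨k3, a3⟩ := ih h3
    refine ⟨k1 ⊔ (k2 ⊔ k3), fun k hk => ?_⟩
    obtain ⟨r, b1, b2⟩ := a2 k (le_sup_left.trans (le_sup_right.trans hk))
    exact ⟨_, _, r, _, _, _, a1 k (le_sup_left.trans hk), b1,
      a3 k (le_sup_right.trans (le_sup_right.trans hk)), by rw [mul_sub, map_sub, kc_eq h2, b2]⟩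

theorem pK_gr (hX : X.IsProj) (hC : X.Cn) (hS : S.IsProj) (x : Mor X S) {δ : K0 (X.prod S)}
    (hδ : Res 2 (OZ _ x.grS x.grS_stab) δ) (c : K0 (X.prod S)) :
    pK X S (δ * c) = pullK (Mor.lift (Mor.id X) x) c := by
  haveI := hC.ne
  haveI : Nonempty (X.prod S).Pt := hC.ne.map (Mor.lift (Mor.id X) x).onPt
  have h1 : ∀ c, pK X S (δ * c) = pullK (Mor.lift (Mor.id X) x) c * pK X S δ := fun c => by
    rw [gr_mul hX hS x hδ, mul_comm, pK_mul hC hS]
  have p1 : ∀ z, (Mor.fst X S).onPt ((Mor.lift (Mor.id X) x).onPt z) = z := fun z => by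
    rw [← Mor.onPt_comp, Mor.fst_lift, Mor.onPt_id]
  have p2 : ∀ z, (Mor.snd X S).onPt ((Mor.lift (Mor.id X) x).onPt z) = x.onPt z := fun z => by
    rw [← Mor.onPt_comp, Mor.snd_lift]
  obtain ⟨k₀, h2⟩ := push_res (Prj.fst X hS).nice_fst hC hδ
  obtain ⟨e, he⟩ := part_sec (hZ := x.grS_stab) (Prj.fst X hS) (Mor.lift (Mor.id X) x)
    (Mor.fst_lift _ _)
    (fun z => by
      show S.Orb (x.onPt _) _
      rw [p1, p2]
      exact Spc.Orb.refl _)
    (fun w hw => (Spc.orb_prod _ _).2 ⟨by rw [p1]; exact Spc.Orb.refl _, by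
      rw [p2]
      exact Spc.Orb.symm hw⟩) (k₀ ⊔ 0)
    fun z => by
      obtain ⟨r, hr, h⟩ := hS.exists_ne (x.onPt z) (γ := k₀ ⊔ 0) le_sup_right
      refine ⟨(Mor.snd X S).φ r, (Mor.snd X S).wt_map _ r hr, fun h0 => h ?_⟩
      rw [← p2]
      exact h0
  have h3 := (h2 _ le_sup_left).unique'
    ((Res.qis he).2 (Res.bun ((isBun_one X).shift _) 2))
  rw [← pK_eq hC, mul_comm, h1, pullK_line] at h3
  have h4 := congrArg (line X (-(Mor.lift (Mor.id X) x).ρ ((Prj.fst X hS).σ (k₀ ⊔ 0))) * ·) h3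
  rw [← mul_assoc, line_neg_mul, one_mul] at h4
  rw [h1, h4.trans (line_neg_mul _), mul_one]

end Vale.Agent.P297Z.Dg
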