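import Vale.Agent.P297Z.Diag.LDA

/-!
# P297, diagonal: the equations of a graph
-/

open scoped TensorProduct
open Polynomial

noncomputable section

namespace Vale.Agent.P297Z.Dg

theorem Pair.smul {R : Type} [CommRing R] [Algebra ℂ R] {z : R →ₐ[ℂ] ℂ} {u v : R} (h : Pair z u v)
    {c : ℂ} (hc : c ≠ 0) : Pair z (c • u) (c • v) := by
  have k : ∀ {a b : R}, c • a = c • b → a = b := fun e => smul_right_injective R hc e
  refine ⟨by rw [map_smul, h.z1, smul_zero], by rw [map_smul, h.z2, smul_zero], fun a e => ?_,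
    fun a b e => ?_⟩
  · exact h.reg1 a (k (by rw [← smul_mul_assoc, e, smul_zero]))
  · obtain ⟨r, d, h1, h2⟩ := h.reg2 a b (k (by rw [← smul_mul_assoc, e, smul_mul_assoc]))
    refine ⟨r, c⁻¹ • d, h1, ?_⟩
    rw [smul_mul_smul_comm, mul_inv_cancel₀ hc, one_smul, h2]

theorem loc_span {R κ : Type} [CommRing R] [Algebra ℂ R] {z : R →ₐ[ℂ] ℂ} {f : κ → R} {T : Ideal R}
    (h : ∀ i, ∃ r, z r ≠ 0 ∧ r * f i ∈ T) :
    ∀ a ∈ Ideal.span (Set.range f), ∃ r, z r ≠ 0 ∧ r * a ∈ T := fun a ha => by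
  induction ha using Submodule.span_induction with
  | mem x hx => obtain ⟨i, rfl⟩ := hx; exact h i
  | zero => exact ⟨1, ev_one, by simp⟩
  | add x y _ _ hx hy =>
    obtain ⟨r, h1, h2⟩ := hx
    obtain ⟨s, h3, h4⟩ := hy
    refine ⟨r * s, ev_mul h1 h3, ?_⟩
    convert add_mem (T.mul_mem_left s h2) (T.mul_mem_left r h4) using 1
    ring
  | smul c x _ hx =>
    obtain ⟨r, h1, h2⟩ := hx
    exact ⟨r, h1, by rw [smul_eq_mul, mul_left_comm]; exact T.mul_mem_left c h2⟩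

variable {A R : Type} [CommRing A] [Algebra ℂ A] [CommRing R] [Algebra ℂ R] {n : ℕ}

/-- the equations -/
def gq (α : Fin n → A) (y : Fin n → R) (p : Fin n × Fin n) : A ⊗[ℂ] R :=
  α p.1 ⊗ₜ y p.2 - α p.2 ⊗ₜ y p.1

/-- reduction to a polynomial in one variable -/
def Red (a : A) (t : R) (I : Ideal (A ⊗[ℂ] R)) (b : A ⊗[ℂ] R) : Prop :=
  ∃ (N : ℕ) (P : A[X]), (a ⊗ₜ 1) ^ N * b - aeval ((1 : A) ⊗ₜ[ℂ] t) P ∈ I

section red

variable {a : A} {t : R} {I : Ideal (A ⊗[ℂ] R)} {b c : A ⊗[ℂ] R}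

theorem aeval_C' (t : A ⊗[ℂ] R) (a : A) : aeval t (C a) = a ⊗ₜ 1 := aeval_C t a

theorem Red.add (hb : Red a t I b) (hc : Red a t I c) : Red a t I (b + c) := by
  obtain ⟨M, P, h1⟩ := hb
  obtain ⟨N, Q, h2⟩ := hc
  refine ⟨M + N, C a ^ N * P + C a ^ M * Q, ?_⟩
  convert add_mem (I.mul_mem_left ((a ⊗ₜ 1) ^ N) h1) (I.mul_mem_left ((a ⊗ₜ 1) ^ M) h2) using 1
  simp only [map_add, map_mul, map_pow, aeval_C']
  ring

theorem Red.mul (hb : Red a t I b) (hc : Red a t I c) : Red a t I (b * c) := by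
  obtain ⟨M, P, h1⟩ := hb
  obtain ⟨N, Q, h2⟩ := hc
  refine ⟨M + N, P * Q, ?_⟩
  convert add_mem (I.mul_mem_left ((a ⊗ₜ 1) ^ N * c) h1)
    (I.mul_mem_left (aeval ((1 : A) ⊗ₜ[ℂ] t) P) h2) using 1
  rw [map_mul]
  ring

theorem Red.const (s : A) : Red a t I (s ⊗ₜ 1) := ⟨0, C s, by simp⟩

theorem Red.mem (hb : Red a t I b) {T : Ideal (A ⊗[ℂ] R)} (hI : I ≤ T) (h : b ∈ T)
    (hT : ∀ P : A[X], aeval ((1 : A) ⊗ₜ[ℂ] t) P ∈ T → C a * P = 0) :
    ∃ N, (a ⊗ₜ 1) ^ N * b ∈ I := by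
  obtain ⟨N, P, h1⟩ := hb
  have h2 := congrArg (aeval ((1 : A) ⊗ₜ[ℂ] t)) (hT P (by
    convert sub_mem (T.mul_mem_left ((a ⊗ₜ 1) ^ N) h) (hI h1) using 1
    ring))
  rw [map_mul, aeval_C', map_zero] at h2
  refine ⟨N + 1, ?_⟩
  convert I.mul_mem_left (a ⊗ₜ 1) h1 using 1
  linear_combination h2

end red

variable {α : Fin n → A} {y : Fin n → R}

theorem red_all (hy : Algebra.adjoin ℂ (Set.range y) = ⊤) (i : Fin n) (b : A ⊗[ℂ] R) :
    Red (α i) (y i) (Ideal.span (Set.range (gq α y))) b := by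
  induction b using TensorProduct.induction_on with
  | zero => exact ⟨0, 0, by simp⟩
  | add s t hs ht => exact hs.add ht
  | tmul s r =>
    have e : s ⊗ₜ[ℂ] r = s ⊗ₜ 1 * 1 ⊗ₜ r := by simp
    rw [e]
    refine (Red.const s).mul ?_
    have hr : r ∈ Algebra.adjoin ℂ (Set.range y) := hy ▸ Algebra.mem_top
    clear e
    induction hr using Algebra.adjoin_induction with
    | mem x hx =>
      obtain ⟨j, rfl⟩ := hx
      refine ⟨1, C (α j) * X, Ideal.subset_span ⟨(i, j), ?_⟩⟩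
      simp [gq]
    | algebraMap c =>
      rw [Algebra.algebraMap_eq_smul_one, ← TensorProduct.smul_tmul]
      exact Red.const _
    | add s t _ _ hs ht => rw [TensorProduct.tmul_add]; exact hs.add ht
    | mul s t _ _ hs ht => simpa using hs.mul ht

theorem red_up (hy : Algebra.adjoin ℂ (Set.range y) = ⊤) (i : Fin n) {m : Ideal A}
    {b : A ⊗[ℂ] R} (hb : b ∈ up m) :
    Red (α i) (y i) (up m * Ideal.span (Set.range (gq α y))) b :=
  up_ind (P := Red (α i) (y i) (up m * Ideal.span (Set.range (gq α y)))) ⟨0, 0, by simp⟩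
    (fun s hs r => by
      obtain ⟨N, P, h⟩ := red_all (α := α) hy i (1 ⊗ₜ r)
      refine ⟨N, C s * P, ?_⟩
      have e : s ⊗ₜ[ℂ] r = s ⊗ₜ 1 * 1 ⊗ₜ r := by simp
      convert Ideal.mul_mem_mul (tmul_mem_up hs 1) h using 1
      rw [map_mul, aeval_C', e]
      ring) (fun _ _ => Red.add) hb

theorem lci_gq [IsNoetherianRing A] [IsNoetherianRing (A ⊗[ℂ] R)]
    (hy : Algebra.adjoin ℂ (Set.range y) = ⊤) {w : A →ₐ[ℂ] ℂ} {x : R →ₐ[ℂ] ℂ} {i₀ : Fin n}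
    (h0 : w (α i₀) ≠ 0) (hx : ∃ j, x (y j) ≠ 0)
    (hT : ∀ P : A[X], aeval ((1 : A) ⊗ₜ[ℂ] y i₀) P ∈ Ideal.span (Set.range (gq α y)) →
      C (α i₀) * P = 0)
    (hr : x (y i₀) ≠ 0 → L2 x fun i => x (y i₀) • y i - x (y i) • y i₀) :
    Lci (x.comp (fib w)) (gq α y) := by
  refine or_iff_not_imp_left.2 fun hn => ?_
  push Not at hn
  have hz : ∀ s r, x.comp (fib w) (s ⊗ₜ r) = w s * x r := fun s r => by simp [fib_tmul]
  have h1 : ∀ j, w (α i₀) * x (y j) = w (α j) * x (y i₀) := fun j => by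
    have := hn (i₀, j)
    rwa [gq, map_sub, hz, hz, sub_eq_zero] at this
  have h2 : x (y i₀) ≠ 0 := fun o => by
    obtain ⟨j, hj⟩ := hx
    exact mul_ne_zero h0 hj (by rw [h1, o, mul_zero])
  obtain ⟨i₁, i₂, hp, r, h3, h4⟩ := hr h2
  have h5 : ∀ j, fib w (gq α y (i₀, j)) =
      (w (α i₀) / x (y i₀)) • (x (y i₀) • y j - x (y j) • y i₀) := fun j => by
    rw [gq, map_sub, fib_tmul, fib_tmul, smul_sub, smul_smul, smul_smul, div_mul_cancel₀ _ h2,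
      div_mul_eq_mul_div, h1, mul_div_cancel_right₀ _ h2]
  have hα : ∀ N, x.comp (fib w) ((α i₀ ⊗ₜ 1) ^ N) ≠ 0 := ev_pow (by rwa [hz, map_one, mul_one])
  have h6 : up (R := R) (RingHom.ker w) ≤ RingHom.ker (x.comp (fib w)) :=
    Ideal.map_le_iff_le_comap.2 fun a ha => by simp [RingHom.mem_ker, fib_tmul, RingHom.mem_ker.1 ha]
  have hg : ∀ p, gq α y p ∈ Ideal.span (Set.range (gq α y)) := fun p => Ideal.subset_span ⟨p, rfl⟩
  obtain ⟨s, h7, h8⟩ := naka_at (z := x.comp (fib w))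
    (I := Ideal.span {gq α y (i₀, i₁), gq α y (i₀, i₂)}) (loc_span (f := gq α y) fun p => by
      suffices ∀ j, ∃ r, x.comp (fib w) r ≠ 0 ∧ r * gq α y (i₀, j) ∈
          Ideal.span {gq α y (i₀, i₁), gq α y (i₀, i₂)} ⊔
            RingHom.ker (x.comp (fib w)) * Ideal.span (Set.range (gq α y)) by
        obtain ⟨r₁, h7, h8⟩ := this p.1
        obtain ⟨r₂, h9, h10⟩ := this p.2
        refine ⟨r₁ * r₂ * (α i₀ ⊗ₜ 1) ^ 1, ev_mul (ev_mul h7 h9) (hα 1), ?_⟩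
        have e : (α i₀ ⊗ₜ[ℂ] (1 : R)) * gq α y p =
            α p.1 ⊗ₜ 1 * gq α y (i₀, p.2) - α p.2 ⊗ₜ 1 * gq α y (i₀, p.1) := by
          simp only [gq, mul_sub, Algebra.TensorProduct.tmul_mul_tmul, one_mul, mul_comm (α i₀),
            mul_comm (α p.1) (α p.2)]
          ring
        convert sub_mem (Ideal.mul_mem_left _ (r₁ * α p.1 ⊗ₜ 1) h10)
          (Ideal.mul_mem_left _ (r₂ * α p.2 ⊗ₜ 1) h8) using 1
        linear_combination r₁ * r₂ * e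
      intro j
      obtain ⟨a, b, e⟩ := h4 j
      have h7 := sub_fib_mem w
        (1 ⊗ₜ r * gq α y (i₀, j) - (1 ⊗ₜ a * gq α y (i₀, i₁) + 1 ⊗ₜ b * gq α y (i₀, i₂)))
      have h8 : fib w (1 ⊗ₜ r * gq α y (i₀, j) -
          (1 ⊗ₜ a * gq α y (i₀, i₁) + 1 ⊗ₜ b * gq α y (i₀, i₂))) = 0 := by
        simp only [map_sub, map_add, map_mul, h5, fib_tmul, map_one, one_smul, mul_smul_comm]
        rw [← smul_add, ← smul_sub]
        exact smul_eq_zero_of_right _ (sub_eq_zero.2 e)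
      rw [h8, TensorProduct.tmul_zero, sub_zero] at h7
      obtain ⟨N, h9⟩ := (red_up (α := α) hy i₀ h7).mem (Ideal.mul_le_inf.trans inf_le_right)
        (sub_mem (Ideal.mul_mem_left _ _ (hg _))
          (add_mem (Ideal.mul_mem_left _ _ (hg _)) (Ideal.mul_mem_left _ _ (hg _)))) hT
      refine ⟨(α i₀ ⊗ₜ 1) ^ N * 1 ⊗ₜ r, ev_mul (hα N) (by rwa [hz, map_one, one_mul]), ?_⟩
      convert Submodule.add_mem_sup (Ideal.mul_mem_left _ ((α i₀ ⊗ₜ[ℂ] (1 : R)) ^ N)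
        (Ideal.mem_span_pair.2 ⟨1 ⊗ₜ a, 1 ⊗ₜ b, rfl⟩)) (Ideal.mul_mono_left h6 h9) using 1
      ring)
  refine ⟨(i₀, i₁), (i₀, i₂), Pair.of_fib ?_, s, h7, fun p => ?_⟩
  · rw [h5, h5]
    exact hp.smul (div_ne_zero h0 h2)
  · obtain ⟨a, b, e⟩ := Ideal.mem_span_pair.1 (h8 _ (hg p))
    exact ⟨a, b, e.symm⟩

end Vale.Agent.P297Z.Dg
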