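import Vale.Agent.P297Z.Diag.Defs
import Vale.Agent.P297Z.Diag.LDB
import Vale.Agent.P297Z.K.Proj
import Vale.Agent.P297Z.K.Prj

/-!
# P297, diagonal: the graph of a map to a smooth surface is cut by regular pairs
-/

open scoped TensorProduct
open Polynomial

noncomputable section

namespace Vale.Agent.P297Z.Dg

theorem eq_comp_fib {A R : Type} [CommRing A] [Algebra ℂ A] [CommRing R] [Algebra ℂ R]
    (w : A ⊗[ℂ] R →ₐ[ℂ] ℂ) : (w.comp Algebra.TensorProduct.includeRight).comp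
      (fib (w.comp Algebra.TensorProduct.includeLeft)) = w :=
  Algebra.TensorProduct.ext' fun a r => by simp [fib_tmul, ← map_mul]

/-- a pair that is regular on the fibre is regular -/
theorem Pair.of_fibre {A R : Type} [CommRing A] [Algebra ℂ A] [Algebra.FiniteType ℂ A] [CommRing R]
    [Algebra ℂ R] [Algebra.FiniteType ℂ R] (w : A ⊗[ℂ] R →ₐ[ℂ] ℂ) (π : A ⊗[ℂ] R →ₐ[ℂ] R)
    (hπ : ∀ a r, π (a ⊗ₜ[ℂ] r) = w (a ⊗ₜ[ℂ] 1) • r) {u v : A ⊗[ℂ] R}
    (h : Pair (w.comp Algebra.TensorProduct.includeRight) (π u) (π v)) : Pair w u v := by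
  have := Algebra.FiniteType.isNoetherianRing ℂ A
  have : Algebra.FiniteType ℂ (A ⊗[ℂ] R) := Algebra.FiniteType.trans (S := A) ‹_› inferInstance
  have := Algebra.FiniteType.isNoetherianRing ℂ (A ⊗[ℂ] R)
  obtain rfl : π = fib (w.comp Algebra.TensorProduct.includeLeft) :=
    Algebra.TensorProduct.ext' fun a r => (hπ a r).trans (fib_tmul (w.comp Algebra.TensorProduct.includeLeft) a r).symm
  exact eq_comp_fib w ▸ h.of_fib

theorem eval_prod {A R : Type} [CommRing A] [Algebra ℂ A] [CommRing R] [Algebra ℂ R]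
    (w : A →ₐ[ℂ] ℂ) (s : R →ₐ[ℂ] ℂ) (t : R) (P : A[X]) :
    Algebra.TensorProduct.productMap w s (aeval ((1 : A) ⊗ₜ[ℂ] t) P) =
      eval (s t) (P.map (w : A →+* ℂ)) := by
  induction P using Polynomial.induction_on' with
  | add p q hp hq => simp [hp, hq]
  | monomial k c => simp [aeval_monomial]

variable {V W X S : Spc} {n : ℕ} {y : Fin n → S.R} {a b : Mor W S}

theorem Sm.act (hS : Sm S y) (c : ℂˣ) (i : Fin n) : S.act (fun _ => c) (y i) = (c : ℂ) • y i := by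
  obtain ⟨j, hj⟩ := hS.uniq
  rw [Spc.mem_wt.1 (hS.wt i), chr_eq_prod, Finset.prod_eq_single j (fun k _ hk => absurd (hj k) hk)
    fun h => absurd (Finset.mem_univ j) h]
  simp

theorem Sm.ne (hS : Sm S y) (z : S.Pt) : ∃ i, z.1 (y i) ≠ 0 := (hS.pts z.1).1 z.2

theorem Sm.orb_iff (hS : Sm S y) (z z' : S.Pt) :
    S.Orb z z' ↔ ∀ i j, z.1 (y i) * z'.1 (y j) = z.1 (y j) * z'.1 (y i) := by
  refine ⟨?_, fun h => ?_⟩
  · rintro ⟨g, e⟩ i j
    simp only [e, AlgHom.comp_apply, Spc.mem_wt.1 (hS.wt _), map_smul, smul_eq_mul]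
    ring
  · obtain ⟨i, hi⟩ := hS.ne z
    obtain ⟨j, hj⟩ := hS.ne z'
    have h1 : z'.1 (y i) ≠ 0 := fun o => mul_ne_zero hi hj (by rw [h, o, mul_zero])
    refine ⟨fun _ => Units.mk0 _ (div_ne_zero h1 hi), AlgHom.ext_of_adjoin_eq_top hS.gen ?_⟩
    rintro _ ⟨k, rfl⟩
    rw [AlgHom.comp_apply, hS.act, map_smul, smul_eq_mul, Units.val_mk0, div_mul_eq_mul_div,
      eq_div_iff hi, mul_comm, h, mul_comm]

theorem Sm.mem_eqS (hS : Sm S y) (w : W.Pt) : w ∈ eqS a b ↔ ∀ p, w.1 (gg y a b p) = 0 := by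
  refine (hS.orb_iff _ _).trans ?_
  simp only [gg, map_sub, map_mul, sub_eq_zero, Prod.forall]
  exact Iff.rfl

theorem gg_wt (hS : Sm S y) (p : Fin n × Fin n) : gg y a b p ∈ W.wt (a.ρ 1 + b.ρ 1) :=
  sub_mem (Spc.mul_mem (a.wt_map _ _ (hS.wt _)) (b.wt_map _ _ (hS.wt _)))
    (Spc.mul_mem (a.wt_map _ _ (hS.wt _)) (b.wt_map _ _ (hS.wt _)))

theorem gg_gr (x : Mor X S) :
    gg y (x.comp (Mor.fst X S)) (Mor.snd X S) = gq (fun i => x.φ (y i)) y := funext fun _ =>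
  congrArg₂ (· - ·) (Mor.fst_mul_snd _ _) (Mor.fst_mul_snd _ _)

theorem Sm.poly (hS : Sm S y) (x : Mor X S) (i : Fin n) (P : X.R[X])
    (h : aeval ((1 : X.R) ⊗ₜ[ℂ] y i) P ∈
      (X.prod S).van (eqS (x.comp (Mor.fst X S)) (Mor.snd X S))) : C (x.φ (y i)) * P = 0 := by
  refine Polynomial.ext fun k => X.sep _ fun w hw => ?_
  rw [coeff_C_mul, map_mul]
  refine mul_eq_zero.2 (or_iff_not_imp_left.2 fun h0 => ?_)
  have h1 : P.map (w : X.R →+* ℂ) = 0 := by
    refine eq_zero_of_infinite_isRoot _ ((Set.finite_singleton 0).infinite_compl.mono fun c hc => ?_)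
    let s := Spc.mv (x.onPt ⟨w, hw⟩) fun _ => Units.mk0 _ (div_ne_zero hc h0)
    have h2 : s.1 (y i) = c := by
      change w (x.φ (S.act _ (y i))) = c
      rw [hS.act, map_smul, map_smul, smul_eq_mul, Units.val_mk0, div_mul_cancel₀ _ h0]
    let z : (X.prod S).Pt := ⟨Algebra.TensorProduct.productMap w s.1, (Spc.prod_pt X S _).2 (by
      simpa using And.intro hw s.2)⟩
    have h3 : (Mor.fst X S).onPt z = ⟨w, hw⟩ :=
      Subtype.ext (Algebra.TensorProduct.productMap_left w s.1)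
    have h4 : (Mor.snd X S).onPt z = s := Subtype.ext (Algebra.TensorProduct.productMap_right w s.1)
    have h5 : Algebra.TensorProduct.productMap w s.1 (aeval ((1 : X.R) ⊗ₜ[ℂ] y i) P) = 0 := h z (by
      change S.Orb (x.onPt ((Mor.fst X S).onPt z)) _
      rw [h3, h4]
      exact Spc.orb_mv _ _)
    exact (congrArg (eval · _) h2.symm).trans ((eval_prod w s.1 (y i) P).symm.trans h5)
  simpa using congrArg (coeff · k) h1

theorem Sm.trans_gr (hS : Sm S y) (x : Mor X S) :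
    Trans y (x.comp (Mor.fst X S)) (Mor.snd X S) := by
  have hm : ∀ p, gg y (x.comp (Mor.fst X S)) (Mor.snd X S) p ∈
      (X.prod S).van (eqS (x.comp (Mor.fst X S)) (Mor.snd X S)) :=
    fun p w hw => (hS.mem_eqS w).1 hw p
  have hG := Ideal.span_le.2 (Set.range_subset_iff.2 hm)
  refine ⟨gg_wt hS, hm, fun z c hc => ?_, fun z => ?_⟩
  · obtain ⟨i, hi⟩ := hS.ne (x.onPt ((Mor.fst X S).onPt z))
    rw [gg_gr] at hG ⊢
    obtain ⟨N, h⟩ := (red_all (α := fun i => x.φ (y i)) hS.gen i c).mem hG hc (hS.poly x i)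
    exact ⟨_, ev_pow (r := (x.φ (y i) ⊗ₜ[ℂ] 1 : X.R ⊗[ℂ] S.R)) (z := z.1) hi N, h⟩
  · obtain ⟨i, hi⟩ := hS.ne (x.onPt ((Mor.fst X S).onPt z))
    rw [gg_gr] at hG ⊢
    have : IsNoetherianRing (X.R ⊗[ℂ] S.R) := inferInstanceAs (IsNoetherianRing (X.prod S).R)
    have h := lci_gq (α := fun i => x.φ (y i)) hS.gen (w := ((Mor.fst X S).onPt z).1) hi
      (hS.ne ((Mor.snd X S).onPt z)) (fun P hP => hS.poly x i P (hG hP)) (hS.reg _ i)
    exact (congrArg (fun u => Lci u _) (eq_comp_fib z.1)).mp h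

theorem Sm.trans_diag (hS : Sm S y) : Trans y (Mor.fst S S) (Mor.snd S S) :=
  hS.trans_gr (Mor.id S)

theorem Trans.symm (h : Trans y a b) : Trans y b a := by
  have e : ∀ p, gg y b a p = gg y a b p.swap := fun p => by
    simp only [gg, Prod.fst_swap, Prod.snd_swap, mul_comm]
  have e1 : eqS b a = eqS a b := Set.ext fun _ => ⟨Spc.Orb.symm, Spc.Orb.symm⟩
  have e2 : Set.range (gg y b a) = Set.range (gg y a b) := by
    rw [funext e]
    exact Prod.swap_surjective.range_comp (gg y a b)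
  refine ⟨fun p => ?_, fun p => ?_, fun z => ?_, fun z => (h.lci z).imp ?_ ?_⟩
  · rw [e, add_comm]
    exact h.wt _
  · rw [e, e1]
    exact h.mem _
  · rw [e1, e2]
    exact h.gen z
  · exact fun ⟨p, hp⟩ => ⟨p.swap, by rwa [e]⟩
  · exact fun ⟨p, q, h1, r, h2, h3⟩ => ⟨p.swap, q.swap, by rwa [e, e], r, h2, fun i => by
      simpa only [e, Prod.swap_swap] using h3 _⟩

theorem Trans.comp (h : Trans y a b) (g : Mor V W) (h1 : Function.Bijective g.φ)
    (h2 : Function.Surjective g.onPt) : Trans y (a.comp g) (b.comp g) := by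
  have e : ∀ p, gg y (a.comp g) (b.comp g) p = g.φ (gg y a b p) := fun p => by
    simp only [gg, map_sub, map_mul]
    rfl
  refine ⟨fun p => ?_, fun p w hw => ?_, fun z c hc => ?_, fun z => (h.lci (g.onPt z)).imp ?_ ?_⟩
  · rw [e]
    exact (map_add g.ρ _ _).symm ▸ g.wt_map _ _ (h.wt p)
  · rw [e]
    exact h.mem p (g.onPt w) hw
  · obtain ⟨c, rfl⟩ := h1.2 c
    obtain ⟨r, h3, h4⟩ := h.gen (g.onPt z) c fun w hw => by
      obtain ⟨w, rfl⟩ := h2 w
      exact hc w hw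
    refine ⟨g.φ r, h3, ?_⟩
    have h5 := Ideal.mem_map_of_mem g.φ h4
    rwa [map_mul, Ideal.map_span, ← Set.range_comp, Function.comp_def, ← funext e] at h5
  · exact fun ⟨p, hp⟩ => ⟨p, by rwa [e]⟩
  · rintro ⟨p, q, h3, r, h4, h5⟩
    refine ⟨p, q, ?_, g.φ r, h4, fun i => ?_⟩
    · rw [e, e]
      refine ⟨h3.z1, h3.z2, fun c hc => ?_, fun c d hc => ?_⟩
      · obtain ⟨c, rfl⟩ := h1.2 c
        obtain ⟨s, h6, h7⟩ := h3.reg1 c (h1.1 (by rw [map_mul, hc, map_zero]))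
        exact ⟨g.φ s, h6, by rw [← map_mul, h7, map_zero]⟩
      · obtain ⟨c, rfl⟩ := h1.2 c
        obtain ⟨d, rfl⟩ := h1.2 d
        obtain ⟨s, t, h6, h7⟩ := h3.reg2 c d (h1.1 (by rw [map_mul, hc, map_mul]))
        exact ⟨g.φ s, g.φ t, h6, by rw [← map_mul, h7, map_mul]⟩
    · obtain ⟨c, d, h6⟩ := h5 i
      exact ⟨g.φ c, g.φ d, by rw [e, e, e, ← map_mul, h6, map_add, map_mul, map_mul]⟩

theorem Sm.trans_pt (hS : Sm S y) (z : S.Pt) : Trans y (Mor.cst S z) (Mor.id S) := by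
  have h := (hS.trans_gr (Mor.cst (Spc.pt Empty) z)).comp
    (Mor.lift (Mor.toPt S Empty 0) (Mor.id S)) ?_ fun w => ⟨(Mor.snd _ _).onPt w, ?_⟩
  · rwa [Mor.comp_assoc, Mor.fst_lift, Mor.snd_lift,
      Mor.eq_of (f := (Mor.cst _ z).comp _) (g := Mor.cst S z) (fun _ => rfl) fun _ => rfl] at h
  · have e : (Mor.lift (Mor.toPt S Empty 0) (Mor.id S)).φ =
        (Algebra.TensorProduct.lid ℂ S.R).toAlgHom :=
      Algebra.TensorProduct.ext' fun c r => (Algebra.smul_def (R := ℂ) c r).symm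
    rw [e]
    exact (Algebra.TensorProduct.lid ℂ S.R).bijective
  · refine Subtype.ext (Algebra.TensorProduct.ext (Subsingleton.elim (α := ℂ →ₐ[ℂ] ℂ) _ _)
      (AlgHom.ext fun r => congrArg w.1 (congrArg (Mor.snd _ _).φ ?_)))
    exact (Mor.lift_φ _ _ 1 r).trans (by rw [map_one, one_mul]; rfl)

end Vale.Agent.P297Z.Dg
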