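import Vale.Agent.P297Z.Diag.SurfA

/-!
# P297, diagonal: the surface is smooth
-/

noncomputable section

namespace Vale.Agent.P297Z.Dg

open Sf

variable {K : Type} [Field K] [Algebra ℂ K] (S : Surf K) (h : S.All)

theorem smo_spc : Smo (S.spc h) := smo h

theorem eqS_cst {z : (S.spc h).Pt} {p : Pt S.W} (hz : S.Over h z p) :
    eqS (Mor.cst (S.spc h) z) (Mor.id (S.spc h)) = {w | S.Over h w p} := Set.ext fun w => by
  have e : (Mor.cst (S.spc h) z).onPt w = z := Subtype.ext (AlgHom.ext fun r => w.1.commutes _)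
  change (S.spc h).Orb ((Mor.cst (S.spc h) z).onPt w) w ↔ _
  rw [e]
  exact ⟨SA.over_of_orb hz, SA.orb_of_over hz⟩

end Vale.Agent.P297Z.Dg
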