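import Vale.Agent.P297Z.Diag.SurfC

/-!
# P297, diagonal: the canonical class
-/

noncomputable section

namespace Vale.Agent.P297Z.Dg

open Sf

variable {K : Type} [Field K] [Algebra ℂ K] (S : Surf K) (h : S.All)

theorem ext_Om (hb : (OmM (S.spc h)).IsBun 2) :
    kc ((OmM (S.spc h)).ext 2) 1 = S.lK h S.kap := ext_om h hb

end Vale.Agent.P297Z.Dg
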