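import Vale.Agent.P297Z.Diag.Lam
import Vale.Agent.P297Z.Diag.LD
import Vale.Agent.P297Z.Diag.Gys
import Vale.Agent.P297Z.Diag.Dual
import Vale.Agent.P297Z.Diag.Surf1
import Vale.Agent.P297Z.Diag.Surf2
import Vale.Agent.P297Z.Ch.Split
import Vale.Agent.P297Z.K.AF
import Vale.Agent.P297Z.K.AS
import Vale.Agent.P297Z.Surf.SspB

/-!
# P297, diagonal: the results
-/

set_option linter.all false

noncomputable section

namespace Vale.Agent.P297Z.Dg

open PowerSeries

variable {W V S : Spc}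

/-- the inverse of the canonical class -/
def om (S : Spc) : K0 S := dualK S (lam 2 (Om S))

/-- the classes in the formula for the Chern classes of the diagonal -/
def rr (S : Spc) (i : ℕ) : K0 S := -cc (i - 2) (-Om S)

theorem dl_map (s : Mor W S) :
    pullK (s.map (Mor.id S)) (delta S) = dl (s.comp (Mor.fst W S)) (Mor.snd W S) := rfl

theorem pullK_dl (g : Mor V W) (a b : Mor W S) :
    pullK g (dl a b) = dl (a.comp g) (b.comp g) := by
  rw [dl, dl, ← pullK_comp, Mor.lift_comp]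

theorem dl_fst_snd : dl (Mor.fst S S) (Mor.snd S S) = delta S := by
  rw [dl, Mor.lift_fst_snd, pullK_id]

theorem rr_FF (i : ℕ) : rr S i ∈ FF S (i - 2) := neg_mem (cc_mem_FF _ _)

theorem rr_two : rr S 2 = -1 := by rw [rr, Nat.sub_self, cc_zero]

theorem Sm.lam_delta {n : ℕ} {y : Fin n → S.R} (hS : Sm S y) {k : ℕ} (hk : 2 ≤ k) :
    lam k (delta S + pullK (Mor.fst S S) (Om S)) = lam k (pullK (Mor.fst S S) (Om S)) := by
  have := hS.var.ne
  have := Spc.nonempty_prod this this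
  have h0 := hS.trans_diag
  have hp := hS.var.proj
  have hZ := eqS_stab (Mor.fst S S) (Mor.snd S S)
  let s : Mor S ((S.prod S).sub _ hZ) := (Mor.id S).sec
  have h1 := h0.lam hZ (s.comp (Mor.fst S S)) (res_res (h0.res_O hZ) ((hp.prod hp).sub _ hZ).free _
    ((Mor.id S).sec_gr1 hp)) hk
  have h2 : pullK s (kc ((Mor.incl _ _ hZ).pull (IZ _ _ hZ)) 2) = Om S := by
    rw [pullK_kc _ (h0.conormal hZ _ fun a ha => Ideal.Quotient.eq_zero_iff_mem.2 ha)]
    obtain ⟨u, hu⟩ := AK.pull_comp (Mor.incl _ _ hZ) s (IZ _ _ hZ)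
    have e : (Mor.incl _ _ hZ).comp s = diag S := (Mor.id S).incl_sec
    rw [Om, OmM, ← e]
    exact (kc_qis hu.1 2).symm
  rwa [pullK_comp, h2, ← delta_eq h0] at h1

namespace Smo

variable (hS : Smo S) (a b : Mor W S)
include hS

theorem var : S.IsVar 2 := hS.elim fun _ h => h.elim fun _ h => h.var

theorem bun : (OmM S).IsBun 2 := hS.elim fun _ h => h.elim fun _ h => OmM_isBun h.trans_diag

theorem Om_cls : IsCls (Om S) 2 := bCls_kc hS.bun

theorem om_cls : IsCls (om S) 1 := (BCls.lam hS.Om_cls 2).dual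

theorem om_mul : om S * lam 2 (Om S) = 1 :=
  (mul_comm _ _).trans (BCls.lam hS.Om_cls 2).mul_dual

theorem rk_delta : rk _ (delta S) = 0 := by
  obtain ⟨n, y, h⟩ := hS
  have := h.var.ne
  have := Spc.nonempty_prod this this
  rw [delta_eq h.trans_diag]
  exact Cut.rk_cutK h.trans_diag

theorem rk_dl : rk W (dl a b) = 0 := (rk_pullK _ _).trans hS.rk_delta

theorem dl_comm : dl a b = dl b a := by
  obtain ⟨n, y, h⟩ := hS
  have := h.var.ne
  exact dl_symm h.trans_diag h.trans_diag.symm a b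

theorem lam_dl {k : ℕ} (hk : 2 ≤ k) :
    lam k (dl a b + pullK a (Om S)) = lam k (pullK a (Om S)) := by
  obtain ⟨n, y, h⟩ := hS
  have h1 := congrArg (pullK (Mor.lift a b)) (h.lam_delta hk)
  rwa [lam_pull, lam_pull, map_add, ← pullK_comp, Mor.fst_lift] at h1

theorem cT_dl : cT (dl a b) = 1 - C (dl a b) * (X + X ^ 2) * cT (-pullK a (Om S)) :=
  cT_delta (hS.rk_dl a b) ((rk_pullK _ _).trans (BCls.rk hS.Om_cls)) fun _ hk => hS.lam_dl a b hk

theorem cc_one_dl : cc 1 (dl a b) = -dl a b := by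
  rw [cc_one, hS.rk_dl, Int.cast_zero, zero_sub]

theorem cc_dl (i : ℕ) :
    cc (i + 2) (dl a b) = -(dl a b * pullK a (cc i (-Om S) + cc (i + 1) (-Om S))) := by
  have e : C (dl a b) * (X + X ^ 2) * cT (-pullK a (Om S)) =
      C (dl a b) * (cT (-pullK a (Om S)) * X ^ 2 + cT (-pullK a (Om S)) * X ^ 1) := by ring
  rw [← coeff_cT, hS.cT_dl, e, map_sub, coeff_C_mul, map_add, coeff_mul_X_pow,
    show i + 2 = i + 1 + 1 from rfl, coeff_mul_X_pow, coeff_one, if_neg (by omega), zero_sub,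
    coeff_cT, coeff_cT, map_add, cc_pull, cc_pull, map_neg]

theorem dl_FF : dl a b ∈ FF W 2 := by
  have h1 := hS.cc_dl a b 0
  have h2 : dl a b = -cc 2 (dl a b) + cc 1 (dl a b) * pullK a (cc 1 (-Om S)) := by
    rw [h1, hS.cc_one_dl, cc_zero, map_add, map_one]
    ring
  have h3 : cc 1 (dl a b) * pullK a (cc 1 (-Om S)) ∈ FF W (1 + 1) :=
    AF.FF_mul (cc_mem_FF 1 _) (AF.FF_pull a (cc_mem_FF 1 _))
  have h4 := add_mem (neg_mem (cc_mem_FF 2 (dl a b))) h3
  rwa [← h2] at h4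

theorem cc_dl_sub {i : ℕ} (hi : 2 ≤ i) :
    cc i (dl a b) - dl a b * pullK a (rr S i) ∈ FF W (i + 1) := by
  obtain ⟨j, rfl⟩ := Nat.exists_eq_add_of_le' hi
  have e : cc (j + 2) (dl a b) - dl a b * pullK a (rr S (j + 2)) =
      -(dl a b * pullK a (cc (j + 1) (-Om S))) := by
    rw [hS.cc_dl, rr, Nat.add_sub_cancel, map_add, map_neg]
    ring
  rw [e, show j + 2 + 1 = 2 + (j + 1) by omega]
  exact neg_mem (AF.FF_mul (hS.dl_FF a b) (AF.FF_pull a (cc_mem_FF _ _)))

theorem dual_dl : dualK W (dl a b) = pullK a (om S) * dl a b := by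
  have h1 : lam 2 (pullK a (Om S)) * dualK W (dl a b) = dl a b := by
    obtain ⟨n, y, h⟩ := id hS
    have := h.var.ne
    have h0 := h.trans_diag
    obtain ⟨w⟩ := Spc.nonempty_prod this this
    have hn : Fintype.card (Fin n × Fin n) - 1 + 1 = Fintype.card (Fin n × Fin n) := by
      refine Nat.sub_add_cancel (Fintype.card_pos_iff.2 ?_)
      rcases h0.lci w with ⟨i, -⟩ | ⟨i, -⟩ <;> exact ⟨i⟩
    refine dual_delta (N := Fintype.card (Fin n × Fin n) - 1)
      ((bCls_kc (hn.symm ▸ Fr_isBun fun _ : Fin n × Fin n =>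
        (Mor.fst S S).ρ 1 + (Mor.snd S S).ρ 1)).pull (Mor.lift a b))
      ((bCls_kc h0.syz_isBun).pull (Mor.lift a b)) (BCls.pull hS.Om_cls a) ?_
      fun k hk => hS.lam_dl a b hk
    rw [hn, kc_Fr, dl, delta_eq h0, cutK, map_sub, map_sub, map_one]
  rw [← one_mul (dualK W _), ← map_one (pullK a), ← hS.om_mul, map_mul, mul_assoc, lam_pull, h1]

theorem res_gr (s : Mor W S) :
    Res 2 (OZ _ s.grS s.grS_stab) (pullK (s.map (Mor.id S)) (delta S)) := by
  obtain ⟨n, y, h⟩ := hS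
  have := h.var.ne
  have h1 := Trans.res h.trans_diag (h.trans_gr s)
  have e : OZ _ s.grS s.grS_stab = OZ (W.prod S) (eqS (s.comp (Mor.fst W S)) (Mor.snd W S))
    (eqS_stab _ _) := rfl
  rw [dl_map, e]
  exact h1

theorem gr_mul' (hW : W.IsProj) [h : Nonempty W.Pt] (s : Mor W S) (c : K0 (W.prod S)) :
    pullK (s.map (Mor.id S)) (delta S) * c = pullK (s.map (Mor.id S)) (delta S) *
      pullK (Mor.fst W S) (pullK (Mor.lift (Mor.id W) s) c) :=
  have := Spc.nonempty_prod h hS.var.ne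
  gr_mul hW hS.var.proj s (hS.res_gr s) c

theorem dl_mul (hV : V.IsProj) [h : Nonempty V.Pt] (t : Mor W V) (c : K0 (V.prod S)) :
    dl a b * pullK (Mor.lift t a) c = dl a b * pullK (Mor.lift t b) c := by
  have := Spc.nonempty_prod h hS.var.ne
  have h1 := congrArg (pullK (Mor.lift (Mor.lift t a) b)) (hS.gr_mul' (hV.prod hS.var.proj)
    (Mor.snd V S) (pullK ((Mor.fst V S).map (Mor.id S)) c))
  simp only [map_mul, ← pullK_comp, Mor.map_lift, Mor.comp_assoc, Mor.fst_lift, Mor.snd_lift,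
    Mor.id_comp, Mor.comp_id, Mor.lift_fst_snd, Mor.lift_comp] at h1
  exact h1.symm

theorem dl_mul' (c : K0 S) : dl a b * pullK a c = dl a b * pullK b c := by
  have := hS.var.ne
  have h1 := hS.dl_mul a b hS.var.proj a (pullK (Mor.snd S S) c)
  rwa [← pullK_comp, ← pullK_comp, Mor.snd_lift, Mor.snd_lift] at h1

theorem dK_eq (z : S.Pt) : dK S z = dl (Mor.cst S z) (Mor.id S) := by
  change -cc (0 + 2) (dl (Mor.cst S z) (Mor.id S)) = _
  rw [hS.cc_dl, neg_neg, pullK_cst, map_add, rk_cc, cc_zero, map_one, add_zero, Int.cast_one,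
    mul_one]

theorem kact_gr (hW : W.IsProj) (s : Mor W S) (c : K0 (W.prod S)) :
    kact _ (pullK (s.map (Mor.id S)) (delta S) * c) (oG _) =
      fstar (Mor.lift (Mor.id W) s) (kact W (pullK (Mor.lift (Mor.id W) s) c) (oG W)) := by
  rw [fstar_proj hW (hW.prod hS.var.proj), fstar_graph hW hS.var.proj, mul_comm, kact_mul,
    (hS.res_gr s).kact_oG]
  rfl

variable {e : ℕ} (hW : W.IsVar e) (s : Mor W S)
include hW

theorem D1 (x : K0 (W.prod S)) : pK W S (pullK (s.map (Mor.id S)) (delta S) * x) =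
    pullK (Mor.lift (Mor.id W) s) x :=
  pK_gr hW.proj ⟨hW.conn, hW.ne⟩ hS.var.proj s (hS.res_gr s) x

theorem D2 (x : K0 (W.prod S)) : pK W S (dualK _ (pullK (s.map (Mor.id S)) (delta S)) * x) =
    pullK s (om S) * pullK (Mor.lift (Mor.id W) s) x := by
  rw [dl_map, hS.dual_dl, ← dl_map, mul_assoc, pullK_comp,
    pK_mul ⟨hW.conn, hW.ne⟩ hS.var.proj, hS.D1 hW]

theorem D3 : kact _ (cc 1 (pullK (s.map (Mor.id S)) (delta S))) (oG _) ∈
    Fd (W.prod S) (e + 1) := by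
  rw [dl_map, hS.cc_one_dl]
  have h1 := AF.var_FF_oG (hW.prod hS.var)
    (neg_mem (hS.dl_FF (s.comp (Mor.fst W S)) (Mor.snd W S)))
  rwa [show e + 2 + 1 - 2 = e + 1 by omega] at h1

theorem D4 {i : ℕ} (hi : 2 ≤ i) : kact _ (cc i (pullK (s.map (Mor.id S)) (delta S))) (oG _) -
    fstar (Mor.lift (Mor.id W) s) (kact W (pullK s (rr S i)) (oG W)) ∈
      Fd (W.prod S) (e + 2 - i) := by
  have h1 := hS.kact_gr hW.proj s (pullK (s.comp (Mor.fst W S)) (rr S i))
  rw [← pullK_comp, Mor.comp_assoc, Mor.fst_lift, Mor.comp_id] at h1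
  have h2 := AF.var_FF_oG (hW.prod hS.var) (hS.cc_dl_sub (s.comp (Mor.fst W S)) (Mor.snd W S) hi)
  rw [map_sub, AddMonoidHom.sub_apply, Nat.add_sub_add_right] at h2
  rw [← h1]
  exact h2

end Smo

section surf

open Sf

variable {K : Type} [Field K] [Algebra ℂ K] (S : Surf K) (h : S.All)

theorem lam_Om : lam 2 (Om (S.spc h)) = S.lK h S.kap := lam_om h (smo h).bun

theorem om_spc : om (S.spc h) = S.lK h (-S.kap) := by rw [om, lam_Om, Sl.lK_neg]

theorem rr_three : rr (S.spc h) 3 - (1 - S.lK h S.kap) ∈ FF (S.spc h) 2 := by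
  have h1 := cc_top (smo h).Om_cls
  have h2 := BCls.rk (smo h).Om_cls
  have e : rr (S.spc h) 3 - (1 - S.lK h S.kap) = cc 2 (Om (S.spc h)) := by
    rw [h1, rr, cc_one, map_neg, h2, ← lam_Om]
    simp only [Finset.sum_range_succ, Finset.range_zero, Finset.sum_empty, lam_zero, lam_one]
    push_cast
    ring
  rw [e]
  exact cc_mem_FF 2 _

theorem kact_dK {z : (S.spc h).Pt} {p : Pt S.W} (hz : S.Over h z p) :
    kact _ (dK _ z) (oG _) = S.ptG h p := by
  obtain ⟨n, y, hy⟩ := smo h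
  have := hy.var.ne
  rw [(smo h).dK_eq, (hy.trans_diag.res (hy.trans_pt z)).kact_oG]
  have key : ∀ (Z Z' : Set (S.spc h).Pt) (hZ : Spc.Stab _ Z) (hZ' : Spc.Stab _ Z'), Z = Z' →
      cls (OZ _ Z hZ) = cls (OZ _ Z' hZ') := by
    rintro Z _ _ _ rfl
    rfl
  exact key _ _ _ (S.over_stab h p) (eqS_cst S h hz)

end surf

end Vale.Agent.P297Z.Dg
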