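import Vale.Agent.P297Z.Diag.SurfA
import Vale.Agent.P297Z.Diag.SurfB
import Vale.Agent.P297Z.Surf.SspB1
import Vale.Agent.P297Z.K.AK3
import Vale.Agent.P297Z.Ch.Lam

/-!
# P297, diagonal: the determinant of the conormal bundle is the canonical bundle
-/

open scoped TensorProduct

noncomputable section

namespace Vale.Agent.P297Z.Dg

open Sf Sf.SA _root_.P297Z.Diff LaurentPolynomial

theorem prod_wt_ind {X Y : Spc} {γ : X.J ⊕ Y.J → ℤ} {P : (X.prod Y).R → Prop} (h0 : P 0)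
    (ha : ∀ x y, P x → P y → P (x + y))
    (hw : ∀ x ∈ X.wt fun j => γ (.inl j), ∀ y ∈ Y.wt fun j => γ (.inr j), P (x ⊗ₜ y))
    {f : (X.prod Y).R} (hf : f ∈ (X.prod Y).wt γ) : P f := by
  rw [← cmp_of_mem (X.prod Y).span hf]
  refine Spc.ten_induction X Y (P := fun f => P (cmp (X.prod Y).span γ f))
    ((map_zero (cmp (X.prod Y).span γ)).symm ▸ h0) (fun α β x hx y hy => ?_)
    (fun x y hx hy => ((cmp (X.prod Y).span γ).map_add x y).symm ▸ ha _ _ hx hy) f
  by_cases o : Sum.elim α β = γ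
  · subst o
    exact (cmp_of_mem (X.prod Y).span (Spc.tmul_mem hx hy)).symm ▸ hw x hx y hy
  · exact (cmp_of_ne (X.prod Y).span o (Spc.tmul_mem hx hy)).symm ▸ h0

theorem exists_wedge {R M L : Type} [CommRing R] [AddCommGroup M] [Module R M] [CommRing L]
    [Algebra R L] (ν₁ ν₂ : M →ₗ[R] L) (N : Submodule R L)
    (h : ∀ a b, ν₁ a * ν₂ b - ν₂ a * ν₁ b ∈ N) : ∃ Φ : ⋀[R]^2 M →ₗ[R] N, ∀ v : Fin 2 → M,
      (Φ (exteriorPower.ιMulti R 2 v) : L) = ν₁ (v 0) * ν₂ (v 1) - ν₂ (v 0) * ν₁ (v 1) := by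
  let F : M [⋀^Fin 2]→ₗ[R] L :=
    { toFun := fun v => ν₁ (v 0) * ν₂ (v 1) - ν₂ (v 0) * ν₁ (v 1)
      map_update_add' := fun v i x y => by
        fin_cases i <;> simp [Function.update] <;> ring
      map_update_smul' := fun v i r x => by
        fin_cases i <;> simp [Function.update, smul_sub]
      map_eq_zero_of_eq' := fun v i j e hij => by
        have : v 0 = v 1 := by
          fin_cases i <;> fin_cases j
          exacts [absurd rfl hij, e, e.symm, absurd rfl hij]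
        simp only [this, mul_comm, sub_self] }
  exact ⟨exteriorPower.alternatingMapLinearEquiv (F.codRestrict N fun v => h _ _), fun v => by
    rw [exteriorPower.alternatingMapLinearEquiv_apply_ιMulti]
    rfl⟩

variable {K : Type} [Field K] [Algebra ℂ K] {S : Surf K}

/-- a derivation acting on the coefficients, plus a multiple of the Euler derivation -/
def ed (δ : Derivation ℂ K K) (c : K) : K[T;T⁻¹] →ₗ[ℂ] K[T;T⁻¹] :=
  Finsupp.lsum ℂ (fun m : ℤ => monL m ∘ₗ (δ.toLinearMap + LinearMap.mulLeft ℂ (m * c))) ∘ₗ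
    (AddMonoidAlgebra.coeffLinearEquiv ℂ).toLinearMap

theorem ed_mon (δ : Derivation ℂ K K) (c a : K) (m : ℤ) :
    ed δ c (mon a m) = mon (δ a + m * c * a) m := by
  have e : (AddMonoidAlgebra.coeffLinearEquiv ℂ).toLinearMap (mon a m) = Finsupp.single m a := by
    rw [mon, ← single_eq_C_mul_T]
    rfl
  rw [ed, LinearMap.comp_apply, e, Finsupp.lsum_single]
  rfl

theorem lp_ind {P : K[T;T⁻¹] → Prop} (h0 : P 0) (hm : ∀ m a, P (mon a m))
    (ha : ∀ f g, P f → P g → P (f + g)) (f : K[T;T⁻¹]) : P f :=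
  fam_induction (N := fun _ => ⊤) h0 (fun m a _ => hm m a) ha f fun _ => Submodule.mem_top

omit [Algebra ℂ K] in
theorem C_mul_mon (c a : K) (m : ℤ) : C c * mon a m = mon (c * a) m := by
  rw [mon, mon, map_mul, mul_assoc]

theorem ed_mul (δ : Derivation ℂ K K) (c : K) (f g : K[T;T⁻¹]) :
    ed δ c (f * g) = f * ed δ c g + g * ed δ c f := by
  induction f using lp_ind with
  | h0 => simp
  | ha f f' h h' => rw [add_mul, map_add, map_add, h, h']; ring
  | hm m a =>
    induction g using lp_ind with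
    | h0 => simp
    | ha g g' h h' => rw [mul_add, map_add, map_add, h, h']; ring
    | hm n b =>
      rw [mon_mul, ed_mon, ed_mon, ed_mon, mon_mul, mon_mul, add_comm n m, ← mon_add, δ.leibniz]
      congr 1
      simp only [smul_eq_mul, Int.cast_add]
      ring

theorem ed_eq (δ δ₀ δ₁ : Derivation ℂ K K) (c a b : K) (h : ∀ x, δ x = a * δ₀ x + b * δ₁ x)
    (f : K[T;T⁻¹]) : ed δ c f = C a * ed δ₀ 0 f + C b * ed δ₁ 0 f + C c * ed 0 1 f := by
  induction f using lp_ind with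
  | h0 => simp
  | ha f f' h h' => simp only [map_add, h, h']; ring
  | hm m x =>
    simp only [ed_mon, C_mul_mon, ← mon_add, h]
    congr 1
    simp only [Derivation.zero_apply]
    ring

theorem ed_scale (δ : Derivation ℂ K K) (c : K) (g : ℂˣ) (f : K[T;T⁻¹]) :
    ed δ c (scale K g f) = scale K g (ed δ c f) := by
  induction f using lp_ind with
  | h0 => simp
  | ha f f' h h' => simp only [map_add, h, h']
  | hm m x => rw [scale_mon, map_smul, ed_mon, scale_mon]

/-- the derivative in the second factor, restricted to the diagonal -/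
def mu (S : Surf K) (δ : Derivation ℂ K K) (c : K) : S.ring ⊗[ℂ] S.ring →ₗ[ℂ] K[T;T⁻¹] :=
  LinearMap.mul' ℂ _ ∘ₗ TensorProduct.map S.ring.val.toLinearMap (ed δ c ∘ₗ S.ring.val.toLinearMap)

theorem mu_tmul (δ : Derivation ℂ K K) (c : K) (x y : S.ring) :
    mu S δ c (x ⊗ₜ y) = x * ed δ c y := rfl

/-- the restriction to the diagonal -/
def dg (S : Surf K) : S.ring ⊗[ℂ] S.ring →ₐ[ℂ] S.ring :=
  Algebra.TensorProduct.productMap (AlgHom.id ℂ _) (AlgHom.id ℂ _)

theorem dg_tmul (x y : S.ring) : dg S (x ⊗ₜ y) = x * y := rfl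

theorem mu_mul (δ : Derivation ℂ K K) (c : K) (f g : S.ring ⊗[ℂ] S.ring) :
    mu S δ c (f * g) = dg S f * mu S δ c g + dg S g * mu S δ c f := by
  induction f using TensorProduct.induction_on with
  | zero => simp
  | add f f' h h' => simp only [add_mul, map_add, h, h', Subalgebra.coe_add]; ring
  | tmul a b =>
    induction g using TensorProduct.induction_on with
    | zero => simp
    | add g g' h h' => simp only [mul_add, map_add, h, h', Subalgebra.coe_add]; ring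
    | tmul a' b' =>
      simp only [Algebra.TensorProduct.tmul_mul_tmul, mu_tmul, dg_tmul, Subalgebra.coe_mul, ed_mul]
      ring

theorem mu_eq (δ δ₀ δ₁ : Derivation ℂ K K) (c a b : K) (h : ∀ x, δ x = a * δ₀ x + b * δ₁ x)
    (f : S.ring ⊗[ℂ] S.ring) :
    mu S δ c f = C a * mu S δ₀ 0 f + C b * mu S δ₁ 0 f + C c * mu S 0 1 f := by
  induction f using TensorProduct.induction_on with
  | zero => simp
  | add f f' h h' => simp only [map_add, h, h']; ring
  | tmul x y => simp only [mu_tmul, ed_eq δ δ₀ δ₁ c a b h]; ring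

theorem mu_scale (δ : Derivation ℂ K K) (c : K) (g : Unit → ℂˣ) (f : S.ring ⊗[ℂ] S.ring) :
    mu S δ c (Algebra.TensorProduct.map (S.actR g) (S.actR g) f) = scale K (g ()) (mu S δ c f) := by
  induction f using TensorProduct.induction_on with
  | zero => simp
  | add f f' h h' => simp only [map_add, h, h']
  | tmul x y =>
    rw [Algebra.TensorProduct.map_tmul, mu_tmul, mu_tmul, scale_mul, ← ed_scale]
    rfl

/-- the sections of the multiples of the hyperplane divisor along a curve -/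
def NC (C : Crv S.W) (m : ℤ) : Submodule ℂ K := secOn (· = C) (m • S.H)

theorem NC_mul {C : Crv S.W} : ∀ f ∈ fam (NC C), ∀ g ∈ fam (NC C), f * g ∈ fam (NC C) :=
  mul_mem_fam fun m n a ha b hb => by
    have := mul_mem_secOn ha hb
    rwa [← add_smul] at this

theorem ring_NC (C : Crv S.W) (x : S.ring) : (x : K[T;T⁻¹]) ∈ fam (NC C) := fun m =>
  secOn_mono (fun _ _ => ⟨trivial, by rw [zero_add]⟩) (S.ring_le_lbS x m)

theorem div_mem_chart_pow {w : K} {n : ℕ} {a : K} (hw : w ≠ 0) (ha : a ∈ S.W ^ n) :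
    a / w ^ n ∈ chart S.W w := deh_form hw ha ▸ deh_mem_chart hw _

theorem mu_NC (h : S.All) {C : Crv S.W} {δ : Derivation ℂ K K} (hδ : RegDer C.pl δ) {w : K}
    (hW : w ∈ S.W) (hw : C.In w) (f : S.ring ⊗[ℂ] S.ring) :
    mu S δ (-(δ w / w)) f ∈ fam (NC C) := by
  induction f using TensorProduct.induction_on with
  | zero => simp
  | add f f' h h' => rw [map_add]; exact add_mem h h'
  | tmul x y =>
    refine NC_mul _ (ring_NC C x) _ ?_
    induction y using S.ring_induction with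
    | h0 => simp
    | ha y y' h h' => simp only [map_add] at *; exact add_mem h h'
    | hm n b hb =>
      change ed δ _ (mon b n) ∈ _
      rw [ed_mon, mon_mem_fam]
      have h0 := hw.1
      have e : δ b + (n : ℤ) * -(δ w / w) * b = w ^ n * δ (b / w ^ n) := by
        have e1 : b = w ^ n * (b / w ^ n) := by field_simp
        generalize b / w ^ n = x at e1
        rw [e1, δ.leibniz, δ.leibniz_pow]
        cases n with
        | zero => simp
        | succ n =>
          simp only [smul_eq_mul, nsmul_eq_mul, Nat.add_sub_cancel, Int.cast_natCast]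
          field_simp
          ring
      rw [e]
      by_cases o : δ (b / w ^ n) = 0
      · rw [o, mul_zero]
        exact zero_mem _
      · refine Or.inr ?_
        rintro C rfl
        have h1 := Pl.ord_nonneg_of_mem _ (hδ _ (hw.chart_mem (div_mem_chart_pow h0 hb)))
        have h2 := h.hyp_in C w hW hw
        rw [Crv.ord, Pl.ord_mul _ (pow_ne_zero _ h0) o, Pl.ord_pow, Finsupp.smul_apply, h2,
          smul_eq_mul, mul_neg]
        unfold Crv.ord
        omega

variable (h : S.All)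

/-- the ideal of the diagonal -/
abbrev ID : Ideal ((S.spc h).prod (S.spc h)).R :=
  ((S.spc h).prod (S.spc h)).van (eqS (Mor.fst _ _) (Mor.snd _ _))

theorem dg_ID {f : S.ring ⊗[ℂ] S.ring} (hf : f ∈ ID h) : dg S f = 0 :=
  (S.spc h).sep _ fun z hz => hf ((diag (S.spc h)).onPt ⟨z, hz⟩) (by
    change (S.spc h).Orb (((Mor.fst _ _).comp (diag _)).onPt _) (((Mor.snd _ _).comp (diag _)).onPt _)
    rw [diag, Mor.fst_lift, Mor.snd_lift]
    exact Spc.Orb.refl _)

theorem euler_wt {γ : Unit ⊕ Unit → ℤ} {f : S.ring ⊗[ℂ] S.ring}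
    (hf : f ∈ ((S.spc h).prod (S.spc h)).wt γ) : mu S 0 1 f = γ (.inr ()) • (dg S f : K[T;T⁻¹]) := by
  have k1 : ∀ x y : S.ring ⊗[ℂ] S.ring, mu S 0 1 x = γ (.inr ()) • (dg S x : K[T;T⁻¹]) →
      mu S 0 1 y = γ (.inr ()) • (dg S y : K[T;T⁻¹]) →
      mu S 0 1 (x + y) = γ (.inr ()) • (dg S (x + y) : K[T;T⁻¹]) := fun x y hx hy => by
    rw [map_add, map_add, Subalgebra.coe_add, smul_add, hx, hy]
  have k2 : ∀ x y : S.ring, y ∈ (S.spc h).wt (fun j => γ (.inr j)) →
      mu S 0 1 (x ⊗ₜ y) = γ (.inr ()) • (dg S (x ⊗ₜ y) : K[T;T⁻¹]) := fun x y hy => by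
    rw [mu_tmul, dg_tmul]
    rcases (SA.mem_wt h).1 hy with rfl | ⟨n, a, ha, e2, rfl⟩
    · simp
    · change _ * ed 0 1 (mon a n) = _ • (_ * mon a n)
      rw [ed_mon, e2, ← mul_smul_comm, zsmul_eq_mul, ← map_intCast (C : K →+* K[T;T⁻¹]),
        C_mul_mon]
      simp
  have k0 : mu S 0 1 0 = γ (.inr ()) • (dg S 0 : K[T;T⁻¹]) := by simp
  exact prod_wt_ind (X := S.spc h) (Y := S.spc h)
    (P := fun f => mu S 0 1 f = γ (.inr ()) • (dg S f : K[T;T⁻¹])) k0 k1 (fun x _ => k2 x) hf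

theorem euler_ID {f : S.ring ⊗[ℂ] S.ring} (hf : f ∈ ID h) : mu S 0 1 f = 0 :=
  (GMod.one ((S.spc h).prod (S.spc h))).induction_sub (Spc.van_act (eqS_stab _ _))
    (P := fun f => mu S 0 1 f = 0) (map_zero _)
    (fun γ f h1 h2 => by rw [euler_wt h h2, dg_ID h h1, Subalgebra.coe_zero, smul_zero])
    (fun x y hx hy => ((mu S 0 1).map_add x y).trans (by rw [hx, hy, add_zero])) f hf

theorem wedge_mem {d : Fin 2 → Derivation ℂ K K} (hd : Coord (pl S) d) {f g : S.ring ⊗[ℂ] S.ring}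
    (hf : f ∈ ID h) (hg : g ∈ ID h) :
    mu S (d 0) 0 f * mu S (d 1) 0 g - mu S (d 1) 0 f * mu S (d 0) 0 g ∈ S.lbS S.kap := by
  intro m
  by_cases o : (mu S (d 0) 0 f * mu S (d 1) 0 g - mu S (d 1) 0 f * mu S (d 0) 0 g).coeff m = 0
  · exact Or.inl o
  refine Or.inr fun C _ => ?_
  obtain ⟨δ₁, δ₂, r1, r2, h2, h3⟩ := (h.least _ _ S.indep C).1
  obtain ⟨w, hW, hw⟩ := C.exists_in
  have h4 := sub_mem (NC_mul _ (mu_NC h r1 hW hw f) _ (mu_NC h r2 hW hw g))
    (NC_mul _ (mu_NC h r2 hW hw f) _ (mu_NC h r1 hW hw g)) m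
  have h5 : mu S δ₁ (-(δ₁ w / w)) f * mu S δ₂ (-(δ₂ w / w)) g -
      mu S δ₂ (-(δ₂ w / w)) f * mu S δ₁ (-(δ₁ w / w)) g =
      LaurentPolynomial.C (wedge (S.x 1 / S.x 0) (S.x 2 / S.x 0) δ₁ δ₂) *
        (mu S (d 0) 0 f * mu S (d 1) 0 g - mu S (d 1) 0 f * mu S (d 0) 0 g) := by
    simp only [mu_eq δ₁ _ _ _ _ _ (der_pl hd δ₁), mu_eq δ₂ _ _ _ _ _ (der_pl hd δ₂),
      euler_ID h hf, euler_ID h hg, wedge, map_sub, map_mul]
    ring
  rw [h5] at h4
  generalize mu S (d 0) 0 f * mu S (d 1) 0 g - mu S (d 1) 0 f * mu S (d 0) 0 g = x at *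
  have h6 : ∀ c : K, (LaurentPolynomial.C c * x).coeff m = c * x.coeff m := fun c => by
    rw [← smul_eq_C_mul]
    rfl
  rw [h6] at h4
  have h7 := h4.resolve_left (mul_ne_zero h2 o) C rfl
  rw [Crv.ord, Pl.ord_mul _ h2 o, h3] at h7
  change 0 ≤ C.pl.ord _ + (canDiv _ _ _ C + (m • S.H) C)
  omega

/-- the equations of the diagonal -/
def fl (l w : S.W) : S.ring ⊗[ℂ] S.ring := S.lin l ⊗ₜ S.lin w - S.lin w ⊗ₜ S.lin l

theorem fl_ID (l w : S.W) : fl l w ∈ ID h := by
  rintro y ⟨g, hg⟩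
  let u : S.ring ⊗[ℂ] S.ring →ₐ[ℂ] ℂ := y.1
  have h1 : ∀ a : S.W, u (1 ⊗ₜ S.lin a) = g () * u (S.lin a ⊗ₜ 1) := fun a =>
    (DFunLike.congr_fun hg (S.lin a)).trans (act_lin ((Mor.fst _ _).onPt y) g a)
  have h2 : ∀ a b : S.W, u (S.lin a ⊗ₜ S.lin b) = u (S.lin a ⊗ₜ 1) * u (1 ⊗ₜ S.lin b) :=
    fun a b => by rw [← map_mul, Algebra.TensorProduct.tmul_mul_tmul, mul_one, one_mul]
  change u (fl l w) = 0
  rw [fl, map_sub, h2, h2, h1, h1]
  ring

theorem mu_fl (δ : Derivation ℂ K K) (l w : S.W) (hw : (w : K) ≠ 0) :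
    mu S δ 0 (fl l w) = mon (-(w ^ 2 * δ (l / w))) 2 := by
  rw [fl, map_sub, mu_tmul, mu_tmul, S.coe_lin, S.coe_lin, ed_mon, ed_mon, mon_mul, mon_mul,
    sub_eq_iff_eq_add]
  refine Eq.trans ?_ (mon_add _ _ 2)
  congr 1
  have e1 : (l : K) = w * (l / w) := by field_simp
  generalize (l / w : K) = x at e1
  rw [e1, δ.leibniz]
  simp only [smul_eq_mul]
  ring

/-- the second exterior power of the conormal bundle of the diagonal -/
theorem qis_om (hb : (OmM (S.spc h)).IsBun 2) :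
    ∃ Φ, GMod.Qis ((OmM (S.spc h)).ext 2) (S.lb h S.kap) Φ := by
  obtain ⟨d, hd⟩ := exists_pl S
  let _ : Algebra (S.spc h).R K[T;T⁻¹] := inferInstanceAs (Algebra S.ring K[T;T⁻¹])
  let A := IZ ((S.spc h).prod (S.spc h)) (eqS (Mor.fst _ _) (Mor.snd _ _)) (eqS_stab _ _)
  change ((diag (S.spc h)).pull A).IsBun 2 at hb
  change ∃ Φ, GMod.Qis (((diag (S.spc h)).pull A).ext 2) (S.lb h S.kap) Φ
  have key : ∀ δ : Derivation ℂ K K, ∃ ν : ((diag (S.spc h)).pull A).M →ₗ[(S.spc h).R] K[T;T⁻¹],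
      (∀ x : A.M, ν (AK.pu (diag _) A x) = mu S δ 0 x.1) ∧
      ∀ g m, ν (((diag (S.spc h)).pull A).act g m) = scale K (g ()) (ν m) := fun δ => by
    obtain ⟨ν, hν⟩ := AK.exists_plift (diag (S.spc h)) A (V := K[T;T⁻¹])
      ((mu S δ 0).toAddMonoidHom.comp (ID h).subtype.toAddMonoidHom) fun s x => by
        refine (mu_mul δ 0 s x.1).trans ?_
        rw [dg_ID h x.2, Subalgebra.coe_zero, zero_mul, add_zero]
        rfl
    refine ⟨ν, hν, fun g m => ?_⟩
    refine AK.pu_ind (φ := diag (S.spc h)) (A := A)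
      (P := fun m => ν (((diag (S.spc h)).pull A).act g m) = scale K (g ()) (ν m)) ?_
      (fun x => ?_) (fun s m hm => ?_) (fun x y hx hy => ?_) m
    · simp only [map_zero]
    · rw [AK.pu_act, hν, hν]
      have e : tor (diag (S.spc h)).ρ g = Sum.elim g g := funext fun j => by
        refine Units.ext ?_
        rw [← chr_single, chr_tor]
        rcases j with j | j
        · refine Eq.trans (congrArg (fun γ => chr γ g) ?_) (chr_single j g)
          exact funext fun _ => rfl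
        · refine Eq.trans (congrArg (fun γ => chr γ g) ?_) (chr_single j g)
          exact funext fun _ => rfl
      rw [e]
      exact mu_scale δ 0 g x.1
    · rw [GMod.act_smul, map_smul, map_smul, hm]
      exact (scale_mul (g ()) (s : S.ring).1 (ν m)).symm
    · simp only [map_add, hx, hy]
  obtain ⟨ν₁, a1, b1⟩ := key (d 0)
  obtain ⟨ν₂, a2, b2⟩ := key (d 1)
  obtain ⟨Φ, hΦ⟩ := exists_wedge ν₁ ν₂ (S.lbS S.kap) fun a b => by
    refine AK.pu_ind (φ := diag (S.spc h)) (A := A)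
      (P := fun a => ν₁ a * ν₂ b - ν₂ a * ν₁ b ∈ S.lbS S.kap) ?_
      (fun x => ?_) (fun s m hm => ?_) (fun x y hx hy => ?_) a
    · simp
    · refine AK.pu_ind (φ := diag (S.spc h)) (A := A)
        (P := fun b => ν₁ _ * ν₂ b - ν₂ _ * ν₁ b ∈ S.lbS S.kap) ?_
        (fun y => ?_) (fun s m hm => ?_) (fun x y hx hy => ?_) b
      · simp
      · rw [a1, a1, a2, a2]
        exact wedge_mem h hd x.2 y.2
      · rw [map_smul, map_smul, mul_smul_comm, mul_smul_comm, ← smul_sub]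
        exact (S.lbS S.kap).smul_mem s hm
      · rw [map_add, map_add, mul_add, mul_add, add_sub_add_comm]
        exact add_mem hx hy
    · rw [map_smul, map_smul, smul_mul_assoc, smul_mul_assoc, ← smul_sub]
      exact (S.lbS S.kap).smul_mem s hm
    · rw [map_add, map_add, add_mul, add_mul, add_sub_add_comm]
      exact add_mem hx hy
  refine ⟨Φ, GMod.isHom_ext (N := S.lb h S.kap) fun g v => Subtype.ext ?_, fun z =>
    isoAt_of_surjAt (hb.ext 2 z) (Sl.lb_isBun S h S.kap z) fun x => ?_⟩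
  · refine (hΦ _).trans (Eq.trans ?_ (congrArg (scale K (g ())) (hΦ v)).symm)
    rw [map_sub, scale_mul, scale_mul, b1, b1, b2, b2]
  · obtain ⟨p, hz⟩ := exists_over z
    obtain ⟨w, hw⟩ := exists_lin h z
    obtain ⟨l₁, l₂, hp⟩ := exists_par h ((over_in hz w).2 hw)
    have h0 := hp.mem.1
    let v : Fin 2 → ((diag (S.spc h)).pull A).M :=
      ![AK.pu (diag _) A ⟨fl l₁ w, fl_ID h _ _⟩, AK.pu (diag _) A ⟨fl l₂ w, fl_ID h _ _⟩]
    have e : (Φ (exteriorPower.ιMulti _ 2 v) : K[T;T⁻¹]) =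
        mon (w ^ 4 * jc d (l₁ / w) (l₂ / w)) 4 := by
      refine (hΦ v).trans ?_
      rw [show ν₁ (v 0) = _ from a1 _, show ν₁ (v 1) = _ from a1 _, show ν₂ (v 0) = _ from a2 _,
        show ν₂ (v 1) = _ from a2 _, mu_fl _ _ _ h0, mu_fl _ _ _ h0, mu_fl _ _ _ h0,
        mu_fl _ _ _ h0, mon_mul, mon_mul, sub_eq_iff_eq_add]
      refine Eq.trans ?_ (mon_add _ _ 4)
      congr 1
      rw [jc]
      ring
    have hm := S.mon_mem_lbS.1 (e ▸ (Φ (exteriorPower.ιMulti _ 2 v)).2)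
    obtain ⟨j1, j2⟩ := genAt_jc h hd hp
    obtain ⟨r, u, h1, h2⟩ := Sl.lb_gen S h S.kap p z hz 4 _ hm
      ⟨mul_ne_zero (pow_ne_zero _ h0) j1, fun C hC => by
        have h3 := j2 C hC
        have h4 := h.hyp_in C w w.2 (hC.crv_in hp.mem)
        rw [Crv.ord, Pl.ord_mul _ (pow_ne_zero _ h0) j1, Pl.ord_pow, Finsupp.add_apply,
          Finsupp.smul_apply, h4, smul_eq_mul]
        unfold Crv.ord at *
        omega⟩ x
    refine ⟨r, (show (S.spc h).R from u) • exteriorPower.ιMulti _ 2 v, h1, ?_⟩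
    let Ψ : (((diag (S.spc h)).pull A).ext 2).M →ₗ[(S.spc h).R] (S.lb h S.kap).M := Φ
    refine (map_smul Ψ _ _).trans (Eq.trans ?_ h2.symm)
    exact congrArg (fun t : S.lbS S.kap => u • t) (Subtype.ext e)

theorem ext_om (hb : (OmM (S.spc h)).IsBun 2) :
    kc ((OmM (S.spc h)).ext 2) 1 = S.lK h S.kap := by
  obtain ⟨Φ, hΦ⟩ := qis_om h hb
  exact kc_qis hΦ 1

/-- the determinant of the cotangent bundle -/
theorem lam_om (hb : (OmM (S.spc h)).IsBun 2) : lam 2 (Om (S.spc h)) = S.lK h S.kap :=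
  (lam_kc hb 2).trans (ext_om h hb)

end Vale.Agent.P297Z.Dg
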