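import Vale.Agent.P297Z.K.Loc

/-!
# P297, diagonal: regular pairs, linear forms and the Koszul complex on a polynomial ring
-/

set_option linter.all false

open scoped TensorProduct
open MvPolynomial

noncomputable section

namespace Vale.Agent.P297Z.Dg

variable {R : Type} [CommRing R] {ι : Type} [Fintype ι] {B : Type} [AddCommGroup B] [Module R B]

section defs

variable [Algebra ℂ R] (z : R →ₐ[ℂ] ℂ)

/-- a regular sequence of length two at a point -/
structure Pair (u v : R) : Prop where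
  z1 : z u = 0
  z2 : z v = 0
  reg1 : ∀ a, u * a = 0 → ∃ r, z r ≠ 0 ∧ r * a = 0
  reg2 : ∀ a b, v * a = u * b → ∃ r c, z r ≠ 0 ∧ r * a = u * c

/-- two members of the family are a regular pair that generates the ideal at the point -/
def L2 {κ : Type} (f : κ → R) : Prop :=
  ∃ i₁ i₂, Pair z (f i₁) (f i₂) ∧ ∃ r, z r ≠ 0 ∧ ∀ i, ∃ a b, r * f i = a * f i₁ + b * f i₂

/-- the point is outside the zero set, or the family is generated by a regular pair -/
def Lci {κ : Type} (f : κ → R) : Prop := (∃ i, z (f i) ≠ 0) ∨ L2 z f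

end defs

/-- the map to the ring given by a family -/
def ev (f : ι → R) : (ι → R) →ₗ[R] R := Fintype.linearCombination R f

theorem ev_apply (f v : ι → R) : ev f v = ∑ i, v i * f i := by
  simp [ev, Fintype.linearCombination_apply]

/-- the linear form with given coefficients -/
def lin : (ι → R) →ₗ[R] MvPolynomial ι R := Fintype.linearCombination R X

theorem lin_apply (v : ι → R) : lin v = ∑ i, C (v i) * X i := by
  simp [lin, Fintype.linearCombination_apply, smul_eq_C_mul]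

theorem lin_hom (v : ι → R) : (lin v).IsHomogeneous 1 := by
  rw [lin_apply]
  exact IsHomogeneous.sum _ _ _ fun i _ => by
    simpa using (isHomogeneous_C ι (v i)).mul (isHomogeneous_X R i)

/-- the ideal generated by the linear forms of a map to a free module -/
def JJ (φ : B →ₗ[R] (ι → R)) : Ideal (MvPolynomial ι R) :=
  Ideal.span (Set.range fun b => lin (φ b))

/-- the forms of degree `k` -/
abbrev Hk (ι R : Type) [CommRing R] (k : ℕ) : Submodule R (MvPolynomial ι R) :=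
  homogeneousSubmodule ι R k

/-- the forms of degree `k` in the ideal -/
def JK (φ : B →ₗ[R] (ι → R)) (k : ℕ) : Submodule R (Hk ι R k) :=
  ((JJ φ).restrictScalars R).comap (Hk ι R k).subtype

theorem mem_JK {φ : B →ₗ[R] (ι → R)} {k : ℕ} {p : Hk ι R k} : p ∈ JK φ k ↔ p.1 ∈ JJ φ := Iff.rfl

/-- At the point the source is free, and the linear forms of a basis are a regular sequence. -/
def KReg [Algebra ℂ R] (z : R →ₐ[ℂ] ℂ) (φ : B →ₗ[R] (ι → R)) : Prop :=
  ∃ (τ : Type) (_ : Fintype τ) (e : τ → B) (ν : τ → ℕ),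
    IsoAt z (Fintype.linearCombination R e) ∧
    ∀ (t : τ) (T : Finset τ), t ∉ T → (∀ s ∈ T, ν s ≤ ν t) → ∀ (k : ℕ) (p : MvPolynomial ι R),
      p.IsHomogeneous k → lin (φ (e t)) * p ∈ Ideal.span ((fun s => lin (φ (e s))) '' T) →
      ∃ c, z c ≠ 0 ∧ C c * p ∈ Ideal.span ((fun s => lin (φ (e s))) '' T)

/-- the contraction on the exterior algebra -/
def ctr (σ : B →ₗ[R] R) : ExteriorAlgebra R B →ₗ[R] ExteriorAlgebra R B :=
  CliffordAlgebra.contractLeft (Q := (0 : QuadraticForm R B)) σ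

theorem ctr_ι_mul (σ : B →ₗ[R] R) (a : B) (x : ExteriorAlgebra R B) :
    ctr σ (ExteriorAlgebra.ι R a * x) = σ a • x - ExteriorAlgebra.ι R a * ctr σ x :=
  CliffordAlgebra.contractLeft_ι_mul σ a x

theorem ctr_algebraMap (σ : B →ₗ[R] R) (r : R) : ctr σ (algebraMap R _ r) = 0 :=
  CliffordAlgebra.contractLeft_algebraMap _ σ r

theorem ctr_ctr (σ : B →ₗ[R] R) (x : ExteriorAlgebra R B) : ctr σ (ctr σ x) = 0 :=
  CliffordAlgebra.contractLeft_contractLeft σ x

theorem ctr_comm (σ σ' : B →ₗ[R] R) (x : ExteriorAlgebra R B) :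
    ctr σ (ctr σ' x) = -ctr σ' (ctr σ x) :=
  CliffordAlgebra.contractLeft_comm σ σ' x

theorem ι_mul_mem {j : ℕ} (a : B) {x : ExteriorAlgebra R B} (hx : x ∈ ⋀[R]^j B) :
    ExteriorAlgebra.ι R a * x ∈ ⋀[R]^(j + 1) B := by
  change _ ∈ (LinearMap.range (ExteriorAlgebra.ι R : B →ₗ[R] _)) ^ (j + 1)
  rw [pow_succ']
  exact Submodule.mul_mem_mul ⟨a, rfl⟩ hx

theorem ctr_of_zero (σ : B →ₗ[R] R) {x : ExteriorAlgebra R B} (hx : x ∈ ⋀[R]^0 B) :
    ctr σ x = 0 := by
  change _ ∈ (LinearMap.range (ExteriorAlgebra.ι R : B →ₗ[R] _)) ^ 0 at hx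
  rw [pow_zero, Submodule.mem_one] at hx
  obtain ⟨r, rfl⟩ := hx
  exact ctr_algebraMap σ r

theorem ctr_mem (σ : B →ₗ[R] R) (j : ℕ) :
    ∀ x ∈ ⋀[R]^(j + 1) B, ctr σ x ∈ ⋀[R]^j B := by
  induction j with
  | zero =>
    intro x hx
    change _ ∈ (LinearMap.range (ExteriorAlgebra.ι R : B →ₗ[R] _)) ^ (0 + 1) at hx
    rw [pow_succ'] at hx
    refine Submodule.mul_induction_on hx ?_ fun a b ha hb => ?_
    · rintro _ ⟨a, rfl⟩ y hy
      rw [ctr_ι_mul, ctr_of_zero σ hy, mul_zero, sub_zero]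
      exact Submodule.smul_mem _ _ hy
    · rw [map_add]
      exact add_mem ha hb
  | succ j ih =>
    intro x hx
    change _ ∈ (LinearMap.range (ExteriorAlgebra.ι R : B →ₗ[R] _)) ^ (j + 1 + 1) at hx
    rw [pow_succ'] at hx
    refine Submodule.mul_induction_on hx ?_ fun a b ha hb => ?_
    · rintro _ ⟨a, rfl⟩ y hy
      rw [ctr_ι_mul]
      exact sub_mem (Submodule.smul_mem _ _ hy) (ι_mul_mem a (ih y hy))
    · rw [map_add]
      exact add_mem ha hb

/-- the contraction on the exterior powers -/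
def kos (σ : B →ₗ[R] R) (j : ℕ) : (⋀[R]^(j + 1) B) →ₗ[R] (⋀[R]^j B) :=
  (ctr σ).restrict (ctr_mem σ j)

theorem coe_kos (σ : B →ₗ[R] R) (j : ℕ) (x : ⋀[R]^(j + 1) B) : (kos σ j x).1 = ctr σ x.1 := rfl

/-- the product by a variable -/
def mulX (i : ι) (k : ℕ) : Hk ι R k →ₗ[R] Hk ι R (k + 1) :=
  (LinearMap.mulRight R (X i : MvPolynomial ι R)).restrict fun _ hp =>
    IsHomogeneous.mul hp (isHomogeneous_X R i)

theorem coe_mulX (i : ι) (k : ℕ) (p : Hk ι R k) : (mulX i k p).1 = p.1 * X i := rfl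

/-- the differential of the Koszul complex -/
def dd (φ : B →ₗ[R] (ι → R)) (j k : ℕ) :
    (⋀[R]^(j + 1) B) ⊗[R] Hk ι R k →ₗ[R] (⋀[R]^j B) ⊗[R] Hk ι R (k + 1) :=
  ∑ i, TensorProduct.map (kos ((LinearMap.proj i).comp φ) j) (mulX i k)

/-- the augmentation -/
def aug (φ : B →ₗ[R] (ι → R)) (k : ℕ) :
    (⋀[R]^0 B) ⊗[R] Hk ι R k →ₗ[R] Hk ι R k ⧸ JK φ k :=
  (JK φ k).mkQ ∘ₗ (TensorProduct.lid R _).toLinearMap ∘ₗ
    (exteriorPower.zeroEquiv R B).toLinearMap.rTensor _

/-- the derivation that sends the variable `i` to `f i` -/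
def DD (f : ι → R) : MvPolynomial ι R →ₗ[R] MvPolynomial ι R :=
  ∑ i, f i • (pderiv i : Derivation R (MvPolynomial ι R) (MvPolynomial ι R)).toLinearMap

theorem DD_apply (f : ι → R) (p : MvPolynomial ι R) : DD f p = ∑ i, C (f i) * pderiv i p := by
  simp [DD, LinearMap.sum_apply, smul_eq_C_mul]

theorem DD_mem (f : ι → R) (k : ℕ) : ∀ p ∈ Hk ι R (k + 1), DD f p ∈ Hk ι R k := fun p hp => by
  rw [DD, LinearMap.sum_apply]
  refine Submodule.sum_mem _ fun i _ => ?_
  rw [LinearMap.smul_apply]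
  exact Submodule.smul_mem _ _ (IsHomogeneous.pderiv (n := k + 1) hp)

theorem DD_mul (f : ι → R) (p q : MvPolynomial ι R) : DD f (p * q) = DD f p * q + p * DD f q := by
  simp only [DD_apply, Derivation.leibniz, smul_eq_mul, Finset.sum_mul, Finset.mul_sum,
    ← Finset.sum_add_distrib]
  exact Finset.sum_congr rfl fun i _ => by ring

theorem DD_lin (f v : ι → R) : DD f (lin v) = C (ev f v) := by
  classical
  rw [DD_apply, ev_apply, map_sum]
  refine Finset.sum_congr rfl fun i _ => ?_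
  rw [lin_apply, map_sum, Finset.sum_eq_single i]
  · simp [mul_comm]
  · intro j _ hj
    simp [pderiv_X, Pi.single_apply, hj, hj.symm]
  · simp

theorem DD_JJ (f : ι → R) {p : MvPolynomial ι R} (hp : p ∈ JJ (LinearMap.ker (ev f)).subtype) :
    DD f p ∈ JJ (LinearMap.ker (ev f)).subtype := by
  induction hp using Submodule.span_induction with
  | mem x hx =>
    obtain ⟨b, rfl⟩ := hx
    have hb : ev f b.1 = 0 := b.2
    change DD f (lin b.1) ∈ _
    rw [DD_lin, hb, map_zero]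
    exact zero_mem _
  | zero => rw [map_zero]; exact zero_mem _
  | add x y _ _ hx hy => rw [map_add]; exact add_mem hx hy
  | smul a x hx h =>
    rw [smul_eq_mul, DD_mul]
    exact add_mem (Ideal.mul_mem_left _ _ hx) (Ideal.mul_mem_left _ _ h)

/-- the map between the symmetric powers of the ideal generated by a family -/
def Dq (f : ι → R) (k : ℕ) :
    (Hk ι R (k + 1) ⧸ JK (LinearMap.ker (ev f)).subtype (k + 1)) →ₗ[R]
      (Hk ι R k ⧸ JK (LinearMap.ker (ev f)).subtype k) :=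
  Submodule.mapQ _ _ ((DD f).restrict (DD_mem f k)) fun _ hp => DD_JJ f hp

end Vale.Agent.P297Z.Dg
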