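import Vale.Agent.P297Z.Diag.RegA

/-!
# P297, diagonal: families generated by a regular pair
-/

set_option linter.all false

open scoped TensorProduct

noncomputable section

namespace Vale.Agent.P297Z.Dg

open MvPolynomial Rg

variable {R : Type} [CommRing R] [Algebra ℂ R] {ι : Type} [Fintype ι] {B : Type} [AddCommGroup B]
  [Module R B] {z : R →ₐ[ℂ] ℂ} {f : ι → R}

theorem kreg_of_split {φ : B →ₗ[R] (ι → R)} {r : ℕ} (hB : FreeAt z B r) {c : R} (hc : z c ≠ 0)
    (ψ : (ι → R) →ₗ[R] B) (h : ∀ b, ψ (φ b) = c • b) : KReg z φ := by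
  obtain ⟨s, v, l, h1, h2, h3⟩ := AK.free_basis hB
  have h4 : ∀ i j, (l i ∘ₗ ψ) (φ (v j)) = if i = j then c * s else 0 := fun i j => by
    rw [LinearMap.comp_apply, h, map_smul, h3, smul_eq_mul, mul_ite, mul_zero]
  refine ⟨Fin r, inferInstance, v, fun _ => 0, ⟨s, LinearMap.pi l, h1, fun a => funext fun i => ?_,
    h2⟩, fun t T ht _ k p hp h5 => reg_step (fun i => φ (v i)) T (c * s) (fun i => l i ∘ₗ ψ)
      (fun i _ => h4 i) ht (l t ∘ₗ ψ) hp h5 (ev_mul hc h1) fun q hq => ⟨c * s, ev_mul hc h1, ?_⟩⟩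
  · simp [Fintype.linearCombination_apply, h3, mul_comm]
  · rwa [h4, if_pos rfl] at hq

theorem L2.zero (h : L2 z f) (i : ι) : z (f i) = 0 := by
  obtain ⟨i₁, i₂, h1, r, h2, h3⟩ := h
  obtain ⟨a, b, h4⟩ := h3 i
  have h5 := congrArg z h4
  rw [map_mul, map_add, map_mul, map_mul, h1.z1, h1.z2, mul_zero, mul_zero, add_zero] at h5
  exact (mul_eq_zero.1 h5).resolve_left h2

theorem L2.two_le (h : L2 z f) : 2 ≤ Fintype.card ι := by
  obtain ⟨i₁, i₂, r, a, b, -, -, h3⟩ := exists_nf h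
  exact Fintype.one_lt_card_iff.2 ⟨i₁, i₂, h3.ne⟩

/-- the relations between any two generators are trivial -/
theorem L2.syz (h : L2 z f) {i₁ i₂ : ι} {r : R} (hr : z r ≠ 0)
    (hg : ∀ i, ∃ a b, r * f i = a * f i₁ + b * f i₂) {a b : R} (hab : a * f i₁ + b * f i₂ = 0) :
    ∃ s c, z s ≠ 0 ∧ s * a = c * f i₂ ∧ s * b = -(c * f i₁) := by
  obtain ⟨j₁, j₂, hp, r₀, h2, h3⟩ := h
  obtain ⟨A, C, e1⟩ := h3 i₁
  obtain ⟨B, D, e2⟩ := h3 i₂
  obtain ⟨A', C', e3⟩ := hg j₁
  obtain ⟨B', D', e4⟩ := hg j₂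
  obtain ⟨k1, k2⟩ := pair_zero hp (a := A' * A + C' * B - r * r₀) (b := A' * C + C' * D)
    (by linear_combination -r₀ * e3 - A' * e1 - C' * e2)
  obtain ⟨k3, k4⟩ := pair_zero hp (a := B' * A + D' * B) (b := B' * C + D' * D - r * r₀)
    (by linear_combination -r₀ * e4 - B' * e1 - D' * e2)
  simp only [map_sub, map_add, map_mul] at k1 k2 k3 k4
  have hd : z (A * D - B * C) ≠ 0 := fun o => by
    rw [map_sub, map_mul, map_mul] at o
    refine pow_ne_zero 2 (mul_ne_zero hr h2) ?_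
    linear_combination (z A' * z D' - z C' * z B') * o - (z B' * z C + z D' * z D) * k1 -
      z r * z r₀ * k4 + (z B' * z A + z D' * z B) * k2
  obtain ⟨s, c, k5, k6, k7⟩ := pair_syz hp (a := a * A + b * B) (b := a * C + b * D)
    (by linear_combination r₀ * hab - a * e1 - b * e2)
  exact ⟨s * (A * D - B * C), c * r₀, ev_mul k5 hd,
    by linear_combination D * k6 - B * k7 - c * e2, by linear_combination A * k7 - C * k6 + c * e1⟩

theorem card_bas [DecidableEq ι] {i₁ i₂ : ι} (h : i₁ ≠ i₂) :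
    Fintype.card (Option {i // i ≠ i₁ ∧ i ≠ i₂}) = Fintype.card ι - 1 := by
  have h1 : (Finset.univ.filter fun i => i ≠ i₁ ∧ i ≠ i₂) = (Finset.univ.erase i₁).erase i₂ := by
    ext i
    simp [and_comm]
  have h2 : 1 < Fintype.card ι := Fintype.one_lt_card_iff.2 ⟨i₁, i₂, h⟩
  rw [Fintype.card_option, Fintype.card_subtype, h1, Finset.card_erase_of_mem (by simp [h.symm]),
    Finset.card_erase_of_mem (Finset.mem_univ _), Finset.card_univ]
  omega

theorem X_mul_DD (f : ι → R) (i : ι) {k : ℕ} {q : MvPolynomial ι R} (hq : q.IsHomogeneous k) :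
    X i * DD f q - (k : MvPolynomial ι R) * (C (f i) * q) ∈ JJ (LinearMap.ker (ev f)).subtype := by
  classical
  have e : X i * DD f q - (k : MvPolynomial ι R) * (C (f i) * q) =
      ∑ j, pderiv j q * lin (kap f i j) := by
    rw [mul_left_comm, ← nsmul_eq_mul, ← hq.sum_X_mul_pderiv, DD_apply, Finset.mul_sum,
      Finset.mul_sum, ← Finset.sum_sub_distrib]
    refine Finset.sum_congr rfl fun j _ => ?_
    rw [lin_kap]
    ring
  rw [e]
  exact Ideal.sum_mem _ fun j _ => Ideal.mul_mem_left _ _ (Ideal.subset_span ⟨⟨_, ev_kap⟩, rfl⟩)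

variable [IsNoetherianRing R]

theorem Lci.free (h : Lci z f) : FreeAt z (LinearMap.ker (ev f)) (Fintype.card ι - 1) := by
  classical
  rcases h with ⟨i, hi⟩ | h
  · refine FreeAt.left (n := 1) (f := (LinearMap.ker (ev f)).subtype) (g := ev f) ?_ freeAt_one
      (fun a => a.2) (.of_inj Subtype.val_injective) (.of_ker fun b hb => ⟨⟨b, hb⟩, rfl⟩)
      fun b => ⟨f i, b • Pi.single i 1, hi, by rw [map_smul, ev_single]; exact mul_comm _ _⟩
    rw [Nat.sub_add_cancel (Fintype.card_pos_iff.2 ⟨i⟩)]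
    exact freeAt_fun ι
  · obtain ⟨i₁, i₂, r, a, b, h1, h2, h3⟩ := exists_nf h
    exact card_bas h3.ne ▸ (freeAt_fun _).of_isoAt (h3.iso h1 h2)

theorem Lci.kreg (h : Lci z f) : KReg z (LinearMap.ker (ev f)).subtype := by
  classical
  have hf := h.free
  rcases h with ⟨i, hi⟩ | h
  · refine kreg_of_split hf hi (LinearMap.codRestrict _
      (f i • LinearMap.id - (ev f).smulRight (Pi.single i 1)) fun v => ?_) fun b => Subtype.ext ?_
    · simp [ev_single, mul_comm]
    · show f i • b.1 - ev f b.1 • _ = f i • b.1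
      rw [show ev f b.1 = 0 from b.2, zero_smul, sub_zero]
  · obtain ⟨i₁, i₂, r, a, b, h1, h2, h3⟩ := exists_nf h
    refine ⟨_, inferInstance, _, fun t => t.elim 1 fun _ => 0, h3.iso h1 h2,
      fun t T ht hν k p hp h5 => reg_step (bas f i₁ i₂ r a b) T r dua (fun s hs => ?_) ht (dua t)
        hp h5 h2 fun q hq => ?_⟩
    · rcases s with _ | s
      · rcases t with _ | t
        · exact absurd hs ht
        · exact absurd (hν _ hs) Nat.one_pos.not_ge
      · exact dua_bas s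
    · rcases t with _ | t
      · rw [dua_none h3.ne, map_neg, neg_mul, neg_eq_zero] at hq
        exact reg1_poly h1 q hq
      · rw [dua_bas, if_pos rfl] at hq
        exact ⟨r, h2, hq⟩

theorem Lci.dq_inj (h : Lci z f) (k : ℕ) : InjAt z (Dq f k) := by
  classical
  intro x hx
  obtain ⟨p, rfl⟩ := Submodule.Quotient.mk_surjective _ x
  have h0 : DD f p.1 ∈ JJ (LinearMap.ker (ev f)).subtype :=
    (Submodule.Quotient.mk_eq_zero (JK _ k)).1 hx
  have h1 : ∀ i, C (f i) * p.1 ∈ JJ (LinearMap.ker (ev f)).subtype := fun i => by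
    have h2 := Ideal.mul_mem_left _ (C (algebraMap ℂ R (k + 1 : ℂ)⁻¹))
      (sub_mem (Ideal.mul_mem_left _ (X i) h0) (X_mul_DD f i p.2))
    rwa [sub_sub_cancel, ← mul_assoc, Nat.cast_succ, inv_succ, one_mul] at h2
  suffices h2 : ∃ s, z s ≠ 0 ∧ C s * p.1 ∈ JJ (LinearMap.ker (ev f)).subtype from
    h2.imp fun s hs => ⟨hs.1, (Submodule.Quotient.mk_eq_zero _).2 (mem_JK.2
      ((smul_eq_C_mul p.1 s).symm ▸ hs.2 : s • p.1 ∈ _))⟩
  rcases h with ⟨i, hi⟩ | h
  · exact ⟨_, hi, h1 i⟩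
  obtain ⟨i₁, i₂, r, a, b, h2, h3, h4⟩ := exists_nf h
  obtain ⟨π, k1, k2, k3⟩ := exists_proj (bas f i₁ i₂ r a b) (Finset.univ.erase none) r dua
    fun s hs => by
      rcases s with _ | s
      · exact absurd hs (Finset.notMem_erase _ _)
      · exact dua_bas s
  obtain ⟨c, g, k4, -, k5⟩ := h4.iso h2 h3
  have k6 : ∀ y ∈ JJ (LinearMap.ker (ev f)).subtype, C c * π y ∈ Ideal.span {lin (kap f i₁ i₂)} := by
    intro y hy
    induction hy using Submodule.span_induction with
    | mem x hx =>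
      obtain ⟨v, rfl⟩ := hx
      have e := congrArg (fun v : LinearMap.ker (ev f) => π (lin v.1)) (k5 v)
      simp only [Fintype.linearCombination_apply, Submodule.coe_sum, Submodule.coe_smul, map_sum,
        map_smul, smul_eq_C_mul, map_mul, algHom_C, algebraMap_eq] at e
      refine e.subst (Ideal.sum_mem _ fun t _ => Ideal.mul_mem_left _ _ ?_)
      rcases t with _ | t
      · rw [k2 _ (Finset.notMem_erase _ _)]
        exact Ideal.mul_mem_left _ _ (Ideal.mem_span_singleton_self _)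
      · rw [k1 _ (by simp)]
        exact zero_mem _
    | zero => rw [map_zero, mul_zero]; exact zero_mem _
    | add x y _ _ hx hy => rw [map_add, mul_add]; exact add_mem hx hy
    | smul a x _ hx => rw [smul_eq_mul, map_mul, mul_left_comm]; exact Ideal.mul_mem_left _ _ hx
  obtain ⟨q, hq⟩ := Ideal.mem_span_singleton'.1 (k6 _ (h1 i₁))
  rw [map_mul, algHom_C, algebraMap_eq, lin_kap] at hq
  obtain ⟨s, q', k7, k8⟩ := reg2_poly h2 i₁ q (C c * π p.1 + X i₂ * q) (by linear_combination hq)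
  obtain ⟨s', k9, k10⟩ := reg1_poly h2 (C s * (C c * π p.1) - lin (kap f i₁ i₂) * q') (by
    rw [lin_kap]
    linear_combination (C (f i₂) * X i₁ - C (f i₁) * X i₂) * k8 - C s * hq)
  have k11 : π p.1 - C r ^ (k + 1) * p.1 ∈ JJ (LinearMap.ker (ev f)).subtype :=
    (Ideal.span_le.2 (by
      rintro _ ⟨t, -, rfl⟩
      exact Ideal.subset_span ⟨⟨_, h4.ev_bas t⟩, rfl⟩) : _ ≤ JJ _) (k3 _ _ p.2).2
  have k12 : lin (kap f i₁ i₂) ∈ JJ (LinearMap.ker (ev f)).subtype :=
    Ideal.subset_span ⟨⟨_, ev_kap⟩, rfl⟩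
  refine ⟨s' * s * c * r ^ (k + 1), ev_mul (ev_mul (ev_mul k9 k7) k4) (ev_pow h3 _), ?_⟩
  convert sub_mem (Ideal.mul_mem_left _ (C s' * q') k12)
    (Ideal.mul_mem_left _ (C s' * C s * C c) k11) using 1
  simp only [map_mul, map_pow]
  linear_combination k10

omit [IsNoetherianRing R] in
theorem range_Dq (f : ι → R) (k : ℕ) :
    LinearMap.range (Dq f k) = Ideal.span (Set.range f) • ⊤ := by
  classical
  refine le_antisymm ?_ (Submodule.smul_le.2 fun c hc x _ => ?_)
  · rintro _ ⟨x, rfl⟩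
    obtain ⟨p, rfl⟩ := Submodule.Quotient.mk_surjective _ x
    have e : Dq f k (Submodule.Quotient.mk p) = ∑ i, f i • (JK _ k).mkQ
        ⟨pderiv i p.1, IsHomogeneous.pderiv (n := k + 1) p.2⟩ := by
      simp only [← map_smul, ← map_sum]
      refine congrArg (JK _ k).mkQ (Subtype.ext ((DD_apply f p.1).trans ?_))
      simp only [Submodule.coe_sum, Submodule.coe_smul, smul_eq_C_mul]
    rw [e]
    exact Submodule.sum_mem _ fun i _ =>
      Submodule.smul_mem_smul (Ideal.subset_span ⟨i, rfl⟩) Submodule.mem_top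
  · induction hc using Submodule.span_induction with
    | mem y hy =>
      obtain ⟨i, rfl⟩ := hy
      obtain ⟨q, rfl⟩ := Submodule.Quotient.mk_surjective _ x
      refine ⟨Submodule.Quotient.mk (algebraMap ℂ R (k + 1 : ℂ)⁻¹ • mulX i k q),
        (Submodule.Quotient.eq _).2 (mem_JK.2 ?_)⟩
      show DD f (algebraMap ℂ R (k + 1 : ℂ)⁻¹ • (q.1 * X i)) - f i • q.1 ∈ _
      rw [map_smul, DD_mul, ← lin_single, DD_lin, ev_single, lin_single, smul_eq_C_mul,
        smul_eq_C_mul]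
      convert Ideal.mul_mem_left _ (C (algebraMap ℂ R (k + 1 : ℂ)⁻¹)) (X_mul_DD f i q.2) using 1
      linear_combination (C (f i) * q.1) * inv_succ (R := R) (ι := ι) k
    | zero => rw [zero_smul]; exact zero_mem _
    | add a b _ _ ha hb => rw [add_smul]; exact add_mem ha hb
    | smul a b _ hb => rw [smul_eq_mul, mul_smul]; exact Submodule.smul_mem _ _ hb

/-- the relations of the image of a family come from the relations of the family -/
theorem Lci.syz_map {R' : Type} [CommRing R'] [Algebra ℂ R'] (μ : R →ₐ[ℂ] R') {w : R' →ₐ[ℂ] ℂ}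
    (h : Lci (w.comp μ) f) (h' : Lci w fun i => μ (f i)) (v : ι → R')
    (hv : ev (fun i => μ (f i)) v = 0) : ∃ s, w s ≠ 0 ∧
      s • v ∈ Submodule.span R' {u : ι → R' | ∃ u₀, ev f u₀ = 0 ∧ u = fun i => μ (u₀ i)} := by
  classical
  have e1 : ∀ i j, kap (fun i => μ (f i)) i j = fun l => μ (kap f i j l) := fun i j =>
    funext fun l => by simp [kap, Pi.single_apply, apply_ite μ]
  rcases h with ⟨i, hi⟩ | h
  · refine ⟨μ (f i), hi, ?_⟩
    have e : μ (f i) • v = ∑ j, v j • kap (fun i => μ (f i)) j i := by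
      rw [ev_apply] at hv
      simp only [kap, smul_sub, Finset.sum_sub_distrib, smul_comm (v _) (μ (f i)),
        ← Finset.smul_sum, sum_single]
      simp only [smul_smul, ← Finset.sum_smul, hv, zero_smul, sub_zero]
    rw [e]
    exact Submodule.sum_mem _ fun j _ => Submodule.smul_mem _ _
      (Submodule.subset_span ⟨_, ev_kap, e1 j i⟩)
  · have h2 : L2 w fun i => μ (f i) := h'.resolve_left fun ⟨i, hi⟩ => hi (h.zero i)
    obtain ⟨i₁, i₂, r, a, b, -, h3, h4⟩ := exists_nf h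
    have h5 : ∀ i, μ r * μ (f i) = μ (a i) * μ (f i₁) + μ (b i) * μ (f i₂) := fun i => by
      simpa using congrArg μ (h4.gen i)
    obtain ⟨s, c, k1, k2⟩ := decomp (f := fun i => μ (f i)) h5
      (fun _ _ => h2.syz h3 fun i => ⟨_, _, h5 i⟩) hv
    refine ⟨s * μ r, ev_mul k1 h3, ?_⟩
    rw [k2]
    refine add_mem (Submodule.smul_mem _ _ (Submodule.subset_span ⟨_, ev_kap, e1 _ _⟩))
      (Submodule.sum_mem _ fun j _ => Submodule.smul_mem _ _
        (Submodule.subset_span ⟨_, ev_rel (h4.gen j), funext fun l => ?_⟩))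
    simp [rel, Pi.single_apply, apply_ite μ]

/-- the conormal module is free of rank two -/
theorem L2.conormal {R' : Type} [CommRing R'] [Algebra ℂ R'] [Algebra R R'] {w : R' →ₐ[ℂ] ℂ}
    (hw : ∀ r, w (algebraMap R R' r) = z r) (h : L2 z f) (I : Ideal R) (hf : ∀ i, f i ∈ I)
    (hI : ∀ a ∈ I, ∃ r, z r ≠ 0 ∧ r * a ∈ Ideal.span (Set.range f))
    (h0 : ∀ a ∈ I, algebraMap R R' a = 0) : FreeAt w (R' ⊗[R] I) 2 := by
  obtain ⟨i₁, i₂, hp, r, h2, h3⟩ := h
  let u : Fin 2 → I := ![⟨f i₁, hf i₁⟩, ⟨f i₂, hf i₂⟩]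
  let E := Fintype.linearCombination R u
  have hE : ∀ x, (E x).1 = x 0 * f i₁ + x 1 * f i₂ := fun x => by
    simp [E, u, Fintype.linearCombination_apply]
  let μ : (Fin 2 → R) →ₗ[R] (Fin 2 → R') := (Algebra.linearMap R R').compLeft (Fin 2)
  have h4 : SurjAt z E := fun c => by
    obtain ⟨s, k1, k2⟩ := hI c.1 c.2
    obtain ⟨x, hx⟩ := Ideal.mem_span_range_iff_exists_fun.1 k2
    choose a b hab using h3
    refine ⟨r * s, ![∑ i, x i * a i, ∑ i, x i * b i], ev_mul h2 k1, Subtype.ext ((hE _).trans ?_)⟩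
    show (∑ i, x i * a i) * f i₁ + (∑ i, x i * b i) * f i₂ = r * s * c.1
    rw [mul_assoc, ← hx, Finset.sum_mul, Finset.sum_mul, ← Finset.sum_add_distrib, Finset.mul_sum]
    exact Finset.sum_congr rfl fun i _ => by linear_combination -(x i) * hab i
  obtain ⟨s, k1, k2⟩ := h4.unif
  obtain ⟨t, k3, k4⟩ := unif_fg (z := z) (N := LinearMap.ker E) (P := LinearMap.ker μ)
    (IsNoetherian.noetherian _) fun x hx => by
      obtain ⟨s, c, k5, k6, k7⟩ := pair_syz hp ((hE x).symm.trans (congrArg Subtype.val hx))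
      refine ⟨s, k5, funext fun j => ?_⟩
      fin_cases j
      · exact h0 _ (k6.symm.subst (I.mul_mem_left c (hf i₂)))
      · exact h0 _ (k7.symm.subst (I.neg_mem (I.mul_mem_left c (hf i₁))))
  obtain ⟨τ, hτ⟩ := exists_desc (g := E) (u := μ) (r := t)
    (fun x hx => (map_smul μ t x).symm.trans (k4 x hx)) k2
  let e := Fintype.linearCombination R' fun j => (1 : R') ⊗ₜ[R] u j
  have he : ∀ x, e (μ x) = 1 ⊗ₜ E x := fun x => by
    simp [e, E, μ, Fintype.linearCombination_apply, TensorProduct.tmul_add]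
  refine ⟨e, algebraMap R R' (t * s), τ.liftBaseChange R', (hw _).symm ▸ ev_mul k3 k1,
    fun x => ?_, fun y => ?_⟩
  · have h5 : ∀ j, τ (u j) = (t * s) • Pi.single j 1 := fun j => by
      rw [hτ (u j) (s • Pi.single j 1) (by rw [map_smul, Fintype.linearCombination_apply_single,
        one_smul]), map_smul, mul_smul]
      congr 2
      ext l
      simp [μ, Pi.single_apply, apply_ite (algebraMap R R')]
    rw [Fintype.linearCombination_apply, map_sum, algebraMap_smul]
    simp only [map_smul, LinearMap.liftBaseChange_tmul, one_smul, h5, smul_comm _ (t * s),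
      ← Finset.smul_sum, sum_single]
  · induction y using TensorProduct.induction_on with
    | zero => simp
    | add a b ha hb => rw [map_add, map_add, ha, hb, smul_add]
    | tmul a c =>
      obtain ⟨x, hx⟩ := k2 c
      rw [LinearMap.liftBaseChange_tmul, map_smul, hτ c x hx, e.map_smul_of_tower, he, hx,
        algebraMap_smul, TensorProduct.tmul_smul, ← mul_smul, smul_comm, TensorProduct.smul_tmul',
        smul_eq_mul, mul_one]

end Vale.Agent.P297Z.Dg
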