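import Vale.Agent.P297Z.Diag.Defs
import Vale.Agent.P297Z.Diag.Reg
import Vale.Agent.P297Z.K.AG
import Vale.Agent.P297Z.K.AK

/-!
# P297, diagonal: the class of a closed set cut by regular pairs
-/

set_option linter.all false

open scoped TensorProduct

noncomputable section

namespace Vale.Agent.P297Z.Dg

open GMod

variable {W X Y S : Spc} {ι : Type} [Fintype ι] {Z : Set Y.Pt} {d : ι → Y.J → ℤ} {f : ι → Y.R}

theorem Fr_isBun (d : ι → X.J → ℤ) : (Fr X d).IsBun (Fintype.card ι) := fun _ => freeAt_fun ι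

theorem kc_Fr (d : ι → X.J → ℤ) : kc (Fr X d) (Fintype.card ι) = ∑ i, line X (-d i) := by
  have h := kc_pi (M := fun i => (GMod.one X).shift (-d i)) (r := fun _ => 1)
    fun i => (isBun_one X).shift _
  rw [Finset.sum_const, smul_eq_mul, mul_one, Finset.card_univ] at h
  exact h

/-- the map to the ideal -/
def Cut.toI (h : Cut Y Z d f) : (ι → Y.R) →ₗ[Y.R] Y.van Z :=
  (ev f).codRestrict (Y.van Z) fun v => by
    rw [ev_apply]
    exact Ideal.sum_mem _ fun i _ => Ideal.mul_mem_left _ _ (h.mem i)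

theorem Cut.syz_isBun (h : Cut Y Z d f) : (syz h.wt).IsBun (Fintype.card ι - 1) :=
  fun z => (h.lci z).free

theorem Cut.ses (h : Cut Y Z d f) (hZ : Y.Stab Z) :
    SES (syz h.wt) (Fr Y d) (IZ Y Z hZ) (LinearMap.ker (ev f)).subtype h.toI := by
  refine ⟨syz_isHom h.wt, fun g v => Subtype.ext (ev_isHom h.wt g v), fun a => Subtype.ext a.2,
    fun z => ⟨InjAt.of_inj Subtype.val_injective,
      ExAt.of_ker fun b hb => ⟨⟨b, congrArg Subtype.val hb⟩, rfl⟩, fun b => ?_⟩⟩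
  obtain ⟨r, hr, hm⟩ := h.gen z b.1 b.2
  obtain ⟨c, hc⟩ := Ideal.mem_span_range_iff_exists_fun.1 hm
  exact ⟨r, c, hr, Subtype.ext ((ev_apply f c).trans hc)⟩

theorem Cut.res_I (h : Cut Y Z d f) (hZ : Y.Stab Z) : Res 1 (IZ Y Z hZ) (1 - cutK h.wt) :=
  ⟨_, _, _, _, _, _, h.ses hZ, Fr_isBun d, ⟨_, h.syz_isBun, rfl⟩, by
    rw [cutK, sub_sub_cancel, kc_Fr]⟩

theorem Cut.res_O (h : Cut Y Z d f) (hZ : Y.Stab Z) : Res 2 (OZ Y Z hZ) (cutK h.wt) :=
  ⟨_, _, _, _, _, _, ses_sub_quo (GMod.one Y) (Y.van Z) (Spc.van_act hZ), isBun_one Y, h.res_I hZ,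
    by rw [kc_one, sub_sub_cancel]⟩

theorem Cut.rk_cutK [Nonempty Y.Pt] (h : Cut Y Z d f) : rk Y (cutK h.wt) = 0 := by
  obtain ⟨z⟩ := ‹Nonempty Y.Pt›
  have h1 : 1 ≤ Fintype.card ι := by
    rcases h.lci z with ⟨i, -⟩ | ⟨i, -⟩ <;> exact Fintype.card_pos_iff.2 ⟨i⟩
  rw [cutK, ← kc_Fr, map_sub, map_sub, map_one, rk_kc (Fr_isBun d), rk_kc h.syz_isBun]
  omega

theorem pull_fact (g : Mor W Y) (γ : Y.J → ℤ) (t : W.J → ℂˣ) (r : Y.R) :
    g.φ (chr (- -γ) (tor g.ρ t) • Y.act (tor g.ρ t) r) = chr (- -g.ρ γ) t • W.act t (g.φ r) := by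
  rw [map_smul, g.act_map, neg_neg, neg_neg, chr_tor]

theorem Cut.pull (h : Cut Y Z d f) (g : Mor W Y) {Z' : Set W.Pt} {d' : ι → W.J → ℤ}
    {f' : ι → W.R} (h' : Cut W Z' d' f') (hd : ∀ i, d' i = g.ρ (d i)) (hf : ∀ i, f' i = g.φ (f i)) :
    cutK h'.wt = pullK g (cutK h.wt) := by
  obtain rfl : d' = fun i => g.ρ (d i) := funext hd
  obtain rfl : f' = fun i => g.φ (f i) := funext hf
  have hm : ∀ u : ι → Y.R, ev f u = 0 →
      (fun i => g.φ (u i)) ∈ LinearMap.ker (ev fun i => g.φ (f i)) := fun u hu => by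
    have h1 := congrArg g.φ hu
    rw [ev_apply, map_sum, map_zero] at h1
    rw [LinearMap.mem_ker, ev_apply, ← h1]
    exact Finset.sum_congr rfl fun i _ => (map_mul _ _ _).symm
  obtain ⟨L, hL⟩ := AK.exists_plift g (syz h.wt) (V := (syz h'.wt).M)
    { toFun := fun u => ⟨fun i => g.φ (u.1 i), hm u.1 u.2⟩
      map_zero' := Subtype.ext (funext fun i => map_zero g.φ)
      map_add' := fun u v => Subtype.ext (funext fun i => map_add g.φ _ _) }
    fun s u => Subtype.ext (funext fun i => map_mul g.φ _ _)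
  have hq : Qis (g.pull (syz h.wt)) (syz h'.wt) L := by
    refine ⟨AK.isHom_pu fun t u => ?_, fun w => isoAt_of_surjAt (h.syz_isBun.pull g w)
      (h'.syz_isBun w) fun b => ?_⟩
    · rw [hL, hL]
      refine Subtype.ext (funext fun i => ?_)
      exact pull_fact g (d i) t (u.1 i)
    · obtain ⟨s, hs, hb⟩ := Lci.syz_map g.φ (h.lci (g.onPt w)) (h'.lci w) b.1 b.2
      obtain ⟨a, ha⟩ := (Submodule.span_le (p := LinearMap.range
        ((LinearMap.ker (ev fun i => g.φ (f i))).subtype ∘ₗ L))).2 (by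
          rintro _ ⟨u, hu, rfl⟩
          exact ⟨AK.pu g (syz h.wt) ⟨u, hu⟩, congrArg Subtype.val (hL ⟨u, hu⟩)⟩) hb
      exact ⟨s, a, hs, Subtype.ext ha⟩
  rw [cutK, cutK, map_sub, map_sub, map_one, map_sum, pullK_kc g h.syz_isBun, kc_qis hq]
  simp only [pullK_line, map_neg]

/-- the pull-back of the ideal along a map into the closed set is a bundle of rank two -/
theorem Cut.conormal (h : Cut Y Z d f) (hZ : Y.Stab Z) (g : Mor W Y)
    (hg : ∀ a ∈ Y.van Z, g.φ a = 0) : (g.pull (IZ Y Z hZ)).IsBun 2 := fun w => by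
  rcases h.lci (g.onPt w) with ⟨i, hi⟩ | h2
  · exact (hi ((congrArg w.1 (hg _ (h.mem i))).trans (map_zero _))).elim
  · exact L2.conormal (R' := g.Src) (w := w.1) (z := (g.onPt w).1) (fun _ => rfl) h2 (Y.van Z) h.mem
      (h.gen (g.onPt w)) hg

theorem isRes_iff {M : GMod X} {x : K0 X} : IsRes M x ↔ Res 1 M x := by
  constructor
  · rintro ⟨B, A, u, v, hs, rfl⟩
    exact ⟨_, _, _, _, u, v, hs, A.free, ⟨_, B.free, rfl⟩, by rw [kc_bun, kc_bun]⟩
  · rintro ⟨N, P, p, _, u, v, hs, hP, ⟨r, hN, rfl⟩, rfl⟩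
    exact ⟨⟨N, r, hN⟩, ⟨P, p, hP⟩, u, v, hs, by rw [kc_eq hP, kc_eq hN]⟩

variable {n : ℕ} {y : Fin n → S.R} {a b : Mor W S}

theorem delta_eq [Nonempty S.Pt] (h : Trans y (Mor.fst S S) (Mor.snd S S)) :
    delta S = cutK h.wt := by
  haveI : Nonempty (S.prod S).Pt := ‹Nonempty S.Pt›.map (diag S).onPt
  have h1 := Cut.res_I h (eqS_stab _ _)
  have h2 : ∃ a, ∃ hs : (GMod.one (S.prod S)).Stab (diagI S),
      IsRes ((GMod.one (S.prod S)).sub (diagI S) hs) a :=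
    ⟨_, Spc.van_act (eqS_stab (Mor.fst S S) (Mor.snd S S)), isRes_iff.2 h1⟩
  obtain ⟨hs, h3⟩ := h2.choose_spec
  rw [delta, dif_pos h2, (isRes_iff.1 h3).unique' h1, sub_sub_cancel]

theorem gg_comp {V : Spc} (a b : Mor W S) (g : Mor V W) (p : Fin n × Fin n) :
    gg y (a.comp g) (b.comp g) p = g.φ (gg y a b p) := by
  rw [gg, gg, map_sub, map_mul, map_mul]
  rfl

theorem Trans.dl_eq [Nonempty S.Pt] (h0 : Trans y (Mor.fst S S) (Mor.snd S S)) (h : Trans y a b) :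
    dl a b = cutK h.wt := by
  rw [dl, delta_eq h0]
  refine (Cut.pull h0 (Mor.lift a b) h (fun _ => ?_) fun p => ?_).symm
  · rw [map_add]
    exact congrArg₂ (fun u v : Mor W S => u.ρ 1 + v.ρ 1) (Mor.fst_lift a b).symm
      (Mor.snd_lift a b).symm
  · rw [← gg_comp, Mor.fst_lift, Mor.snd_lift]

theorem Trans.res [Nonempty S.Pt] (h0 : Trans y (Mor.fst S S) (Mor.snd S S)) (h : Trans y a b) :
    Res 2 (OZ W (eqS a b) (eqS_stab a b)) (dl a b) := by
  rw [h0.dl_eq h]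
  exact Cut.res_O h _

theorem OmM_isBun (h0 : Trans y (Mor.fst S S) (Mor.snd S S)) : (OmM S).IsBun 2 :=
  Cut.conormal h0 _ (diag S) fun _ ha => S.sep _ fun z hz => ha ((diag S).onPt ⟨z, hz⟩) (by
    change S.Orb (((Mor.fst S S).comp (Mor.lift _ _)).onPt _)
      (((Mor.snd S S).comp (Mor.lift _ _)).onPt _)
    rw [Mor.fst_lift, Mor.snd_lift]
    exact Spc.Orb.refl _)

theorem res_OZ_congr {Z' : Set Y.Pt} (e : Z = Z') {hZ : Y.Stab Z} {hZ' : Y.Stab Z'} {m : ℕ}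
    {x : K0 Y} (h : Res m (OZ Y Z hZ) x) : Res m (OZ Y Z' hZ') x := by
  subst e
  exact h

theorem dl_symm [Nonempty S.Pt] (h0 : Trans y (Mor.fst S S) (Mor.snd S S))
    (h1 : Trans y (Mor.snd S S) (Mor.fst S S)) (a b : Mor W S) : dl a b = dl b a := by
  haveI : Nonempty (S.prod S).Pt := ‹Nonempty S.Pt›.map (diag S).onPt
  have h2 : dl (Mor.snd S S) (Mor.fst S S) = delta S := by
    rw [delta_eq h0]
    exact (h0.res h1).unique' (res_OZ_congr (Set.ext fun _ => ⟨Spc.Orb.symm, Spc.Orb.symm⟩)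
      (Cut.res_O h0 (eqS_stab _ _)))
  refine (congrArg (pullK (Mor.lift a b)) h2.symm).trans ?_
  rw [dl, dl, ← pullK_comp, Mor.lift_comp, Mor.fst_lift, Mor.snd_lift]

end Vale.Agent.P297Z.Dg
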