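import Vale.Agent.P297Z.K.AK0

/-!
# P297, diagonal: the induction for a Koszul complex, on abstract operators
-/

set_option linter.all false

noncomputable section

namespace Vale.Agent.P297Z.Dg

variable {R : Type} [CommRing R] {M : Type} [AddCommGroup M] [Module R M] {τ : Type}

/-- contractions, exterior products and scalars on a bigraded module -/
structure Car (ρ : R) (i e l : τ → M →ₗ[R] M) (G : ℕ → ℕ → Submodule R M) : Prop where
  same : ∀ t x, i t (e t x) = ρ • x - e t (i t x)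
  diff : ∀ s t x, s ≠ t → i s (e t x) = -e t (i s x)
  ii : ∀ t x, i t (i t x) = 0
  anti : ∀ s t x, i s (i t x) = -i t (i s x)
  il : ∀ s t x, i s (l t x) = l t (i s x)
  el : ∀ s t x, e s (l t x) = l t (e s x)
  ll : ∀ s t x, l s (l t x) = l t (l s x)
  Gi : ∀ t j k, ∀ x ∈ G (j + 1) k, i t x ∈ G j k
  Ge : ∀ t j k, ∀ x ∈ G j k, e t x ∈ G (j + 1) k
  Gl : ∀ t j k, ∀ x ∈ G j k, l t x ∈ G j (k + 1)

/-- the differential of a subfamily -/
def dT (i l : τ → M →ₗ[R] M) (T : Finset τ) : M →ₗ[R] M := ∑ s ∈ T, l s ∘ₗ i s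

theorem dT_apply (i l : τ → M →ₗ[R] M) (T : Finset τ) (x : M) :
    dT i l T x = ∑ s ∈ T, l s (i s x) := by
  rw [dT, LinearMap.sum_apply]
  rfl

theorem dT_insert [DecidableEq τ] (i l : τ → M →ₗ[R] M) {T : Finset τ} {t : τ} (ht : t ∉ T)
    (x : M) : dT i l (insert t T) x = l t (i t x) + dT i l T x := by
  rw [dT_apply, dT_apply, Finset.sum_insert ht]

variable {ρ : R} {i e l : τ → M →ₗ[R] M} {G : ℕ → ℕ → Submodule R M}

theorem Car.d_i (h : Car ρ i e l G) (T : Finset τ) (t : τ) (x : M) :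
    dT i l T (i t x) = -i t (dT i l T x) := by
  rw [dT_apply, dT_apply, map_sum, ← Finset.sum_neg_distrib]
  exact Finset.sum_congr rfl fun s _ => by rw [h.il, h.anti s t, map_neg]

theorem Car.d_e (h : Car ρ i e l G) {T : Finset τ} {t : τ} (ht : t ∉ T) (x : M) :
    dT i l T (e t x) = -e t (dT i l T x) := by
  rw [dT_apply, dT_apply, map_sum, ← Finset.sum_neg_distrib]
  exact Finset.sum_congr rfl fun s hs => by
    rw [h.el, h.diff s t x (fun hst => ht (hst ▸ hs)), map_neg]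

theorem Car.d_l (h : Car ρ i e l G) (T : Finset τ) (t : τ) (x : M) :
    dT i l T (l t x) = l t (dT i l T x) := by
  rw [dT_apply, dT_apply, map_sum]
  exact Finset.sum_congr rfl fun s _ => by rw [h.il, h.ll s t]

theorem Car.main [Algebra ℂ R] {z : R →ₐ[ℂ] ℂ} [DecidableEq τ] (h : Car ρ i e l G) (hρ : z ρ ≠ 0)
    (ν : τ → ℕ)
    (base : ∀ j k, ∀ x ∈ G (j + 1) k, (∀ s, i s x = 0) → ∃ c, z c ≠ 0 ∧ c • x = 0)
    (reg : ∀ (t : τ) (T : Finset τ), t ∉ T → (∀ s ∈ T, ν s ≤ ν t) → ∀ k, ∀ b ∈ G 0 (k + 1), ∀ a,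
      dT i l T a = l t b → ∃ c y, z c ≠ 0 ∧ y ∈ G 1 k ∧ (∀ s ∉ T, i s y = 0) ∧ dT i l T y = c • b)
    (T : Finset τ) : ∀ j k, ∀ x ∈ G (j + 1) (k + 1), (∀ s ∉ T, i s x = 0) → dT i l T x = 0 →
      ∃ c y, z c ≠ 0 ∧ y ∈ G (j + 1 + 1) k ∧ (∀ s ∉ T, i s y = 0) ∧ dT i l T y = c • x := by
  induction T using Finset.induction_on_max_value ν with
  | empty =>
    intro j k x hx h1 _
    obtain ⟨c, hc, h2⟩ := base j _ x hx fun s => h1 s (Finset.notMem_empty s)
    exact ⟨c, 0, hc, zero_mem _, fun s _ => map_zero _, by rw [map_zero, h2]⟩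
  | insert t T ht hν ih =>
    intro j k x hx h1 h2
    rw [dT_insert i l ht] at h2
    have h2' : dT i l T x = -l t (i t x) := eq_neg_of_add_eq_zero_right h2
    have hcase : ∀ s ∉ T, s = t ∨ (s ≠ t ∧ s ∉ insert t T) := fun s hs => by
      by_cases hst : s = t
      · exact Or.inl hst
      · exact Or.inr ⟨hst, fun hm => (Finset.mem_insert.1 hm).elim hst hs⟩
    have hb : ∀ s ∉ T, i s (i t x) = 0 := fun s hs => by
      rcases hcase s hs with rfl | ⟨-, h3⟩
      · exact h.ii _ _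
      · rw [h.anti, h1 s h3, map_zero, neg_zero]
    have ha : ∀ s ∉ T, i s (i t (e t x)) = 0 := fun s hs => by
      rcases hcase s hs with rfl | ⟨h4, h3⟩
      · exact h.ii _ _
      · rw [h.anti, h.diff s t x h4, h1 s h3, map_zero, neg_zero, map_zero, neg_zero]
    have db : dT i l T (i t x) = 0 := by
      rw [h.d_i, h2', map_neg, h.il, h.ii, map_zero, neg_zero, neg_zero]
    have da : dT i l T (i t (e t x)) = -(ρ • l t (i t x)) := by
      rw [h.d_i, h.d_e ht, h2', map_neg, map_neg, map_neg, neg_neg, h.el, h.il, h.same, h.ii,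
        map_zero, sub_zero, map_smul]
    obtain ⟨c, b, hc, hbG, hb1, hb2⟩ : ∃ c b, z c ≠ 0 ∧ b ∈ G (j + 1) k ∧
        (∀ s ∉ T, i s b = 0) ∧ dT i l T b = c • i t x := by
      cases j with
      | zero =>
        obtain ⟨c, y, h3, h4, h5, h6⟩ := reg t T ht hν k (ρ • i t x)
          (Submodule.smul_mem _ _ (h.Gi t _ _ x hx)) (-i t (e t x))
          (by rw [map_neg, da, neg_neg, map_smul])
        exact ⟨c * ρ, y, AK.mul_ne h3 hρ, h4, h5, by rw [h6, mul_smul]⟩
      | succ j => exact ih j k _ (h.Gi t _ _ x hx) hb db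
    obtain ⟨c', a, hc', haG, ha1, ha2⟩ := ih j k (c • i t (e t x) + ρ • l t b)
      (add_mem (Submodule.smul_mem _ _ (h.Gi t _ _ _ (h.Ge t _ _ x hx)))
        (Submodule.smul_mem _ _ (h.Gl t _ _ b hbG)))
      (fun s hs => by
        rw [map_add, map_smul, map_smul, ha s hs, h.il, hb1 s hs, map_zero, smul_zero, smul_zero,
          add_zero])
      (by
        rw [map_add, map_smul, map_smul, da, h.d_l, hb2, map_smul, smul_neg, smul_comm c ρ,
          neg_add_cancel])
    refine ⟨c' * c * ρ, a - c' • e t b, AK.mul_ne (AK.mul_ne hc' hc) hρ,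
      sub_mem haG (Submodule.smul_mem _ _ (h.Ge t _ _ b hbG)), fun s hs => ?_, ?_⟩
    · have h3 : s ∉ T := fun hm => hs (Finset.mem_insert_of_mem hm)
      have h4 : s ≠ t := fun hm => hs (hm ▸ Finset.mem_insert_self _ _)
      rw [map_sub, map_smul, ha1 s h3, h.diff s t b h4, hb1 s h3, map_zero, neg_zero, smul_zero,
        sub_zero]
    · rw [dT_insert i l ht, map_sub, map_sub, map_sub, map_smul, map_smul, map_smul, ha1 t ht,
        map_zero, ha2, h.d_e ht, hb2, h.same t b, hb1 t ht, map_zero, sub_zero, map_smul, map_smul,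
        h.same t x]
      simp only [smul_add, smul_sub, smul_neg, smul_smul, mul_assoc]
      abel

end Vale.Agent.P297Z.Dg
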