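import Vale.Agent.P297Z.Diag.Alg
import Vale.Agent.P297Z.K.AK0
import Vale.Agent.P297Z.Diag.KosA

/-!
# P297, diagonal: the Koszul complex of a regular sequence of linear forms
-/

set_option linter.all false

open scoped TensorProduct

noncomputable section

namespace Vale.Agent.P297Z.Dg

variable {R : Type} [CommRing R] {ι : Type} [Fintype ι] {B : Type} [AddCommGroup B] [Module R B]

theorem dd_tmul (φ : B →ₗ[R] (ι → R)) (j k : ℕ) (a : ⋀[R]^(j + 1) B) (p : Hk ι R k) :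
    dd φ j k (a ⊗ₜ p) = ∑ i, kos ((LinearMap.proj i).comp φ) j a ⊗ₜ mulX i k p := by
  rw [dd, LinearMap.sum_apply]
  rfl

theorem dd_dd (φ : B →ₗ[R] (ι → R)) (j k : ℕ) (x : (⋀[R]^(j + 1 + 1) B) ⊗[R] Hk ι R k) :
    dd φ j (k + 1) (dd φ (j + 1) k x) = 0 := by
  induction x with
  | zero => rw [map_zero, map_zero]
  | add x y hx hy => rw [map_add, map_add, hx, hy, add_zero]
  | tmul a p =>
    rw [dd_tmul, map_sum]
    simp only [dd_tmul]
    rw [← Finset.sum_product']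
    refine Finset.sum_ninvolution Prod.swap (fun ⟨i, i'⟩ => ?_) (fun ⟨i, i'⟩ h1 h2 => h1 ?_)
      (fun _ => Finset.mem_product.2 ⟨Finset.mem_univ _, Finset.mem_univ _⟩) fun _ => rfl
    · have h1 : mulX i (k + 1) (mulX i' k p) = mulX i' (k + 1) (mulX i k p) :=
        Subtype.ext (mul_right_comm _ _ _)
      have h2 : kos ((LinearMap.proj i).comp φ) j (kos ((LinearMap.proj i').comp φ) (j + 1) a) =
          -kos ((LinearMap.proj i').comp φ) j (kos ((LinearMap.proj i).comp φ) (j + 1) a) :=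
        Subtype.ext (ctr_comm _ _ _)
      simp only [Prod.swap_prod_mk]
      rw [h1, h2, ← TensorProduct.add_tmul, add_neg_cancel, TensorProduct.zero_tmul]
    · obtain rfl : i' = i := congrArg Prod.fst h2
      have h3 : kos ((LinearMap.proj i').comp φ) j (kos ((LinearMap.proj i').comp φ) (j + 1) a) =
          0 := Subtype.ext (ctr_ctr _ _)
      simp only []
      rw [h3, TensorProduct.zero_tmul]

/-- homogeneous members of an ideal generated by linear forms -/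
theorem span_hom {S : Set (MvPolynomial ι R)} (hS : ∀ g ∈ S, g.IsHomogeneous 1) {n : ℕ}
    (W : Submodule R (MvPolynomial ι R)) (hW : ∀ k, n = k + 1 → ∀ g ∈ S, ∀ q ∈ Hk ι R k, q * g ∈ W)
    {p : MvPolynomial ι R} (hp : p ∈ Ideal.span S) (hn : p.IsHomogeneous n) : p ∈ W := by
  have key : ∀ p ∈ Ideal.span S, ∀ q, MvPolynomial.homogeneousComponent n (q * p) ∈ W := by
    intro p hp
    induction hp using Submodule.span_induction with
    | mem g hg =>
      intro q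
      rw [← MvPolynomial.sum_homogeneousComponent q, Finset.sum_mul, map_sum]
      refine Submodule.sum_mem _ fun m _ => ?_
      have h1 := MvPolynomial.homogeneousComponent_mem m q
      rw [MvPolynomial.homogeneousComponent_of_mem (n := m + 1)
        (MvPolynomial.IsHomogeneous.mul h1 (hS g hg))]
      split_ifs with h2
      · exact hW m h2 g hg _ h1
      · exact zero_mem _
    | zero => intro q; rw [mul_zero, map_zero]; exact zero_mem _
    | add x y _ _ hx hy => intro q; rw [mul_add, map_add]; exact add_mem (hx q) (hy q)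
    | smul a x _ hx => intro q; rw [smul_eq_mul, ← mul_assoc]; exact hx _
  have := key p hp 1
  rwa [one_mul, MvPolynomial.homogeneousComponent_eq_self hn] at this

/-- the unit in degree zero -/
def un (R B : Type) [CommRing R] [AddCommGroup B] [Module R B] : ⋀[R]^0 B :=
  exteriorPower.ιMulti R 0 fun i => i.elim0

theorem coe_un : (un R B).1 = 1 := by
  rw [un, exteriorPower.ιMulti_apply_coe, ExteriorAlgebra.ιMulti_zero_apply]

theorem one_mem_zero : (1 : ExteriorAlgebra R B) ∈ ⋀[R]^0 B := by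
  rw [← coe_un]
  exact (un R B).2

theorem zero_un : exteriorPower.zeroEquiv R B (un R B) = 1 := exteriorPower.zeroEquiv_ιMulti _

theorem eq_un (a : ⋀[R]^0 B) : a = exteriorPower.zeroEquiv R B a • un R B :=
  (exteriorPower.zeroEquiv R B).injective (by rw [map_smul, zero_un, smul_eq_mul, mul_one])

/-- the identification in degree zero -/
def uu (B : Type) [AddCommGroup B] [Module R B] (k : ℕ) :
    (⋀[R]^0 B) ⊗[R] Hk ι R k ≃ₗ[R] Hk ι R k :=
  (exteriorPower.zeroEquiv R B).rTensor _ ≪≫ₗ TensorProduct.lid R _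

theorem uu_tmul (k : ℕ) (a : ⋀[R]^0 B) (p : Hk ι R k) :
    uu B k (a ⊗ₜ p) = exteriorPower.zeroEquiv R B a • p := rfl

theorem aug_eq (φ : B →ₗ[R] (ι → R)) (k : ℕ) (x : (⋀[R]^0 B) ⊗[R] Hk ι R k) :
    aug φ k x = Submodule.Quotient.mk (uu B k x) := rfl

theorem ctr_ι (σ : B →ₗ[R] R) (b : B) : ctr σ (ExteriorAlgebra.ι R b) = σ b • 1 := by
  have h := ctr_ι_mul σ b 1
  rwa [mul_one, ← map_one (algebraMap R (ExteriorAlgebra R B)), ctr_algebraMap, mul_zero, sub_zero,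
    map_one] at h

theorem uu_dd (φ : B →ₗ[R] (ι → R)) (k : ℕ) (a : ⋀[R]^(0 + 1) B) (b : B)
    (hab : a.1 = ExteriorAlgebra.ι R b) (p : Hk ι R k) :
    (uu B (k + 1) (dd φ 0 k (a ⊗ₜ p))).1 = p.1 * lin (φ b) := by
  rw [dd_tmul, map_sum, lin_apply, Finset.mul_sum, Submodule.coe_sum]
  refine Finset.sum_congr rfl fun i _ => ?_
  have h1 : kos ((LinearMap.proj i).comp φ) 0 a = φ b i • un R B :=
    Subtype.ext (by rw [coe_kos, hab, ctr_ι, Submodule.coe_smul, coe_un]; rfl)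
  rw [uu_tmul, h1, map_smul, zero_un, smul_eq_mul, mul_one, Submodule.coe_smul, coe_mulX,
    MvPolynomial.smul_eq_C_mul, mul_left_comm]

theorem ι_mem (b : B) : ExteriorAlgebra.ι R b ∈ ⋀[R]^(0 + 1) B := by
  have h := ι_mul_mem b (un R B).2
  rwa [coe_un, mul_one] at h

theorem mem_one (a : ⋀[R]^(0 + 1) B) : ∃ b, a.1 = ExteriorAlgebra.ι R b := by
  have h : a.1 ∈ (LinearMap.range (ExteriorAlgebra.ι R : B →ₗ[R] _)) ^ 1 := a.2
  rw [pow_one] at h
  obtain ⟨b, hb⟩ := h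
  exact ⟨b, hb.symm⟩

theorem aug_dd (φ : B →ₗ[R] (ι → R)) (k : ℕ) (x : (⋀[R]^(0 + 1) B) ⊗[R] Hk ι R k) :
    aug φ (k + 1) (dd φ 0 k x) = 0 := by
  induction x with
  | zero => rw [map_zero, map_zero]
  | add x y hx hy => rw [map_add, map_add, hx, hy, add_zero]
  | tmul a p =>
    obtain ⟨b, hb⟩ := mem_one a
    rw [aug_eq, Submodule.Quotient.mk_eq_zero, mem_JK, uu_dd φ k a b hb]
    exact Ideal.mul_mem_left _ _ (Ideal.subset_span ⟨b, rfl⟩)

theorem aug_surj (φ : B →ₗ[R] (ι → R)) (k : ℕ) : Function.Surjective (aug φ k) := fun y => by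
  obtain ⟨p, rfl⟩ := Submodule.Quotient.mk_surjective _ y
  exact ⟨(uu B k).symm p, by rw [aug_eq, LinearEquiv.apply_symm_apply]⟩

theorem aug_zero_inj (φ : B →ₗ[R] (ι → R)) : Function.Injective (aug φ 0) := by
  refine (injective_iff_map_eq_zero _).2 fun x hx => ?_
  rw [aug_eq, Submodule.Quotient.mk_eq_zero, mem_JK] at hx
  have h := span_hom (n := 0) (by rintro _ ⟨b, rfl⟩; exact lin_hom _) ⊥
    (fun k hk => absurd hk (Nat.succ_ne_zero k).symm) hx (uu B 0 x).2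
  exact (uu B 0).map_eq_zero_iff.1 (Subtype.ext h)

theorem aug_ex (φ : B →ₗ[R] (ι → R)) (k : ℕ) (x : (⋀[R]^0 B) ⊗[R] Hk ι R (k + 1))
    (h : aug φ (k + 1) x = 0) : ∃ y, dd φ 0 k y = x := by
  rw [aug_eq, Submodule.Quotient.mk_eq_zero, mem_JK] at h
  obtain ⟨y, hy⟩ := span_hom (n := k + 1) (by rintro _ ⟨b, rfl⟩; exact lin_hom _)
    (LinearMap.range ((Hk ι R (k + 1)).subtype ∘ₗ (uu B (k + 1)).toLinearMap ∘ₗ dd φ 0 k))
    (fun m hm => by
      obtain rfl : k = m := Nat.succ_injective hm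
      rintro _ ⟨b, rfl⟩ q hq
      exact ⟨⟨_, ι_mem b⟩ ⊗ₜ ⟨q, hq⟩, uu_dd φ k _ b rfl _⟩) h (uu B (k + 1) x).2
  exact ⟨y, (uu B (k + 1)).injective (Subtype.ext hy)⟩

/-! ### the whole complex as one module -/

/-- the inclusion of a bigraded piece -/
def inc (B : Type) [AddCommGroup B] [Module R B] (j k : ℕ) :
    (⋀[R]^j B) ⊗[R] Hk ι R k →ₗ[R] ExteriorAlgebra R B ⊗[R] MvPolynomial ι R :=
  TensorProduct.map (⋀[R]^j B).subtype (Hk ι R k).subtype

theorem inc_tmul (j k : ℕ) (a : ⋀[R]^j B) (p : Hk ι R k) : inc B j k (a ⊗ₜ p) = a.1 ⊗ₜ p.1 := rfl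

theorem inc_inj (j k : ℕ) : Function.Injective (inc (R := R) (ι := ι) B j k) := by
  let u : ExteriorAlgebra R B →ₗ[R] ⋀[R]^j B :=
    (GradedAlgebra.proj (fun i : ℕ => ⋀[R]^i B) j).codRestrict _ fun x =>
      (DirectSum.decompose (fun i : ℕ => ⋀[R]^i B) x j).2
  let v : MvPolynomial ι R →ₗ[R] Hk ι R k :=
    (MvPolynomial.homogeneousComponent k).codRestrict _ fun p =>
      MvPolynomial.homogeneousComponent_mem k p
  refine Function.LeftInverse.injective (g := TensorProduct.map u v) fun x => ?_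
  induction x with
  | zero => rw [map_zero, map_zero]
  | add x y hx hy => rw [map_add, map_add, hx, hy]
  | tmul a p =>
    have h1 : u a.1 = a :=
      Subtype.ext (DirectSum.decompose_of_mem_same (fun i : ℕ => ⋀[R]^i B) a.2)
    have h2 : v p.1 = p := Subtype.ext (MvPolynomial.homogeneousComponent_eq_self p.2)
    rw [inc_tmul, TensorProduct.map_tmul, h1, h2]

/-- the bigrading, shifted by one -/
def Gr (ι B : Type) [Fintype ι] [AddCommGroup B] [Module R B] (j : ℕ) :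
    ℕ → Submodule R (ExteriorAlgebra R B ⊗[R] MvPolynomial ι R)
  | 0 => ⊥
  | k + 1 => LinearMap.range (inc B j k)

theorem Gr_ind {j k : ℕ} {P : ExteriorAlgebra R B ⊗[R] MvPolynomial ι R → Prop} (h0 : P 0)
    (ha : ∀ x y, P x → P y → P (x + y))
    (h : ∀ m, k = m + 1 → ∀ a ∈ ⋀[R]^j B, ∀ p ∈ Hk ι R m, P (a ⊗ₜ p)) :
    ∀ x ∈ Gr ι B j k, P x := by
  cases k with
  | zero => intro x hx; rwa [(Submodule.mem_bot R).1 hx]
  | succ k =>
    rintro _ ⟨x, rfl⟩
    induction x with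
    | zero => rwa [map_zero]
    | add x y hx hy => rw [map_add]; exact ha _ _ hx hy
    | tmul a p => exact h k rfl _ a.2 _ p.2

theorem Gr_mem {j k : ℕ} {a : ExteriorAlgebra R B} (ha : a ∈ ⋀[R]^j B) {p : MvPolynomial ι R}
    (hp : p ∈ Hk ι R k) : a ⊗ₜ[R] p ∈ Gr ι B j (k + 1) := ⟨⟨a, ha⟩ ⊗ₜ ⟨p, hp⟩, rfl⟩

theorem Gr_map {j k j' k' : ℕ} (f : ExteriorAlgebra R B ⊗[R] MvPolynomial ι R →ₗ[R]
      ExteriorAlgebra R B ⊗[R] MvPolynomial ι R)
    (h : ∀ m, k = m + 1 → ∀ a ∈ ⋀[R]^j B, ∀ p ∈ Hk ι R m, f (a ⊗ₜ p) ∈ Gr ι B j' k') :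
    ∀ x ∈ Gr ι B j k, f x ∈ Gr ι B j' k' :=
  Gr_ind (by rw [map_zero]; exact zero_mem _)
    (fun x y hx hy => by rw [map_add]; exact add_mem hx hy) h

theorem ten_ext {N : Type} [AddCommGroup N] [Module R N]
    {f g : ExteriorAlgebra R B ⊗[R] MvPolynomial ι R →ₗ[R] N} (h : ∀ a p, f (a ⊗ₜ p) = g (a ⊗ₜ p))
    (x : ExteriorAlgebra R B ⊗[R] MvPolynomial ι R) : f x = g x :=
  LinearMap.congr_fun (TensorProduct.ext' h) x

/-- contraction -/
def oI (ι : Type) (σ : B →ₗ[R] R) : ExteriorAlgebra R B ⊗[R] MvPolynomial ι R →ₗ[R]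
    ExteriorAlgebra R B ⊗[R] MvPolynomial ι R := (ctr σ).rTensor _

/-- exterior product -/
def oE (ι : Type) (b : B) : ExteriorAlgebra R B ⊗[R] MvPolynomial ι R →ₗ[R]
    ExteriorAlgebra R B ⊗[R] MvPolynomial ι R :=
  (LinearMap.mulLeft R (ExteriorAlgebra.ι R b)).rTensor _

/-- product by a polynomial -/
def oL (B : Type) [AddCommGroup B] [Module R B] (q : MvPolynomial ι R) :
    ExteriorAlgebra R B ⊗[R] MvPolynomial ι R →ₗ[R] ExteriorAlgebra R B ⊗[R] MvPolynomial ι R :=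
  (LinearMap.mulRight R q).lTensor _

theorem oI_tmul (σ : B →ₗ[R] R) (a : ExteriorAlgebra R B) (p : MvPolynomial ι R) :
    oI ι σ (a ⊗ₜ p) = ctr σ a ⊗ₜ p := rfl

theorem oE_tmul (b : B) (a : ExteriorAlgebra R B) (p : MvPolynomial ι R) :
    oE ι b (a ⊗ₜ[R] p) = (ExteriorAlgebra.ι R b * a) ⊗ₜ p := rfl

theorem oL_tmul (q : MvPolynomial ι R) (a : ExteriorAlgebra R B) (p : MvPolynomial ι R) :
    oL B q (a ⊗ₜ p) = a ⊗ₜ (p * q) := rfl

theorem oI_oE (σ : B →ₗ[R] R) (b : B) (x : ExteriorAlgebra R B ⊗[R] MvPolynomial ι R) :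
    oI ι σ (oE ι b x) = σ b • x - oE ι b (oI ι σ x) :=
  ten_ext (f := oI ι σ ∘ₗ oE ι b) (g := σ b • LinearMap.id - oE ι b ∘ₗ oI ι σ) (fun a p => by
    change oI ι σ (oE ι b (a ⊗ₜ p)) = σ b • (a ⊗ₜ[R] p) - oE ι b (oI ι σ (a ⊗ₜ p))
    rw [oE_tmul, oI_tmul, oI_tmul, oE_tmul, ctr_ι_mul, TensorProduct.sub_tmul,
      TensorProduct.smul_tmul']) x

theorem car {τ : Type} {ρ : R} (e : τ → B) (σ : τ → B →ₗ[R] R) (φ : B →ₗ[R] (ι → R))
    (h1 : ∀ t, σ t (e t) = ρ) (h2 : ∀ s t, s ≠ t → σ s (e t) = 0) :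
    Car ρ (fun t => oI ι (σ t)) (fun t => oE ι (e t)) (fun t => oL B (lin (φ (e t)))) (Gr ι B) where
  same t x := by rw [oI_oE, h1]
  diff s t x h := by rw [oI_oE, h2 s t h, zero_smul, zero_sub]
  ii t := ten_ext (f := oI ι (σ t) ∘ₗ oI ι (σ t)) (g := 0) fun a p => by
    change oI ι (σ t) (oI ι (σ t) (a ⊗ₜ p)) = 0
    rw [oI_tmul, oI_tmul, ctr_ctr, TensorProduct.zero_tmul]
  anti s t := ten_ext (f := oI ι (σ s) ∘ₗ oI ι (σ t)) (g := -(oI ι (σ t) ∘ₗ oI ι (σ s)))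
    fun a p => by
      change oI ι (σ s) (oI ι (σ t) (a ⊗ₜ p)) = -oI ι (σ t) (oI ι (σ s) (a ⊗ₜ p))
      rw [oI_tmul, oI_tmul, oI_tmul, oI_tmul, ctr_comm, TensorProduct.neg_tmul]
  il s t := ten_ext (f := oI ι (σ s) ∘ₗ oL B _) (g := oL B _ ∘ₗ oI ι (σ s)) fun a p => rfl
  el s t := ten_ext (f := oE ι (e s) ∘ₗ oL B _) (g := oL B _ ∘ₗ oE ι (e s)) fun a p => rfl
  ll s t := ten_ext (f := oL B _ ∘ₗ oL B _) (g := oL B _ ∘ₗ oL B _) fun a p => by
    rw [LinearMap.comp_apply, LinearMap.comp_apply, oL_tmul, oL_tmul, oL_tmul, oL_tmul, mul_right_comm]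
  Gi t j k := Gr_map _ (by
    rintro m rfl a ha p hp
    exact Gr_mem (ctr_mem _ j a ha) hp)
  Ge t j k := Gr_map _ (by
    rintro m rfl a ha p hp
    exact Gr_mem (ι_mul_mem _ ha) hp)
  Gl t j k := Gr_map _ (by
    rintro m rfl a ha p hp
    exact Gr_mem ha (MvPolynomial.IsHomogeneous.mul hp (lin_hom _)))

theorem euler {τ : Type} [Fintype τ] {ρ : R} (e : τ → B) (σ : τ → B →ₗ[R] R)
    (h : ∀ b, ∑ t, σ t b • e t = ρ • b) (j : ℕ) : ∀ a ∈ ⋀[R]^j B,
      ∑ t, ExteriorAlgebra.ι R (e t) * ctr (σ t) a = ((j : R) * ρ) • a := by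
  induction j with
  | zero =>
    intro a ha
    simp only [ctr_of_zero _ ha, mul_zero, Finset.sum_const_zero, Nat.cast_zero, zero_mul,
      zero_smul]
  | succ j ih =>
    intro a ha
    change _ ∈ (LinearMap.range (ExteriorAlgebra.ι R : B →ₗ[R] _)) ^ (j + 1) at ha
    rw [pow_succ'] at ha
    refine Submodule.mul_induction_on ha ?_ fun x y hx hy => ?_
    · rintro _ ⟨b, rfl⟩ y hy
      have h3 : ∀ t, ExteriorAlgebra.ι R (e t) * ctr (σ t) (ExteriorAlgebra.ι R b * y) =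
          ExteriorAlgebra.ι R (σ t b • e t) * y +
            ExteriorAlgebra.ι R b * (ExteriorAlgebra.ι R (e t) * ctr (σ t) y) := fun t => by
        rw [ctr_ι_mul, mul_sub, map_smul, smul_mul_assoc, mul_smul_comm, ← mul_assoc, ← mul_assoc,
          eq_neg_of_add_eq_zero_left (ExteriorAlgebra.ι_add_mul_swap (e t) b), neg_mul,
          sub_neg_eq_add]
      simp only [h3]
      rw [Finset.sum_add_distrib, ← Finset.sum_mul, ← map_sum, h, ← Finset.mul_sum, ih y hy,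
        map_smul, smul_mul_assoc, mul_smul_comm, ← add_smul, Nat.cast_succ, add_mul, one_mul,
        add_comm]
    · simp only [map_add, mul_add, Finset.sum_add_distrib, hx, hy, smul_add]

theorem ctr_sum {τ : Type} [Fintype τ] (c : τ → R) (σ : τ → B →ₗ[R] R) (a : ExteriorAlgebra R B) :
    ctr (∑ t, c t • σ t) a = ∑ t, c t • ctr (σ t) a := by
  simp only [ctr, map_sum, map_smul, LinearMap.sum_apply, LinearMap.smul_apply]

theorem inc_dd {τ : Type} [Fintype τ] {ρ : R} (e : τ → B) (σ : τ → B →ₗ[R] R)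
    (h : ∀ b, ∑ t, σ t b • e t = ρ • b) (φ : B →ₗ[R] (ι → R)) (j k : ℕ)
    (x : (⋀[R]^(j + 1) B) ⊗[R] Hk ι R k) :
    dT (fun t => oI ι (σ t)) (fun t => oL B (lin (φ (e t)))) Finset.univ (inc B (j + 1) k x) =
      ρ • inc B j (k + 1) (dd φ j k x) := by
  induction x with
  | zero => simp only [map_zero, smul_zero]
  | add x y hx hy => simp only [map_add, smul_add, hx, hy]
  | tmul a p =>
    have h1 : ∀ i, ρ • ctr ((LinearMap.proj i).comp φ) a.1 = ∑ t, φ (e t) i • ctr (σ t) a.1 :=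
      fun i => by
        have h2 : ∑ t, φ (e t) i • σ t = ρ • (LinearMap.proj i).comp φ := LinearMap.ext fun b => by
          rw [LinearMap.smul_apply, ← map_smul, ← h, map_sum, LinearMap.sum_apply]
          refine Finset.sum_congr rfl fun t _ => ?_
          rw [map_smul, LinearMap.smul_apply, smul_eq_mul, smul_eq_mul, mul_comm]
          rfl
        rw [← ctr_sum, h2]
        simp only [ctr, map_smul, LinearMap.smul_apply]
    rw [dT_apply, dd_tmul, map_sum, Finset.smul_sum]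
    simp only [inc_tmul, oI_tmul, oL_tmul, coe_kos, coe_mulX, TensorProduct.smul_tmul', h1,
      TensorProduct.sum_tmul, lin_apply, Finset.mul_sum, TensorProduct.tmul_sum]
    rw [Finset.sum_comm]
    refine Finset.sum_congr rfl fun i _ => Finset.sum_congr rfl fun t _ => ?_
    rw [TensorProduct.smul_tmul, MvPolynomial.smul_eq_C_mul, mul_left_comm]

/-- the part of exterior degree zero -/
def pr (ι B : Type) [AddCommGroup B] [Module R B] :
    ExteriorAlgebra R B ⊗[R] MvPolynomial ι R →ₗ[R] MvPolynomial ι R :=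
  (TensorProduct.lid R _).toLinearMap ∘ₗ
    (ExteriorAlgebra.algebraMapInv : ExteriorAlgebra R B →ₐ[R] R).toLinearMap.rTensor _

theorem pr_tmul (a : ExteriorAlgebra R B) (p : MvPolynomial ι R) :
    pr ι B (a ⊗ₜ p) = ExteriorAlgebra.algebraMapInv a • p := rfl

theorem pr_oL (q : MvPolynomial ι R) (x : ExteriorAlgebra R B ⊗[R] MvPolynomial ι R) :
    pr ι B (oL B q x) = pr ι B x * q :=
  ten_ext (f := pr ι B ∘ₗ oL B q) (g := LinearMap.mulRight R q ∘ₗ pr ι B) (fun a p => by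
    change pr ι B (oL B q (a ⊗ₜ p)) = pr ι B (a ⊗ₜ p) * q
    rw [oL_tmul, pr_tmul, pr_tmul, smul_mul_assoc]) x

theorem Gr_zero (k : ℕ) : ∀ x ∈ Gr (R := R) ι B 0 (k + 1), ∃ p ∈ Hk ι R k, x = 1 ⊗ₜ p :=
  Gr_ind ⟨0, zero_mem _, (TensorProduct.tmul_zero _ _).symm⟩
    (by
      rintro _ _ ⟨p, hp, rfl⟩ ⟨q, hq, rfl⟩
      exact ⟨p + q, add_mem hp hq, (TensorProduct.tmul_add _ _ _).symm⟩)
    fun m hm a ha p hp => by
      obtain rfl : k = m := Nat.succ_injective hm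
      change _ ∈ (LinearMap.range (ExteriorAlgebra.ι R : B →ₗ[R] _)) ^ 0 at ha
      rw [pow_zero, Submodule.mem_one] at ha
      obtain ⟨r, rfl⟩ := ha
      exact ⟨r • p, Submodule.smul_mem _ _ hp, by
        rw [Algebra.algebraMap_eq_smul_one, TensorProduct.smul_tmul]⟩

variable [Algebra ℂ R] {z : R →ₐ[ℂ] ℂ} {φ : B →ₗ[R] (ι → R)}

theorem KReg.key (h : KReg z φ) (j k : ℕ) (x : (⋀[R]^(j + 1) B) ⊗[R] Hk ι R k)
    (hx : dd φ j k x = 0) : ∃ (c ρ : R) (y : ExteriorAlgebra R B ⊗[R] MvPolynomial ι R)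
      (D : ExteriorAlgebra R B ⊗[R] MvPolynomial ι R →ₗ[R]
        ExteriorAlgebra R B ⊗[R] MvPolynomial ι R),
      z c ≠ 0 ∧ y ∈ Gr ι B (j + 1 + 1) k ∧ D y = c • inc B (j + 1) k x ∧
      ∀ j k x, D (inc B (j + 1) k x) = ρ • inc B j (k + 1) (dd φ j k x) := by
  classical
  obtain ⟨τ, _, e, ν, ⟨ρ, g, hρ, h1, h2⟩, h3⟩ := h
  let σ : τ → B →ₗ[R] R := fun t => LinearMap.proj t ∘ₗ g
  have h4 : ∀ s t, σ s (e t) = (ρ • Pi.single t 1 : τ → R) s := fun s t => by
    rw [← h1, Fintype.linearCombination_apply_single, one_smul]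
    rfl
  have h5 : ∀ b, ∑ t, σ t b • e t = ρ • b := fun b => by
    rw [← h2, Fintype.linearCombination_apply]
    rfl
  have hc := car e σ φ (fun t => by rw [h4, Pi.smul_apply, Pi.single_eq_same, smul_eq_mul, mul_one])
    (fun s t hst => by rw [h4, Pi.smul_apply, Pi.single_eq_of_ne hst, smul_zero])
  refine (hc.main hρ ν ?_ ?_ Finset.univ j k (inc B (j + 1) k x) ⟨x, rfl⟩
    (fun s hs => absurd (Finset.mem_univ s) hs)
    (by rw [inc_dd e σ h5, hx, map_zero, smul_zero])).elim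
    fun c ⟨y, h6, h7, _, h8⟩ => ⟨c, ρ, y, _, h6, h7, h8, inc_dd e σ h5 φ⟩
  · intro j k x hx h6
    refine ⟨((j + 1 : ℕ) : R) * ρ, AK.mul_ne ?_ hρ, ?_⟩
    · rw [map_natCast]
      exact Nat.cast_ne_zero.2 (Nat.succ_ne_zero j)
    · have h7 : ∀ x ∈ Gr ι B (j + 1) k,
          ∑ t, oE ι (e t) (oI ι (σ t) x) = (((j + 1 : ℕ) : R) * ρ) • x :=
        Gr_ind (by simp only [map_zero, Finset.sum_const_zero, smul_zero])
          (fun x y hx hy => by simp only [map_add, Finset.sum_add_distrib, hx, hy, smul_add])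
          fun m _ a ha p _ => by
            simp only [oI_tmul, oE_tmul]
            rw [← TensorProduct.sum_tmul, euler e σ h5 _ a ha, TensorProduct.smul_tmul']
      rw [← h7 x hx]
      exact Finset.sum_eq_zero fun t _ => by rw [h6 t, map_zero]
  · intro t T ht hν k b hb a hab
    obtain ⟨p, hp, rfl⟩ := Gr_zero k b hb
    have h6 := congrArg (pr ι B) hab
    rw [dT_apply, map_sum, pr_oL, pr_tmul, map_one, one_smul, mul_comm] at h6
    obtain ⟨c, h7, h8⟩ := h3 t T ht hν k p hp (by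
      rw [← h6]
      refine Ideal.sum_mem _ fun s hs => ?_
      rw [pr_oL]
      exact Ideal.mul_mem_left _ _ (Ideal.subset_span ⟨s, hs, rfl⟩))
    obtain ⟨y, ⟨h9, h10⟩, h11⟩ := span_hom (n := k) (by rintro _ ⟨s, -, rfl⟩; exact lin_hom _)
      (((Gr (R := R) ι B 1 k ⊓ ⨅ s : {s // s ∉ T}, LinearMap.ker (oI ι (σ s.1))).map
        (dT (fun t => oI ι (σ t)) (fun t => oL B (lin (φ (e t)))) T)).comap
          (ρ • TensorProduct.mk R (ExteriorAlgebra R B) (MvPolynomial ι R) 1))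
      (by
        rintro m rfl _ ⟨s, hs, rfl⟩ q hq
        have h9 : ∀ u, oI ι (σ u) ((1 : ExteriorAlgebra R B) ⊗ₜ[R] q) = 0 := fun u => by
          rw [oI_tmul, ← map_one (algebraMap R (ExteriorAlgebra R B)), ctr_algebraMap,
            TensorProduct.zero_tmul]
        refine ⟨oE ι (e s) (1 ⊗ₜ q), ⟨hc.Ge s 0 _ _ (Gr_mem one_mem_zero hq), ?_⟩, ?_⟩
        · refine (Submodule.mem_iInf _).2 fun u => LinearMap.mem_ker.2 ?_
          rw [hc.diff u s _ (fun hu => u.2 (hu ▸ hs)), h9, map_zero, neg_zero]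
        · rw [dT_apply, Finset.sum_eq_single s, hc.same, h9, map_zero, sub_zero, map_smul, oL_tmul]
          · rfl
          · intro u _ hu
            rw [hc.diff u s _ hu, h9, map_zero, neg_zero, map_zero]
          · exact fun h => absurd hs h)
      h8 (by simpa using (MvPolynomial.isHomogeneous_C ι c).mul hp)
    refine ⟨ρ * c, y, AK.mul_ne hρ h7, h9,
      fun s hs => LinearMap.mem_ker.1 ((Submodule.mem_iInf _).1 h10 ⟨s, hs⟩), ?_⟩
    rw [h11, mul_smul, ← MvPolynomial.smul_eq_C_mul, map_smul, smul_comm ρ c]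
    rfl

/-- `ExAt`, unfolded -/
theorem KReg.ex (h : KReg z φ) (j k : ℕ) (x : (⋀[R]^(j + 1) B) ⊗[R] Hk ι R (k + 1))
    (hx : dd φ j (k + 1) x = 0) : ∃ r y, z r ≠ 0 ∧ dd φ (j + 1) k y = r • x := by
  obtain ⟨c, ρ, _, D, h1, ⟨y, rfl⟩, h2, h3⟩ := h.key j (k + 1) x hx
  exact ⟨c, ρ • y, h1, inc_inj _ _ (by rw [map_smul, map_smul, map_smul, ← h3, h2])⟩

/-- `InjAt`, unfolded -/
theorem KReg.inj (h : KReg z φ) (j : ℕ) (x : (⋀[R]^(j + 1) B) ⊗[R] Hk ι R 0)
    (hx : dd φ j 0 x = 0) : ∃ r, z r ≠ 0 ∧ r • x = 0 := by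
  obtain ⟨c, ρ, y, D, h1, h2, h3, -⟩ := h.key j 0 x hx
  rw [(Submodule.mem_bot R).1 h2, map_zero] at h3
  exact ⟨c, h1, inc_inj _ _ (by rw [map_smul, ← h3, map_zero])⟩

end Vale.Agent.P297Z.Dg
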