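import Vale.Agent.P297Z.Diag.Alg

/-!
# P297, diagonal: a pair that is regular on the fibre is regular
-/

open scoped TensorProduct

noncomputable section

namespace Vale.Agent.P297Z.Dg

section loc

variable {B : Type} [CommRing B] [Algebra ℂ B] [IsNoetherianRing B] {z : B →ₐ[ℂ] ℂ}

/-- the intersection theorem at a point -/
theorem krull_at {I : Ideal B} {a : B}
    (h : ∀ n, ∃ r, z r ≠ 0 ∧ r * a ∈ I ⊔ RingHom.ker z ^ n) : ∃ r, z r ≠ 0 ∧ r * a ∈ I := by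
  obtain ⟨k, hk⟩ := (RingHom.ker z).exists_pow_inf_eq_pow_smul
    (Submodule.span B {I.mkQ a} : Submodule B (B ⧸ I))
  obtain ⟨r, hr, h1⟩ := h (k + 1)
  have h2 : r • I.mkQ a ∈ (RingHom.ker z ^ (k + 1) • ⊤ : Submodule B (B ⧸ I)) := by
    obtain ⟨x, hx, y, hy, e⟩ := Submodule.mem_sup.1 h1
    have h0 : I.mkQ x = 0 := (Submodule.Quotient.mk_eq_zero I).2 hx
    rw [← map_smul, smul_eq_mul, ← e, map_add, h0, zero_add, ← mul_one y, ← smul_eq_mul, map_smul]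
    exact Submodule.smul_mem_smul hy Submodule.mem_top
  have h3 : r • I.mkQ a ∈ RingHom.ker z • (Submodule.span B {I.mkQ a} : Submodule B (B ⧸ I)) := by
    have h4 := Submodule.mem_inf.2
      ⟨h2, Submodule.smul_mem _ r (Submodule.mem_span_singleton_self (I.mkQ a))⟩
    rw [hk (k + 1) k.le_succ, Nat.add_sub_cancel_left, pow_one] at h4
    exact Submodule.smul_mono le_rfl inf_le_right h4
  obtain ⟨i, hi, e⟩ := Submodule.mem_smul_span_singleton.1 h3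
  refine ⟨r - i, by rwa [map_sub, RingHom.mem_ker.1 hi, sub_zero], ?_⟩
  rw [← smul_eq_mul, ← Submodule.Quotient.mk_eq_zero, ← Submodule.mkQ_apply, map_smul, sub_smul, e,
    sub_self]

/-- the lemma of Nakayama at a point -/
theorem naka_at {I J : Ideal B} (h : ∀ a ∈ J, ∃ r, z r ≠ 0 ∧ r * a ∈ I ⊔ RingHom.ker z * J) :
    ∃ r, z r ≠ 0 ∧ ∀ a ∈ J, r * a ∈ I := by
  have h1 : J ≤ I ⊔ RingHom.ker z • J := fun a ha => by
    obtain ⟨r, hr, h2⟩ := h a ha
    have h3 : (r - algebraMap ℂ B (z r)) * a ∈ I ⊔ RingHom.ker z * J :=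
      Ideal.mem_sup_right (Ideal.mul_mem_mul (by simp [RingHom.mem_ker]) ha)
    have h4 := Ideal.mul_mem_left _ (algebraMap ℂ B (z r)⁻¹) (sub_mem h2 h3)
    rwa [← sub_mul, sub_sub_cancel, ← mul_assoc, ← map_mul, inv_mul_cancel₀ hr, map_one,
      one_mul] at h4
  obtain ⟨r, h2, h3⟩ := Submodule.exists_sub_one_mem_and_smul_le_of_fg_of_le_sup
    (IsNoetherian.noetherian J) le_rfl h1
  refine ⟨r, fun o => ?_, fun a ha => h3 (Submodule.smul_mem_pointwise_smul a r J ha)⟩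
  rw [RingHom.mem_ker, map_sub, o, map_one, zero_sub, neg_eq_zero] at h2
  exact one_ne_zero h2

end loc

section fibre

variable {A R : Type} [CommRing A] [Algebra ℂ A] [CommRing R] [Algebra ℂ R]

/-- the contraction with a linear form -/
def con (φ : A →ₗ[ℂ] ℂ) : A ⊗[ℂ] R →ₗ[ℂ] R := (TensorProduct.lid ℂ R).toLinearMap ∘ₗ φ.rTensor R

theorem con_tmul (φ : A →ₗ[ℂ] ℂ) (a : A) (r : R) : con φ (a ⊗ₜ r) = φ a • r := rfl

/-- the restriction to the fibre -/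
def fib (w : A →ₐ[ℂ] ℂ) : A ⊗[ℂ] R →ₐ[ℂ] R :=
  Algebra.TensorProduct.productMap ((Algebra.ofId ℂ R).comp w) (AlgHom.id ℂ R)

theorem fib_tmul (w : A →ₐ[ℂ] ℂ) (a : A) (r : R) : fib w (a ⊗ₜ r) = w a • r :=
  (Algebra.smul_def _ _).symm

/-- the extension of an ideal of the base -/
abbrev up (I : Ideal A) : Ideal (A ⊗[ℂ] R) :=
  I.map (Algebra.TensorProduct.includeLeft : A →ₐ[ℂ] A ⊗[ℂ] R)

theorem tmul_mem_up {I : Ideal A} {a : A} (ha : a ∈ I) (r : R) : a ⊗ₜ[ℂ] r ∈ up (R := R) I := by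
  have := Ideal.mul_mem_right ((1 : A) ⊗ₜ[ℂ] r) _
    (Ideal.mem_map_of_mem (Algebra.TensorProduct.includeLeft : A →ₐ[ℂ] A ⊗[ℂ] R) ha)
  simpa using this

theorem up_ind {I : Ideal A} {P : A ⊗[ℂ] R → Prop} (h0 : P 0) (h1 : ∀ a ∈ I, ∀ r, P (a ⊗ₜ r))
    (h2 : ∀ x y, P x → P y → P (x + y)) {x : A ⊗[ℂ] R} (hx : x ∈ up I) : P x := by
  suffices ∀ b, P (b * x) by simpa using this 1
  induction hx using Submodule.span_induction with
  | mem x hx =>
    obtain ⟨a, ha, rfl⟩ := hx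
    intro b
    induction b using TensorProduct.induction_on with
    | zero => simpa using h0
    | tmul s t => simpa using h1 _ (I.mul_mem_left s ha) t
    | add s t hs ht => rw [add_mul]; exact h2 _ _ hs ht
  | zero => simpa using h0
  | add x y _ _ hx hy => exact fun b => mul_add b x y ▸ h2 _ _ (hx b) (hy b)
  | smul c x _ hx => exact fun b => by rw [smul_eq_mul, ← mul_assoc]; exact hx _

theorem sub_fib_mem (w : A →ₐ[ℂ] ℂ) (b : A ⊗[ℂ] R) :
    b - 1 ⊗ₜ fib w b ∈ up (R := R) (RingHom.ker w) := by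
  induction b using TensorProduct.induction_on with
  | zero => simp
  | tmul a r =>
    rw [fib_tmul, ← TensorProduct.smul_tmul, ← TensorProduct.sub_tmul]
    exact tmul_mem_up (by simp [RingHom.mem_ker]) r
  | add s t hs ht =>
    rw [map_add, TensorProduct.tmul_add, add_sub_add_comm]
    exact add_mem hs ht

theorem con_up {I : Ideal A} {φ : A →ₗ[ℂ] ℂ} (h : ∀ a ∈ I, φ a = 0) {x : A ⊗[ℂ] R}
    (hx : x ∈ up I) : con φ x = 0 :=
  up_ind (P := fun x => con φ x = 0) (map_zero _)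
    (fun a ha r => by rw [con_tmul, h a ha, zero_smul])
    (fun x y hx hy => by rw [map_add, hx, hy, add_zero]) hx

theorem con_one_mul (φ : A →ₗ[ℂ] ℂ) (r : R) (x : A ⊗[ℂ] R) :
    con φ (1 ⊗ₜ r * x) = r * con φ x := by
  induction x using TensorProduct.induction_on with
  | zero => simp
  | tmul a s => simp [con_tmul]
  | add s t hs ht => rw [mul_add, map_add, map_add, hs, ht, mul_add]

theorem mul_mem_up (w : A →ₐ[ℂ] ℂ) {n : ℕ} (b : A ⊗[ℂ] R) {x : A ⊗[ℂ] R}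
    (hx : x ∈ up (RingHom.ker w ^ n)) :
    b * x - 1 ⊗ₜ fib w b * x ∈ up (R := R) (RingHom.ker w ^ (n + 1)) := by
  rw [← sub_mul, pow_succ', up, Ideal.map_mul]
  exact Ideal.mul_mem_mul (sub_fib_mem w b) hx

theorem con_mul (w : A →ₐ[ℂ] ℂ) {n : ℕ} {φ : A →ₗ[ℂ] ℂ} (h : ∀ a ∈ RingHom.ker w ^ (n + 1), φ a = 0)
    (b : A ⊗[ℂ] R) {x : A ⊗[ℂ] R} (hx : x ∈ up (RingHom.ker w ^ n)) :
    con φ (b * x) = fib w b * con φ x := by
  rw [← con_one_mul, ← sub_eq_zero, ← map_sub]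
  exact con_up h (mul_mem_up w b hx)

variable [IsNoetherianRing A]

theorem exists_dual (w : A →ₐ[ℂ] ℂ) (n : ℕ) : ∃ (k : ℕ) (μ : Fin k → A) (φ : Fin k → A →ₗ[ℂ] ℂ),
    (∀ i, μ i ∈ RingHom.ker w ^ n) ∧ (∀ i, ∀ a ∈ RingHom.ker w ^ (n + 1), φ i a = 0) ∧
    ∀ a ∈ RingHom.ker w ^ n, a - ∑ i, φ i a • μ i ∈ RingHom.ker w ^ (n + 1) := by
  let N := (RingHom.ker w ^ (n + 1)).restrictScalars ℂ
  let V := ((RingHom.ker w ^ n).restrictScalars ℂ).map N.mkQ
  have hV : Module.Finite ℂ V := by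
    obtain ⟨s, hs⟩ := (IsNoetherian.noetherian (RingHom.ker w ^ n) : (RingHom.ker w ^ n).FG)
    have := Module.Finite.span_of_finite ℂ (s.finite_toSet.image N.mkQ)
    refine Submodule.finiteDimensional_of_le (S₂ := Submodule.span ℂ (N.mkQ '' s)) ?_
    rintro _ ⟨a, ha, rfl⟩
    have h1 : a ∈ Submodule.span A (s : Set A) := hs ▸ ha
    obtain ⟨c, -, rfl⟩ := Submodule.mem_span_finset.1 h1
    rw [map_sum]
    refine Submodule.sum_mem _ fun x hx => ?_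
    have h2 : N.mkQ (c x • x) = w (c x) • N.mkQ x := by
      rw [← map_smul, N.mkQ_apply, N.mkQ_apply, Submodule.Quotient.eq, Algebra.smul_def (w _),
        smul_eq_mul, ← sub_mul]
      change _ ∈ RingHom.ker w ^ (n + 1)
      rw [pow_succ']
      exact Ideal.mul_mem_mul (by simp [RingHom.mem_ker]) (hs ▸ Submodule.subset_span hx)
    rw [h2]
    exact Submodule.smul_mem _ _ (Submodule.subset_span ⟨x, hx, rfl⟩)
  let b := Module.finBasis ℂ V
  choose μ h1 h2 using fun i => (b i).2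
  choose ψ hψ using fun i => LinearMap.exists_extend (b.coord i)
  refine ⟨_, μ, fun i => ψ i ∘ₗ N.mkQ, h1, fun i a ha => ?_, fun a ha => ?_⟩
  · rw [LinearMap.comp_apply, (N.mkQ_apply a).trans ((Submodule.Quotient.mk_eq_zero N).2 ha),
      map_zero]
  · refine (Submodule.Quotient.mk_eq_zero N).1 ?_
    have h3 := congrArg Subtype.val (b.sum_repr ⟨N.mkQ a, a, ha, rfl⟩)
    rw [← N.mkQ_apply, map_sub, map_sum, sub_eq_zero]
    refine h3.symm.trans ?_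
    rw [Submodule.coe_sum]
    refine Finset.sum_congr rfl fun i _ => ?_
    rw [map_smul, h2, Submodule.coe_smul]
    exact congrArg (· • _) (LinearMap.congr_fun (hψ i) ⟨N.mkQ a, a, ha, rfl⟩).symm

theorem exists_expand (w : A →ₐ[ℂ] ℂ) (n : ℕ) : ∃ (k : ℕ) (μ : Fin k → A)
    (φ : Fin k → A →ₗ[ℂ] ℂ), (∀ i, μ i ∈ RingHom.ker w ^ n) ∧
    (∀ i, ∀ a ∈ RingHom.ker w ^ (n + 1), φ i a = 0) ∧ ∀ x ∈ up (R := R) (RingHom.ker w ^ n),
      x - ∑ i, μ i ⊗ₜ con (φ i) x ∈ up (R := R) (RingHom.ker w ^ (n + 1)) := by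
  obtain ⟨k, μ, φ, h1, h2, h3⟩ := exists_dual w n
  refine ⟨k, μ, φ, h1, h2, fun x hx => up_ind
    (P := fun x => x - ∑ i, μ i ⊗ₜ con (φ i) x ∈ up (R := R) (RingHom.ker w ^ (n + 1)))
    (by simp) (fun a ha r => ?_) (fun x y hx hy => ?_) hx⟩
  · simp only [con_tmul, ← TensorProduct.smul_tmul, ← TensorProduct.sum_tmul,
      ← TensorProduct.sub_tmul]
    exact tmul_mem_up (h3 a ha) r
  · simp only [map_add, TensorProduct.tmul_add, Finset.sum_add_distrib, add_sub_add_comm]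
    exact add_mem hx hy

variable {w : A →ₐ[ℂ] ℂ} {x : R →ₐ[ℂ] ℂ} {u v : A ⊗[ℂ] R}

theorem unif_fin {k : ℕ} {P : Fin k → R → Prop} (h : ∀ i, ∃ r, x r ≠ 0 ∧ P i r)
    (hm : ∀ i r s, P i r → P i (s * r)) : ∃ r, x r ≠ 0 ∧ ∀ i, P i r := by
  choose r h1 h2 using h
  refine ⟨∏ i, r i, ?_, fun i => ?_⟩
  · rw [map_prod]
    exact Finset.prod_ne_zero_iff.2 fun i _ => h1 i
  · rw [← Finset.prod_erase_mul _ _ (Finset.mem_univ i)]
    exact hm i _ _ (h2 i)

theorem step (hp : Pair x (fib w u) (fib w v)) {n : ℕ} {a b : A ⊗[ℂ] R}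
    (ha : a ∈ up (RingHom.ker w ^ n)) (hb : b ∈ up (RingHom.ker w ^ n)) (e : v * a = u * b) :
    ∃ r c, x r ≠ 0 ∧ 1 ⊗ₜ r * a - u * c ∈ up (R := R) (RingHom.ker w ^ (n + 1)) ∧
      1 ⊗ₜ r * b - v * c ∈ up (R := R) (RingHom.ker w ^ (n + 1)) := by
  obtain ⟨k, μ, φ, h1, h2, h3⟩ := exists_expand (R := R) w n
  obtain ⟨r, hr, h4⟩ := unif_fin (x := x) (P := fun i r => ∃ c, r * con (φ i) a = fib w u * c ∧
      r * con (φ i) b = fib w v * c) (fun i => by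
    have h5 := congrArg (con (φ i)) e
    rw [con_mul w (h2 i) _ ha, con_mul w (h2 i) _ hb] at h5
    obtain ⟨r, c, h6, h7⟩ := hp.reg2 _ _ h5
    obtain ⟨s, h8, h9⟩ := hp.reg1 (r * con (φ i) b - fib w v * c) (by
      linear_combination -r * h5 + fib w v * h7)
    exact ⟨s * r, ev_mul h8 h6, s * c, by linear_combination s * h7, by linear_combination h9⟩)
    (fun i r s ⟨c, h5, h6⟩ => ⟨s * c, by linear_combination s * h5, by linear_combination s * h6⟩)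
  choose c h5 h6 using h4
  have hc : ∑ i, μ i ⊗ₜ[ℂ] c i ∈ up (R := R) (RingHom.ker w ^ n) :=
    Ideal.sum_mem _ fun i _ => tmul_mem_up (h1 i) _
  have key : ∀ a ∈ up (R := R) (RingHom.ker w ^ n), ∀ u : A ⊗[ℂ] R,
      (∀ i, r * con (φ i) a = fib w u * c i) →
      1 ⊗ₜ r * a - u * ∑ i, μ i ⊗ₜ[ℂ] c i ∈ up (R := R) (RingHom.ker w ^ (n + 1)) :=
    fun a ha u h => by
      convert sub_mem (Ideal.mul_mem_left _ (1 ⊗ₜ r) (h3 a ha)) (mul_mem_up w u hc) using 1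
      have h7 : (1 : A) ⊗ₜ[ℂ] r * ∑ i, μ i ⊗ₜ[ℂ] con (φ i) a =
          (1 : A) ⊗ₜ[ℂ] fib w u * ∑ i, μ i ⊗ₜ[ℂ] c i := by
        simp only [Finset.mul_sum, Algebra.TensorProduct.tmul_mul_tmul, h]
      rw [mul_sub, h7]
      ring
  exact ⟨r, _, hr, key a ha u h5, key b hb v h6⟩

theorem step0 (hp : Pair x (fib w u) (fib w v)) {n : ℕ} {a : A ⊗[ℂ] R}
    (ha : a ∈ up (RingHom.ker w ^ n)) (e : u * a = 0) :
    ∃ r, x r ≠ 0 ∧ 1 ⊗ₜ r * a ∈ up (R := R) (RingHom.ker w ^ (n + 1)) := by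
  obtain ⟨k, μ, φ, h1, h2, h3⟩ := exists_expand (R := R) w n
  obtain ⟨r, hr, h4⟩ := unif_fin (x := x) (P := fun i r => r * con (φ i) a = 0) (fun i => by
    have h5 := congrArg (con (φ i)) e
    rw [con_mul w (h2 i) _ ha, map_zero] at h5
    exact hp.reg1 _ h5) (fun i r s h => by rw [mul_assoc, h, mul_zero])
  refine ⟨r, hr, ?_⟩
  have h5 := Ideal.mul_mem_left _ (1 ⊗ₜ r) (h3 a ha)
  simpa [mul_sub, Finset.mul_sum, h4] using h5

/-- a pair that is regular on the fibre is regular -/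
theorem Pair.of_fib [IsNoetherianRing (A ⊗[ℂ] R)] (hp : Pair x (fib w u) (fib w v)) :
    Pair (x.comp (fib w)) u v := by
  have h1 : ∀ r, (x.comp (fib w)) ((1 : A) ⊗ₜ[ℂ] r) = x r := fun r => by simp [fib_tmul]
  have h2 : ∀ n, up (R := R) (RingHom.ker w ^ n) ≤ RingHom.ker (x.comp (fib w)) ^ n := fun n => by
    rw [up, Ideal.map_pow]
    refine Ideal.pow_right_mono (Ideal.map_le_iff_le_comap.2 fun a ha => ?_) n
    simp [RingHom.mem_ker, fib_tmul, RingHom.mem_ker.1 ha]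
  refine ⟨hp.z1, hp.z2, fun a e => ?_, fun a b e => ?_⟩
  · refine krull_at (I := ⊥) fun n => ?_
    suffices ∃ r, x.comp (fib w) r ≠ 0 ∧ r * a ∈ up (R := R) (RingHom.ker w ^ n) by
      obtain ⟨r, h3, h4⟩ := this
      exact ⟨r, h3, Ideal.mem_sup_right (h2 n h4)⟩
    induction n with
    | zero => exact ⟨1, ev_one, by simp [up, Ideal.map_top]⟩
    | succ n ih =>
      obtain ⟨r, h3, h4⟩ := ih
      obtain ⟨s, h5, h6⟩ := step0 hp h4 (by rw [mul_left_comm, e, mul_zero])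
      exact ⟨1 ⊗ₜ s * r, ev_mul (h1 s ▸ h5) h3, mul_assoc _ r a ▸ h6⟩
  · obtain ⟨r, h3, h4⟩ := krull_at (z := x.comp (fib w)) (I := Ideal.span {u}) (a := a) fun n => by
      suffices ∃ r c, x.comp (fib w) r ≠ 0 ∧ r * a - u * c ∈ up (R := R) (RingHom.ker w ^ n) ∧
          r * b - v * c ∈ up (R := R) (RingHom.ker w ^ n) by
        obtain ⟨r, c, h3, h4, -⟩ := this
        refine ⟨r, h3, ?_⟩
        rw [← add_sub_cancel (u * c) (r * a)]
        exact Submodule.add_mem_sup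
          (Ideal.mul_mem_right _ _ (Ideal.mem_span_singleton_self u)) (h2 n h4)
      induction n with
      | zero => exact ⟨1, 0, ev_one, by simp [up, Ideal.map_top]⟩
      | succ n ih =>
        obtain ⟨r, c, h3, h4, h5⟩ := ih
        obtain ⟨s, c', h6, h7, h8⟩ := step hp h4 h5 (by linear_combination r * e)
        refine ⟨1 ⊗ₜ s * r, 1 ⊗ₜ s * c + c', ev_mul (h1 s ▸ h6) h3, ?_, ?_⟩
        · convert h7 using 1
          ring
        · convert h8 using 1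
          ring
    obtain ⟨c, hc⟩ := Ideal.mem_span_singleton'.1 h4
    exact ⟨r, c, h3, hc.symm.trans (mul_comm _ _)⟩

end fibre

end Vale.Agent.P297Z.Dg
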