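import Vale.Agent.P297Z.Diag.Reg

/-!
# P297, diagonal: the reduction of the symmetric powers modulo an ideal
-/

set_option linter.all false

open scoped TensorProduct
open MvPolynomial

noncomputable section

namespace Vale.Agent.P297Z.Dg.La

variable {R S : Type} [CommRing R] [CommRing S] {ι : Type} [Fintype ι] {B : Type} [AddCommGroup B]
  [Module R B] {B' : Type} [AddCommGroup B'] [Module S B']

theorem hc_JJ (φ : B →ₗ[R] (ι → R)) (k : ℕ) {p : MvPolynomial ι R} (hp : p ∈ JJ φ) :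
    homogeneousComponent k p ∈ JJ φ := by
  letI := MvPolynomial.gradedAlgebra (σ := ι) (R := R)
  exact homogeneousComponent_mem_of_mem (Ideal.homogeneous_span _ _ (by
    rintro _ ⟨b, rfl⟩
    exact ⟨1, lin_hom _⟩)) hp k

theorem map_hc (μ : R →+* S) (k : ℕ) (p : MvPolynomial ι R) :
    map μ (homogeneousComponent k p) = homogeneousComponent k (map μ p) := by
  ext m
  rw [coeff_map, coeff_homogeneousComponent, coeff_homogeneousComponent, coeff_map]
  split_ifs
  · rfl
  · exact map_zero μ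

theorem map_lin (μ : R →+* S) (v : ι → R) : map μ (lin v) = lin fun i => μ (v i) := by
  rw [lin_apply, lin_apply, map_sum]
  exact Finset.sum_congr rfl fun i _ => by rw [map_mul, map_C, map_X]

theorem lin_smul (c : R) (v : ι → R) : lin (c • v) = C c * lin v := by
  rw [map_smul, smul_eq_C_mul]

theorem map_JJ (μ : R →+* S) {φ : B →ₗ[R] (ι → R)} {ψ : B' →ₗ[S] (ι → S)}
    (h : ∀ b, ∃ b', ψ b' = fun i => μ (φ b i)) {p : MvPolynomial ι R} (hp : p ∈ JJ φ) :
    map μ p ∈ JJ ψ := by
  refine (Ideal.span_le (I := (JJ ψ).comap (map μ))).2 ?_ hp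
  rintro _ ⟨b, rfl⟩
  obtain ⟨b', hb⟩ := h b
  change map μ (lin (φ b)) ∈ JJ ψ
  rw [map_lin, ← hb]
  exact Ideal.subset_span ⟨b', rfl⟩

theorem mem_smul_top (K : Ideal R) {k : ℕ} (q : Hk ι R k) (h : ∀ m, q.1.coeff m ∈ K) :
    q ∈ K • (⊤ : Submodule R (Hk ι R k)) := by
  have hm : ∀ m : q.1.support, (monomial m.1 (1 : R)).IsHomogeneous k := fun m =>
    isHomogeneous_monomial _ (by
      rw [Finsupp.degree_eq_weight_one]
      exact q.2 (mem_support_iff.1 m.2))
  have e : q = ∑ m : q.1.support, q.1.coeff m • (⟨monomial m.1 1, hm m⟩ : Hk ι R k) := by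
    refine Subtype.ext ?_
    rw [Submodule.coe_sum]
    simp only [Submodule.coe_smul, smul_monomial, smul_eq_mul, mul_one]
    rw [Finset.sum_coe_sort q.1.support fun m => monomial m (q.1.coeff m)]
    exact q.1.as_sum
  rw [e]
  exact Submodule.sum_mem _ fun m _ => Submodule.smul_mem_smul (h m) Submodule.mem_top

theorem exists_lift_hom {μ : R →+* S} (hμ : Function.Surjective μ) {k : ℕ} (q : Hk ι S k) :
    ∃ p : Hk ι R k, map μ p.1 = q.1 := by
  obtain ⟨p, hp⟩ := map_surjective μ hμ q.1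
  exact ⟨⟨_, homogeneousComponent_mem k p⟩, by
    rw [map_hc, hp, homogeneousComponent_eq_self q.2]⟩

/-- the kernel of the reduction -/
theorem ker_red {μ : R →+* S} (hμ : Function.Surjective μ) {φ : B →ₗ[R] (ι → R)}
    {ψ : B' →ₗ[S] (ι → S)} {K : Ideal R} {r : R} (h1 : ∀ a, μ a = 0 → r * a ∈ K)
    (h2 : ∀ b', ∃ b, μ r • ψ b' = fun i => μ (φ b i)) {k : ℕ} (p : Hk ι R k)
    (hp : map μ p.1 ∈ JJ ψ) : (r * r) • (JK φ k).mkQ p ∈ K • (⊤ : Submodule R _) := by
  have h3 : ∀ q ∈ JJ ψ, C (μ r) * q ∈ (JJ φ).map (map μ) := fun q hq => by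
    induction hq using Submodule.span_induction with
    | mem x hx =>
      obtain ⟨b', rfl⟩ := hx
      obtain ⟨b, hb⟩ := h2 b'
      change C (μ r) * lin (ψ b') ∈ _
      rw [← lin_smul, hb, ← map_lin]
      exact Ideal.mem_map_of_mem _ (Ideal.subset_span ⟨b, rfl⟩)
    | zero => rw [mul_zero]; exact zero_mem _
    | add x y _ _ hx hy => rw [mul_add]; exact add_mem hx hy
    | smul a x _ hx => rw [smul_eq_mul, mul_left_comm]; exact Ideal.mul_mem_left _ _ hx
  obtain ⟨p', h4, h5⟩ := (Ideal.mem_map_iff_of_surjective _ (map_surjective μ hμ)).1 (h3 _ hp)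
  let p'' : Hk ι R k := ⟨_, homogeneousComponent_mem k p'⟩
  have h6 : (JK φ k).mkQ p'' = 0 := (Submodule.Quotient.mk_eq_zero _).2 (hc_JJ φ k h4)
  have h7 : map μ (r • p - p'').1 = 0 := by
    change map μ (r • p.1 - homogeneousComponent k p') = 0
    rw [map_sub, map_hc, h5, homogeneousComponent_C_mul,
      homogeneousComponent_eq_self (IsHomogeneous.map p.2 μ), smul_eq_C_mul, map_mul, map_C,
      sub_self]
  have h8 := mem_smul_top K (r • (r • p - p'')) fun m => by
    rw [Submodule.coe_smul, coeff_smul, smul_eq_mul]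
    refine h1 _ ?_
    rw [← coeff_map, h7, coeff_zero]
  have h9 := Submodule.mem_map_of_mem (f := (JK φ k).mkQ) h8
  rw [Submodule.map_smul'', map_smul, map_sub, h6, sub_zero, map_smul, smul_smul] at h9
  exact Submodule.smul_mono le_rfl le_top h9

/-- an element of the square of the ideal comes from a vector with entries in the ideal -/
theorem sq_lift {I : Ideal R} {f : ι → R} {r : R}
    (h : ∀ a ∈ I, r * a ∈ Ideal.span (Set.range f)) {x : I} (hx : x ∈ I • (⊤ : Submodule R I)) :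
    ∃ a : ι → R, (∀ i, a i ∈ I) ∧ ev f a = r * x.1 := by
  refine Submodule.smul_induction_on hx (fun a ha y _ => ?_) ?_
  · obtain ⟨c, hc⟩ := Ideal.mem_span_range_iff_exists_fun.1 (h y.1 y.2)
    refine ⟨a • c, fun i => I.mul_mem_right _ ha, ?_⟩
    rw [map_smul, ev_apply, hc, Submodule.coe_smul, smul_eq_mul, smul_eq_mul, mul_left_comm]
  · rintro x y ⟨a, h1, h2⟩ ⟨b, h3, h4⟩
    exact ⟨a + b, fun i => add_mem (h1 i) (h3 i), by
      rw [map_add, h2, h4, Submodule.coe_add, mul_add]⟩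

theorem kill {N : Type} [AddCommGroup N] [Module R N] (g : B →ₗ[R] N) {K : Ideal R}
    (h : ∀ a ∈ K, ∀ n : N, a • n = 0) {x : B} (hx : x ∈ K • (⊤ : Submodule R B)) : g x = 0 :=
  Submodule.smul_induction_on (p := fun y => g y = 0) hx
    (fun a ha y _ => (map_smul g a y).trans (h a ha _))
    fun a b ha hb => by rw [map_add, ha, hb, add_zero]

end Vale.Agent.P297Z.Dg.La
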