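import Vale.Agent.P297Z.Diag.Sym
import Vale.Agent.P297Z.Diag.Cut
import Vale.Agent.P297Z.Diag.LamA

/-!
# P297, diagonal: the exterior powers of the class of a closed set
-/

set_option linter.all false

open scoped TensorProduct

noncomputable section

namespace Vale.Agent.P297Z.Dg

open GMod

variable {Y : Spc} {ι : Type} [Fintype ι] {Z : Set Y.Pt} {d : ι → Y.J → ℤ} {f : ι → Y.R}

namespace La

open MvPolynomial

theorem isHom_comb {B : GMod Y} {b : ι → B.M} (h : ∀ i, b i ∈ B.wt (d i)) :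
    (Fr Y d).IsHom B (Fintype.linearCombination Y.R b) := Fr_isHom.2 fun g v => by
  rw [Fintype.linearCombination_apply, Fintype.linearCombination_apply, map_sum]
  refine Finset.sum_congr rfl fun i _ => ?_
  rw [fact, B.act_smul, B.mem_wt.1 (h i), smul_assoc, smul_comm]

theorem DD_pact (h : ∀ i, f i ∈ Y.wt (d i)) (g : Y.J → ℂˣ) (p : MvPolynomial ι Y.R) :
    DD f (pact Y d g p) = pact Y d g (DD f p) := by
  classical
  have e : ∀ i, DD f (X i) = C (f i) := fun i => by rw [← Rg.lin_single, DD_lin, Rg.ev_single]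
  induction p using MvPolynomial.induction_on with
  | C r => rw [pact_C, Rg.DD_C, Rg.DD_C, map_zero]
  | add p q hp hq => rw [map_add, map_add, map_add, map_add, hp, hq]
  | mul_X p i hp =>
    rw [map_mul, DD_mul, DD_mul, hp, map_add, map_mul, map_mul, e, pact_C, pact_X,
      LinearMap.map_smul_of_tower, e, Spc.mem_wt.1 (h i)]
    exact congrArg (fun x => _ + _ * x)
      (map_smul (IsScalarTower.toAlgHom ℂ Y.R (MvPolynomial ι Y.R)) _ _).symm

theorem Dq_isHom (h : ∀ i, f i ∈ Y.wt (d i)) (k : ℕ) :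
    (SyQ (syz_isHom h) (k + 1)).IsHom (SyQ (syz_isHom h) k) (Dq f k) := fun g x => by
  obtain ⟨p, rfl⟩ := Submodule.Quotient.mk_surjective _ x
  exact congrArg (JK _ k).mkQ (Subtype.ext (DD_pact h g p.1))

variable (hZ : Y.Stab Z)

theorem map_pact (d : ι → Y.J → ℤ) (g : Y.J → ℂˣ) (p : MvPolynomial ι Y.R) :
    map (Ideal.Quotient.mk (Y.van Z)) (pact Y d g p) =
      pact (Y.sub Z hZ) d g (map (Ideal.Quotient.mk (Y.van Z)) p) := by
  induction p using MvPolynomial.induction_on with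
  | C r =>
    rw [pact_C, map_C, map_C]
    exact (pact_C (X := Y.sub Z hZ) d g (Ideal.Quotient.mk (Y.van Z) r)).symm
  | add p q hp hq =>
    rw [map_add, map_add, map_add, hp, hq]
    exact (map_add (pact (Y.sub Z hZ) d g) _ _).symm
  | mul_X p i hp =>
    rw [map_mul, map_mul, map_mul, hp, pact_X, map_X]
    refine Eq.trans ?_ (map_mul (pact (Y.sub Z hZ) d g) _ _).symm
    congr 1
    refine (map_smul (mapAlgHom (σ := ι) (Ideal.Quotient.mkₐ ℂ (Y.van Z))) _ _).trans ?_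
    exact (congrArg _ (map_X _ i)).trans (pact_X (X := Y.sub Z hZ) d g i).symm

variable {hZ} (h : Cut Y Z d f)

/-- the map to the conormal module -/
def P1 (hZ : Y.Stab Z) : (ι → (Y.sub Z hZ).R) →ₗ[(Y.sub Z hZ).R]
    ((Mor.incl Y Z hZ).pull (IZ Y Z hZ)).M :=
  Fintype.linearCombination _ fun i => AK.pu (Mor.incl Y Z hZ) (IZ Y Z hZ) ⟨f i, h.mem i⟩

theorem P1_isHom : (Fr (Y.sub Z hZ) d).IsHom _ (P1 h hZ) :=
  isHom_comb fun i => AK.pu_wt (Mor.incl Y Z hZ) (A := IZ Y Z hZ) (γ := d i)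
    fun g => Subtype.ext (h.wt i g)

theorem P1_mk (u : ι → Y.R) : P1 h hZ (fun i => Ideal.Quotient.mk (Y.van Z) (u i)) =
    AK.pu (Mor.incl Y Z hZ) (IZ Y Z hZ) (h.toI u) := by
  have e : h.toI u = ∑ i, u i • (⟨f i, h.mem i⟩ : Y.van Z) :=
    Subtype.ext ((ev_apply f u).trans (by simp))
  rw [e]
  refine (Fintype.linearCombination_apply _ _ _).trans ?_
  refine Eq.trans ?_ (map_sum (AK.pu (Mor.incl Y Z hZ) (IZ Y Z hZ)) _ _).symm
  exact Finset.sum_congr rfl fun i _ => (AK.pu_smul (A := IZ Y Z hZ) _ _ _).symm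

include h in
theorem unif (z : Y.Pt) : ∃ r, z.1 r ≠ 0 ∧ ∀ a ∈ Y.van Z, r * a ∈ Ideal.span (Set.range f) :=
  unif_fg (N := Y.van Z) (P := Ideal.span (Set.range f)) (IsNoetherian.noetherian _) (h.gen z)

theorem P1_surj (w : (Y.sub Z hZ).Pt) : SurjAt w.1 (P1 h hZ) := fun b => by
  obtain ⟨r, h1, h2⟩ := unif h ((Mor.incl Y Z hZ).onPt w)
  have key : (Mor.incl Y Z hZ).φ r • b ∈ LinearMap.range (P1 h hZ) := by
    induction b using AK.pu_ind with
    | h0 => rw [smul_zero]; exact zero_mem _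
    | h1 x =>
      obtain ⟨c, hc⟩ := Ideal.mem_span_range_iff_exists_fun.1 (h2 x.1 x.2)
      refine ⟨_, (P1_mk h c).trans ?_⟩
      rw [← AK.pu_smul]
      exact congrArg _ (Subtype.ext ((ev_apply f c).trans hc))
    | hs s m hm => rw [smul_comm]; exact Submodule.smul_mem _ _ hm
    | ha x y hx hy => rw [smul_add]; exact add_mem hx hy
  obtain ⟨a, ha⟩ := key
  exact ⟨_, a, h1, ha⟩

theorem pu_zero {x : Y.van Z} (hx : AK.pu (Mor.incl Y Z hZ) (IZ Y Z hZ) x = 0) :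
    x ∈ Y.van Z • (⊤ : Submodule Y.R (Y.van Z)) := by
  letI : Module (Y.sub Z hZ).R (Y.van Z ⧸ Y.van Z • (⊤ : Submodule Y.R (Y.van Z))) :=
    inferInstanceAs (Module (Y.R ⧸ Y.van Z) _)
  obtain ⟨L, hL⟩ := AK.exists_plift (Mor.incl Y Z hZ) (IZ Y Z hZ)
    (V := Y.van Z ⧸ Y.van Z • (⊤ : Submodule Y.R (Y.van Z)))
    (Y.van Z • (⊤ : Submodule Y.R (Y.van Z))).mkQ.toAddMonoidHom fun _ _ => rfl
  exact (Submodule.Quotient.mk_eq_zero _).1 ((hL x).symm.trans (by rw [hx, map_zero]))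

theorem ker_lift {r : Y.R} (hr : ∀ a ∈ Y.van Z, r * a ∈ Ideal.span (Set.range f))
    (v : LinearMap.ker (P1 h hZ)) : ∃ u : LinearMap.ker (ev f),
      (Mor.incl Y Z hZ).φ r • v.1 = fun i => Ideal.Quotient.mk (Y.van Z) (u.1 i) := by
  choose u hu using fun i => Ideal.Quotient.mk_surjective (I := Y.van Z) (v.1 i)
  have h1 : P1 h hZ (fun i => Ideal.Quotient.mk (Y.van Z) (u i)) = 0 :=
    (congrArg (P1 h hZ) (funext hu)).trans v.2
  obtain ⟨a, h2, h3⟩ := sq_lift hr (pu_zero ((P1_mk h u).symm.trans h1))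
  refine ⟨⟨r • u - a, ?_⟩, funext fun i => ?_⟩
  · rw [LinearMap.mem_ker, map_sub, map_smul, h3]
    exact sub_self _
  · change Ideal.Quotient.mk (Y.van Z) r * (show Y.R ⧸ Y.van Z from v.1 i) =
      Ideal.Quotient.mk (Y.van Z) (r * u i - a i)
    rw [map_sub, Ideal.Quotient.eq_zero_iff_mem.2 (h2 i), sub_zero, map_mul, hu]

/-- the symmetric powers of the conormal module -/
def V1 (hZ : Y.Stab Z) (k : ℕ) : GMod (Y.sub Z hZ) :=
  SyQ (d := d) (B := (P1_isHom (hZ := hZ) h).kerM) (φ := (LinearMap.ker (P1 h hZ)).subtype)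
    (isHom_subtype _ _ _) k

/-- the reduction -/
def red0 (hZ : Y.Stab Z) (k : ℕ) : Hk ι Y.R k →ₗ[Y.R] (res (V1 h hZ k)).M where
  toFun := fun p => (JK (LinearMap.ker (P1 h hZ)).subtype k).mkQ
    ⟨map (Ideal.Quotient.mk (Y.van Z)) p.1, IsHomogeneous.map p.2 _⟩
  map_add' := fun a b => congrArg (JK (LinearMap.ker (P1 h hZ)).subtype k).mkQ
    (Subtype.ext (map_add (map (Ideal.Quotient.mk (Y.van Z))) a.1 b.1))
  map_smul' := fun r a => congrArg (JK (LinearMap.ker (P1 h hZ)).subtype k).mkQ (Subtype.ext (by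
    change map (Ideal.Quotient.mk (Y.van Z)) (r • a.1) =
      Ideal.Quotient.mk (Y.van Z) r • map (Ideal.Quotient.mk (Y.van Z)) a.1
    rw [smul_eq_C_mul, smul_eq_C_mul, map_mul, map_C]))

theorem red0_eq {k : ℕ} {p : Hk ι Y.R k} : red0 h hZ k p = 0 ↔
    map (Ideal.Quotient.mk (Y.van Z)) p.1 ∈ JJ (LinearMap.ker (P1 h hZ)).subtype :=
  Submodule.Quotient.mk_eq_zero (JK (LinearMap.ker (P1 h hZ)).subtype k)

/-- the reduction on the quotient -/
def red (hZ : Y.Stab Z) (k : ℕ) : (SyQ (syz_isHom h.wt) k).M →ₗ[Y.R] (res (V1 h hZ k)).M :=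
  (JK (LinearMap.ker (ev f)).subtype k).liftQ (red0 h hZ k) fun p hp => (red0_eq h).2
    (map_JJ (S := (Y.sub Z hZ).R) (Ideal.Quotient.mk (Y.van Z)) (fun b =>
      ⟨⟨fun i => Ideal.Quotient.mk (Y.van Z) (b.1 i), (P1_mk h b.1).trans
        ((congrArg (AK.pu (Mor.incl Y Z hZ) (IZ Y Z hZ))
          (Subtype.ext b.2 : h.toI b.1 = 0)).trans (map_zero _))⟩, rfl⟩) hp)

theorem ses (hZ : Y.Stab Z) (k : ℕ) : SES (SyQ (syz_isHom h.wt) (k + 1)) (SyQ (syz_isHom h.wt) k)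
    (res (V1 h hZ k)) (Dq f k) (red h hZ k) := by
  refine ⟨Dq_isHom h.wt k, fun g x => ?_, fun x => ?_, fun z => ⟨(h.lci z).dq_inj k,
    fun x hx => ?_, .of_surj fun y => ?_⟩⟩
  · obtain ⟨p, rfl⟩ := Submodule.Quotient.mk_surjective _ x
    exact congrArg (JK (LinearMap.ker (P1 h hZ)).subtype k).mkQ
      (Subtype.ext (map_pact hZ d g p.1))
  · refine kill (red h hZ k) (fun a ha y => ?_) ((range_Dq f k).le ⟨x, rfl⟩)
    have h2 : (Mor.incl Y Z hZ).φ a = 0 := Ideal.Quotient.eq_zero_iff_mem.2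
      ((Ideal.span_le.2 (Set.range_subset_iff.2 h.mem)) ha)
    change (Mor.incl Y Z hZ).φ a • (show (V1 h hZ k).M from y) = 0
    rw [h2, zero_smul]
  · obtain ⟨p, rfl⟩ := Submodule.Quotient.mk_surjective _ x
    obtain ⟨r, h1, h2⟩ := unif h z
    have h3 := ker_red (S := (Y.sub Z hZ).R) (μ := Ideal.Quotient.mk (Y.van Z))
      Ideal.Quotient.mk_surjective (φ := (LinearMap.ker (ev f)).subtype)
      (fun a ha => h2 a (Ideal.Quotient.eq_zero_iff_mem.1 ha)) (ker_lift h h2) p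
      ((red0_eq h).1 hx)
    rw [← range_Dq] at h3
    obtain ⟨a, ha⟩ := h3
    exact ⟨r * r, a, ev_mul h1 h1, ha⟩
  · obtain ⟨q, rfl⟩ := Submodule.Quotient.mk_surjective (JK (LinearMap.ker (P1 h hZ)).subtype k) y
    obtain ⟨p, hp⟩ := exists_lift_hom (S := (Y.sub Z hZ).R) (μ := Ideal.Quotient.mk (Y.van Z))
      Ideal.Quotient.mk_surjective q
    exact ⟨Submodule.Quotient.mk p,
      congrArg (JK (LinearMap.ker (P1 h hZ)).subtype k).mkQ (Subtype.ext hp)⟩

theorem res_V1 [Nonempty (Y.sub Z hZ).Pt] (k : ℕ) :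
    Res k (V1 h hZ k) (sig k (kc ((Mor.incl Y Z hZ).pull (IZ Y Z hZ)) 2)) := by
  have hN := h.conormal hZ (Mor.incl Y Z hZ) fun a ha => Ideal.Quotient.eq_zero_iff_mem.2 ha
  have s := (P1_isHom (hZ := hZ) h).ses_ker (P1_surj h)
  have hF := Fr_isBun (X := Y.sub Z hZ) d
  obtain ⟨m, hm⟩ := Nat.exists_eq_add_of_le' (hF.le hN (P1_surj h))
  have hB := s.isBun_left (hm ▸ hF) hN
  have e := (kc_Fr (X := Y.sub Z hZ) d).symm.trans
    ((congrArg (kc (Fr (Y.sub Z hZ) d)) hm).trans (kc_ses s hB hN))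
  have h1 := res_SyQ (X := Y.sub Z hZ) (d := d) hB (φ := (LinearMap.ker (P1 h hZ)).subtype)
    (isHom_subtype _ _ _) (fun z => by
      obtain ⟨-, c, p, -, hc, hp, -⟩ := s.split hN z
      exact kreg_of_split (hB z) hc p hp) k
  exact (congrArg (fun x => Res k (V1 h hZ k) (sig k x)) (sub_eq_of_eq_add' e)).mp h1

end La

open PowerSeries in
theorem Cut.lam [Nonempty Y.Pt] (h : Cut Y Z d f) (hZ : Y.Stab Z) (t : Mor Y (Y.sub Z hZ))
    (hres : ∀ (m : ℕ) (V : GMod (Y.sub Z hZ)) (x : K0 (Y.sub Z hZ)), Res m V x →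
      Res (m + 2) (res V) (cutK h.wt * pullK t x)) {k : ℕ} (hk : 2 ≤ k) :
    lam k (cutK h.wt + pullK t (kc ((Mor.incl Y Z hZ).pull (IZ Y Z hZ)) 2)) =
      lam k (pullK t (kc ((Mor.incl Y Z hZ).pull (IZ Y Z hZ)) 2)) := by
  haveI : Nonempty (Y.sub Z hZ).Pt := Nonempty.map t.onPt inferInstance
  have hS : ∀ j : ℕ, Res j (SyQ (syz_isHom h.wt) j) (sig j (1 - cutK h.wt)) := fun j => by
    have h1 := res_SyQ h.syz_isBun (syz_isHom h.wt) (fun z => (h.lci z).kreg) j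
    rwa [cutK, sub_sub_cancel]
  have h2 := fun j : ℕ => ((hS (j + 1)).right (La.ses h hZ j) (hS j).succ.succ).unique'
    (hres j _ _ (La.res_V1 h j))
  simp only [sig_pull] at h2
  generalize pullK t (kc ((Mor.incl Y Z hZ).pull (IZ Y Z hZ)) 2) = ν at h2 ⊢
  generalize cutK h.wt = δ at h2 ⊢
  have h3 : lamS δ = 1 + C δ * lamS (-ν) * X := by
    ext j
    rcases j with _ | j
    · simp [coeff_lamS, lam_zero]
    · have h4 := h2 j
      have h5 := lam_succ_add bCls_one (-(1 - δ)) j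
      rw [Cc.sig_nat, Cc.sig_nat, Cc.sig_nat] at h4
      rw [neg_sub, sub_add_cancel, ← neg_sub] at h5
      rw [map_add, coeff_succ_mul_X, coeff_C_mul, coeff_lamS, coeff_lamS, coeff_one,
        if_neg j.succ_ne_zero, zero_add, h5]
      refine (isUnit_neg_one.pow j).mul_left_cancel ?_
      linear_combination h4
  obtain ⟨j, rfl⟩ := Nat.exists_eq_add_of_le' hk
  rw [← coeff_lamS, lamS_add, h3, add_mul, one_mul, mul_right_comm, mul_assoc (C δ), lamS_neg_mul,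
    mul_one, map_add, coeff_succ_mul_X, coeff_C, if_neg j.succ_ne_zero, add_zero, coeff_lamS]

end Vale.Agent.P297Z.Dg
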