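import Vale.Agent.P297Z.Diag.Alg
import Vale.Agent.P297Z.K.AK0
import Vale.Agent.P297Z.K.Fib

/-!
# P297, diagonal: linear forms, projections, regular pairs
-/

set_option linter.all false

open scoped TensorProduct
open MvPolynomial

noncomputable section

namespace Vale.Agent.P297Z.Dg.Rg

variable {R : Type} [CommRing R] {ι : Type} [Fintype ι]

theorem aeval_scale {A : Type} [CommRing A] [Algebra R A] (c : A) (x : ι → A) {k : ℕ}
    {p : MvPolynomial ι R} (hp : p.IsHomogeneous k) :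
    aeval (fun i => c * x i) p = c ^ k * aeval x p := by
  rw [aeval_def, aeval_def, eval₂_eq', eval₂_eq', Finset.mul_sum]
  refine Finset.sum_congr rfl fun d hd => ?_
  have h : k = ∑ i, d i := (hp.degree_eq_sum_deg_support hd).trans
    (Finset.sum_subset (Finset.subset_univ _) fun i _ hi => Finsupp.notMem_support_iff.1 hi)
  simp only [mul_pow, Finset.prod_mul_distrib, Finset.prod_pow_eq_pow_sum, h]
  ring

theorem lin_single [DecidableEq ι] (i : ι) : lin (Pi.single i 1 : ι → R) = X i := by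
  rw [lin, Fintype.linearCombination_apply_single, one_smul]

theorem ev_single [DecidableEq ι] (f : ι → R) (i : ι) : ev f (Pi.single i 1) = f i := by
  rw [ev, Fintype.linearCombination_apply_single, one_smul]

theorem sum_single [DecidableEq ι] (v : ι → R) : ∑ i, v i • (Pi.single i 1 : ι → R) = v :=
  (pi_eq_sum_univ' v).symm

/-- the substitution given by a linear map -/
theorem exists_sub (ρ : (ι → R) →ₗ[R] (ι → R)) :
    ∃ π : MvPolynomial ι R →ₐ[R] MvPolynomial ι R, (∀ v, π (lin v) = lin (ρ v)) ∧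
      ∀ k p, IsHomogeneous p k → (π p).IsHomogeneous k := by
  classical
  refine ⟨aeval fun i => lin (ρ (Pi.single i 1)), fun v => ?_, fun k p hp => ?_⟩
  · conv_lhs => rw [← sum_single v]
    conv_rhs => rw [← sum_single v]
    simp only [map_sum, map_smul, lin_single, aeval_X]
  · simpa using hp.aeval _ fun i => lin_hom (ρ (Pi.single i 1))

/-- the projection that kills the forms of `T` -/
theorem exists_proj {τ : Type} [DecidableEq τ] (w : τ → ι → R) (T : Finset τ) (c : R)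
    (g : τ → (ι → R) →ₗ[R] R) (hg : ∀ s ∈ T, ∀ t, g s (w t) = if s = t then c else 0) :
    ∃ π : MvPolynomial ι R →ₐ[R] MvPolynomial ι R,
      (∀ t ∈ T, π (lin (w t)) = 0) ∧ (∀ t ∉ T, π (lin (w t)) = C c * lin (w t)) ∧
      ∀ k p, IsHomogeneous p k → (π p).IsHomogeneous k ∧
        π p - C c ^ k * p ∈ Ideal.span ((fun s => lin (w s)) '' T) := by
  classical
  obtain ⟨π, h1, h2⟩ := exists_sub (c • LinearMap.id - ∑ s ∈ T, (g s).smulRight (w s))
  have h3 : ∀ v, π (lin v) = C c * lin v - ∑ s ∈ T, C (g s v) * lin (w s) := fun v => by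
    simp only [h1, LinearMap.sub_apply, LinearMap.smul_apply, LinearMap.id_apply,
      LinearMap.sum_apply, LinearMap.smulRight_apply, map_sub, map_smul, map_sum, smul_eq_C_mul]
  refine ⟨π, fun t ht => ?_, fun t ht => ?_, fun k p hp => ⟨h2 k p hp, ?_⟩⟩
  · rw [h3, Finset.sum_eq_single t (fun s hs e => by rw [hg s hs, if_neg e, map_zero, zero_mul])
      (fun h => absurd ht h), hg t ht, if_pos rfl, sub_self]
  · rw [h3, Finset.sum_eq_zero fun s hs => by
      rw [hg s hs, if_neg (fun e : s = t => ht (e ▸ hs)), map_zero, zero_mul], sub_zero]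
  · let q := Ideal.Quotient.mkₐ R (Ideal.span ((fun s => lin (w s)) '' T))
    have h4 : q.comp π = aeval fun i => q (C c) * q (X i) := algHom_ext fun i => by
      rw [aeval_X, AlgHom.comp_apply, ← lin_single, h3, map_sub, map_mul, sub_eq_self]
      exact Ideal.Quotient.eq_zero_iff_mem.2 (Ideal.sum_mem _ fun s hs =>
        Ideal.mul_mem_left _ _ (Ideal.subset_span ⟨s, hs, rfl⟩))
    have h5 : q = aeval fun i => q (X i) := algHom_ext fun i => by rw [aeval_X]
    refine Ideal.Quotient.eq.1 ((AlgHom.congr_fun h4 p).trans ?_)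
    rw [aeval_scale _ _ hp, ← h5, ← map_pow, ← map_mul]
    rfl

theorem DD_C (v : ι → R) (c : R) : DD v (C c) = 0 := by simp [DD_apply]

theorem DD_pow (v : ι → R) (l : MvPolynomial ι R) (n : ℕ) :
    DD v (l ^ (n + 1)) = (n + 1) * l ^ n * DD v l := by
  induction n with
  | zero => simp
  | succ n ih =>
    rw [pow_succ, DD_mul, ih]
    push_cast
    ring

variable [Algebra ℂ R] {z : R →ₐ[ℂ] ℂ} {f : ι → R}

theorem inv_succ (n : ℕ) :
    (C (algebraMap ℂ R (n + 1 : ℂ)⁻¹) : MvPolynomial ι R) * (n + 1) = 1 := by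
  have h : ((n + 1 : MvPolynomial ι R)) = C (algebraMap ℂ R (n + 1 : ℂ)) := by simp
  rw [h, ← map_mul, ← map_mul, inv_mul_cancel₀ (Nat.cast_add_one_ne_zero n), map_one, map_one]

theorem nzd_aux (v : ι → R) {l : MvPolynomial ι R} {g : R} (hl : DD v l = C g) (n : ℕ) :
    ∀ q : MvPolynomial ι R, (∃ N, C g ^ N * DD v q = 0) → l ^ n * q = 0 → ∃ N, C g ^ N * q = 0 := by
  induction n with
  | zero => exact fun q _ h => ⟨0, by simpa using h⟩
  | succ n ih =>
    rintro q ⟨N, hN⟩ h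
    have h1 := congrArg (DD v) h
    rw [DD_mul, DD_pow, hl, map_zero] at h1
    obtain ⟨M, hM⟩ := ih (C g ^ (N + 1) * q) ⟨0, by
      rw [pow_zero, ← C_pow, DD_mul, DD_C, C_pow]
      linear_combination C g * hN⟩ (by
      linear_combination (C (algebraMap ℂ R (n + 1 : ℂ)⁻¹) * C g ^ N) * h1 -
        (C (algebraMap ℂ R (n + 1 : ℂ)⁻¹) * l ^ (n + 1)) * hN -
        (l ^ n * C g ^ (N + 1) * q) * inv_succ (R := R) (ι := ι) n)
    exact ⟨M + (N + 1), by rw [pow_add, mul_assoc, hM]⟩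

/-- what a linear form kills is killed by a power of each of its values -/
theorem nzd (v : ι → R) {l : MvPolynomial ι R} {g : R} (hl : DD v l = C g) (k : ℕ) :
    ∀ (q : MvPolynomial ι R) (n : ℕ), q.IsHomogeneous k → l ^ n * q = 0 →
      ∃ N, C g ^ N * q = 0 := by
  induction k with
  | zero =>
    intro q n hq h
    refine nzd_aux v hl n q ⟨0, ?_⟩ h
    rw [totalDegree_eq_zero_iff_eq_C.1 ((totalDegree_zero_iff_isHomogeneous ι).2 hq), DD_C, mul_zero]
  | succ k ih =>
    intro q n hq h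
    refine nzd_aux v hl n q (ih _ (n + 2) (DD_mem v k q hq) ?_) h
    have h1 := congrArg (DD v) (show l ^ (n + 1) * q = 0 by rw [pow_succ', mul_assoc, h, mul_zero])
    rw [DD_mul, DD_pow, map_zero] at h1
    linear_combination l * h1 - ((n + 1) * DD v l * l) * h

theorem reg_step {τ : Type} [DecidableEq τ] (w : τ → ι → R) (T : Finset τ) (c : R)
    (g : τ → (ι → R) →ₗ[R] R) (hg : ∀ s ∈ T, ∀ t, g s (w t) = if s = t then c else 0) {t : τ}
    (ht : t ∉ T) (γ : (ι → R) →ₗ[R] R) {k : ℕ} {p : MvPolynomial ι R} (hp : p.IsHomogeneous k)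
    (h : lin (w t) * p ∈ Ideal.span ((fun s => lin (w s)) '' T)) (hc : z c ≠ 0)
    (hγ : ∀ q : MvPolynomial ι R, C (γ (w t)) * q = 0 → ∃ s, z s ≠ 0 ∧ C s * q = 0) :
    ∃ s, z s ≠ 0 ∧ C s * p ∈ Ideal.span ((fun s => lin (w s)) '' T) := by
  classical
  obtain ⟨π, h1, h2, h3⟩ := exists_proj w T c g hg
  have h4 : π (lin (w t) * p) = 0 := (Ideal.span_le (I := RingHom.ker π)).2
    (by rintro _ ⟨s, hs, rfl⟩; exact h1 s hs) h
  rw [map_mul, h2 t ht, mul_comm (C c), mul_assoc] at h4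
  obtain ⟨N, hN⟩ := nzd (fun i => γ (Pi.single i 1)) (g := γ (w t)) (l := lin (w t)) (by
    rw [DD_lin, ev_apply]
    conv_rhs => rw [← sum_single (w t)]
    simp only [map_sum, map_smul, smul_eq_mul]) k _ 1 ((h3 k p hp).1.C_mul c) (by rwa [pow_one])
  have h5 : ∀ (N : ℕ) (q : MvPolynomial ι R), C (γ (w t)) ^ N * q = 0 →
      ∃ s, z s ≠ 0 ∧ C s * q = 0 := fun N => by
    induction N with
    | zero => exact fun q h => ⟨1, ev_one, by simpa using h⟩
    | succ N ih =>
      intro q h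
      obtain ⟨s, k1, k2⟩ := ih (C (γ (w t)) * q) (by rw [← mul_assoc, ← pow_succ, h])
      obtain ⟨s', k3, k4⟩ := hγ (C s * q) (by rw [mul_left_comm, k2])
      exact ⟨s' * s, ev_mul k3 k1, by rw [map_mul, mul_assoc, k4]⟩
  obtain ⟨s, k1, k2⟩ := h5 N _ hN
  refine ⟨s * c * c ^ k, ev_mul (ev_mul k1 hc) (ev_pow hc k), ?_⟩
  have h6 := Ideal.mul_mem_left _ (-(C s * C c)) (h3 k p hp).2
  convert h6 using 1
  simp only [map_mul, map_pow]
  linear_combination k2

theorem unif_poly (I : Ideal R) (q : MvPolynomial ι R)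
    (h : ∀ m, ∃ s, z s ≠ 0 ∧ s * q.coeff m ∈ I) :
    ∃ s, z s ≠ 0 ∧ C s * q ∈ I.map (C : R →+* MvPolynomial ι R) := by
  obtain ⟨s, h1, h2⟩ := AK.unif (z := z) (P := fun (m : q.support) s => s * q.coeff m ∈ I)
    (fun m r s h => by rw [mul_assoc]; exact I.mul_mem_left _ h) fun m => h m
  refine ⟨s, h1, mem_map_C_iff.2 fun m => ?_⟩
  rw [coeff_C_mul]
  by_cases hm : m ∈ q.support
  · exact h2 ⟨m, hm⟩
  · rw [notMem_support_iff.1 hm, mul_zero]
    exact I.zero_mem

variable {u v : R}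

theorem reg1_poly (h : Pair z u v) (q : MvPolynomial ι R) (hq : C u * q = 0) :
    ∃ s, z s ≠ 0 ∧ C s * q = 0 := by
  have := unif_poly (z := z) ⊥ q fun m => h.reg1 _ (by rw [← coeff_C_mul, hq, coeff_zero])
  rwa [Ideal.map_bot] at this

theorem reg2_poly (h : Pair z u v) (i : ι) (q q' : MvPolynomial ι R)
    (hq : C v * (X i * q) = C u * q') : ∃ s q'', z s ≠ 0 ∧ C s * q = C u * q'' := by
  obtain ⟨s, h1, h2⟩ := unif_poly (z := z) (Ideal.span {u}) q fun m => by
    have h3 := congrArg (coeff (Finsupp.single i 1 + m)) hq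
    rw [coeff_C_mul, coeff_C_mul, coeff_X_mul] at h3
    obtain ⟨r, c, k1, k2⟩ := h.reg2 _ _ h3
    exact ⟨r, k1, k2 ▸ Ideal.mul_mem_right _ _ (Ideal.mem_span_singleton_self u)⟩
  rw [Ideal.map_span, Set.image_singleton] at h2
  obtain ⟨q'', h3⟩ := Ideal.mem_span_singleton'.1 h2
  exact ⟨s, q'', h1, by rw [← h3, mul_comm]⟩

theorem pair_syz (h : Pair z u v) {a b : R} (hab : a * u + b * v = 0) :
    ∃ s c, z s ≠ 0 ∧ s * a = c * v ∧ s * b = -(c * u) := by
  obtain ⟨r, c, h1, h2⟩ := h.reg2 b (-a) (by linear_combination hab)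
  obtain ⟨r', h3, h4⟩ := h.reg1 (r * a + c * v) (by linear_combination r * hab - v * h2)
  exact ⟨r' * r, -(r' * c), ev_mul h3 h1, by linear_combination h4, by linear_combination r' * h2⟩

theorem pair_zero (h : Pair z u v) {a b : R} (hab : a * u + b * v = 0) : z a = 0 ∧ z b = 0 := by
  obtain ⟨s, c, h1, h2, h3⟩ := pair_syz h hab
  have h4 := congrArg z h2
  have h5 := congrArg z h3
  rw [map_mul, map_mul, h.z2, mul_zero] at h4
  rw [map_mul, map_neg, map_mul, h.z1, mul_zero, neg_zero] at h5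
  exact ⟨(mul_eq_zero.1 h4).resolve_left h1, (mul_eq_zero.1 h5).resolve_left h1⟩

/-- the normal form of the generation by a pair -/
structure Nf (f : ι → R) (i₁ i₂ : ι) (r : R) (a b : ι → R) : Prop where
  ne : i₁ ≠ i₂
  gen : ∀ i, r * f i = a i * f i₁ + b i * f i₂
  a1 : a i₁ = r
  b1 : b i₁ = 0
  a2 : a i₂ = 0
  b2 : b i₂ = r

theorem exists_nf (h : L2 z f) :
    ∃ i₁ i₂ r a b, Pair z (f i₁) (f i₂) ∧ z r ≠ 0 ∧ Nf f i₁ i₂ r a b := by
  classical
  obtain ⟨i₁, i₂, h1, r, h2, h3⟩ := h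
  have hne : i₁ ≠ i₂ := by
    rintro rfl
    simpa using (pair_zero h1 (a := 1) (b := -1) (by ring)).1
  choose a b hab using h3
  refine ⟨i₁, i₂, r, fun i => if i = i₁ then r else if i = i₂ then 0 else a i,
    fun i => if i = i₁ then 0 else if i = i₂ then r else b i, h1, h2, hne, fun i => ?_, if_pos rfl,
    if_pos rfl, (if_neg hne.symm).trans (if_pos rfl), (if_neg hne.symm).trans (if_pos rfl)⟩
  split_ifs with e e'
  · rw [e, zero_mul, add_zero]
  · rw [e', zero_mul, zero_add]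
  · exact hab i

section nf

variable [DecidableEq ι] {i₁ i₂ : ι} {r : R} {a b : ι → R}

variable (f i₁ i₂) in
/-- the trivial relation -/
def kap : ι → R := f i₂ • Pi.single i₁ 1 - f i₁ • Pi.single i₂ 1

variable (i₁ i₂ r a b) in
/-- the relations given by the generation -/
def rel (i : ι) : ι → R := r • Pi.single i 1 - a i • Pi.single i₁ 1 - b i • Pi.single i₂ 1

omit [Algebra ℂ R] in
theorem ev_kap : ev f (kap f i₁ i₂) = 0 := by
  simp only [kap, map_sub, map_smul, ev_single, smul_eq_mul]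
  ring

omit [Algebra ℂ R] in
theorem lin_kap : lin (kap f i₁ i₂) = C (f i₂) * X i₁ - C (f i₁) * X i₂ := by
  simp only [kap, map_sub, map_smul, lin_single, smul_eq_C_mul]

omit [Algebra ℂ R] in
theorem ev_rel {i : ι} (h : r * f i = a i * f i₁ + b i * f i₂) : ev f (rel i₁ i₂ r a b i) = 0 := by
  simp only [rel, map_sub, map_smul, ev_single, smul_eq_mul]
  linear_combination h

omit [Algebra ℂ R] in
theorem sum_rel (v : ι → R) : ∑ i, v i • rel i₁ i₂ r a b i =
    r • v - (∑ i, v i * a i) • Pi.single i₁ 1 - (∑ i, v i * b i) • Pi.single i₂ 1 := by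
  simp only [rel, smul_sub, Finset.sum_sub_distrib, Finset.sum_smul, smul_comm _ r,
    ← Finset.smul_sum, sum_single, mul_smul]

/-- every relation is a combination of the standard ones -/
theorem decomp (hg : ∀ i, r * f i = a i * f i₁ + b i * f i₂)
    (hs : ∀ α β, α * f i₁ + β * f i₂ = 0 → ∃ s c, z s ≠ 0 ∧ s * α = c * f i₂ ∧ s * β = -(c * f i₁))
    {v : ι → R} (hv : ev f v = 0) : ∃ s c : R, z s ≠ 0 ∧
      (s * r) • v = c • kap f i₁ i₂ + ∑ i, (s * v i) • rel i₁ i₂ r a b i := by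
  obtain ⟨s, c, h1, h2, h3⟩ := hs (∑ i, v i * a i) (∑ i, v i * b i) (by
    rw [Finset.sum_mul, Finset.sum_mul, ← Finset.sum_add_distrib, ← mul_zero r, ← hv, ev_apply,
      Finset.mul_sum]
    exact Finset.sum_congr rfl fun i _ => by linear_combination -(v i) * hg i)
  refine ⟨s, c, h1, ?_⟩
  simp only [mul_smul, ← Finset.smul_sum, sum_rel]
  simp only [smul_sub, smul_smul, h2, h3, kap, neg_smul]
  abel

variable (f i₁ i₂ r a b) in
/-- the basis of the relations -/
def bas : Option {i // i ≠ i₁ ∧ i ≠ i₂} → ι → R := fun t =>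
  t.elim (kap f i₁ i₂) fun i => rel i₁ i₂ r a b i

/-- the dual forms -/
def dua : Option {i // i ≠ i₁ ∧ i ≠ i₂} → (ι → R) →ₗ[R] R := fun t =>
  t.elim (LinearMap.proj i₂) fun i => LinearMap.proj i.1

omit [Algebra ℂ R] in
theorem dua_bas (i : {i // i ≠ i₁ ∧ i ≠ i₂}) (t) :
    dua (some i) (bas f i₁ i₂ r a b t) = if some i = t then r else 0 := by
  rcases t with _ | j
  · simp [dua, bas, kap, i.2.1, i.2.2]
  · simp [dua, bas, rel, i.2.1, i.2.2, Pi.single_apply, Subtype.ext_iff]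

omit [Algebra ℂ R] in
theorem dua_none (h : i₁ ≠ i₂) : dua (none : Option {i // i ≠ i₁ ∧ i ≠ i₂})
    (bas f i₁ i₂ r a b none) = -f i₁ := by
  simp [dua, bas, kap, h.symm]

omit [Algebra ℂ R] in
theorem Nf.ev_bas (h : Nf f i₁ i₂ r a b) (t) : ev f (bas f i₁ i₂ r a b t) = 0 := by
  rcases t with _ | j
  · exact ev_kap
  · exact ev_rel (h.gen j)

theorem Nf.iso [IsNoetherianRing R] (h : Nf f i₁ i₂ r a b) (hp : Pair z (f i₁) (f i₂))
    (hr : z r ≠ 0) : IsoAt z (Fintype.linearCombination R fun t =>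
      (⟨bas f i₁ i₂ r a b t, h.ev_bas t⟩ : LinearMap.ker (ev f))) := by
  have e : ∀ x, (Fintype.linearCombination R (fun t => (⟨bas f i₁ i₂ r a b t, h.ev_bas t⟩ :
      LinearMap.ker (ev f))) x).1 = ∑ t, x t • bas f i₁ i₂ r a b t := fun x => by
    rw [Fintype.linearCombination_apply, Submodule.coe_sum]
    rfl
  refine isoAt_of (fun x hx => ?_) fun v => ?_
  · have h0 : ∑ t, x t • bas f i₁ i₂ r a b t = 0 := (e x).symm.trans (congrArg Subtype.val hx)
    have h1 : ∀ i, r * x (some i) = 0 := fun i => by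
      have := congrArg (dua (some i)) h0
      simp only [map_sum, map_smul, dua_bas, smul_eq_mul, mul_ite, mul_zero, Finset.sum_ite_eq,
        Finset.mem_univ, if_true, map_zero] at this
      rwa [mul_comm]
    have h2 := congrArg (fun y => dua (none : Option {i // i ≠ i₁ ∧ i ≠ i₂}) (r • y)) h0
    simp only [Finset.smul_sum, smul_smul, Fintype.sum_option, smul_add, h1, zero_smul,
      Finset.sum_const_zero, add_zero, map_smul, dua_none h.ne, smul_zero, map_zero] at h2
    obtain ⟨s, k1, k2⟩ := hp.reg1 (r * x none) (by rw [smul_eq_mul] at h2; linear_combination -h2)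
    refine ⟨s * r, ev_mul k1 hr, funext fun t => ?_⟩
    rcases t with _ | i
    · exact (mul_assoc _ _ _).trans k2
    · exact (mul_assoc _ _ _).trans ((congrArg _ (h1 i)).trans (mul_zero s))
  · obtain ⟨s, c, k1, k2⟩ := decomp h.gen (fun _ _ => pair_syz hp) v.2
    refine ⟨s * r, fun t => t.elim c fun i => s * v.1 i, ev_mul k1 hr, Subtype.ext ?_⟩
    rw [e, Fintype.sum_option]
    refine Eq.trans (congrArg _ ?_) k2.symm
    refine (Finset.sum_subtype (Finset.univ.filter fun i => i ≠ i₁ ∧ i ≠ i₂) (by simp)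
      fun i => (s * v.1 i) • rel i₁ i₂ r a b i).symm.trans (Finset.sum_filter_of_ne fun i _ hi => ?_)
    constructor <;> rintro rfl <;> simp [rel, h.a1, h.b1, h.a2, h.b2] at hi

end nf

end Vale.Agent.P297Z.Dg.Rg
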