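import Vale.Agent.P297Z.Diag.Defs
import Vale.Agent.P297Z.Surf.SspA2
import Vale.Agent.P297Z.Dim.Reg

/-!
# P297, diagonal: the surface is smooth in the sense of the linear forms
-/

noncomputable section

namespace Vale.Agent.P297Z.Dg

open Dim

/-- a family that generates the same ideal as two of three regular parameters -/
theorem l2_of_par {R : Type} [CommRing R] [IsDomain R] [Algebra ℂ R] [Algebra.FiniteType ℂ R]
    (hd : td ℂ R = 3) {z : R →ₐ[ℂ] ℂ} {L₁ L₂ L₃ : R} (z1 : z L₁ = 0) (z2 : z L₂ = 0)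
    (z3 : z L₃ = 0) (hL : LeAt z (RingHom.ker z) (Ideal.span {L₁, L₂, L₃})) {κ : Type} [Fintype κ]
    {f : κ → R} (zf : ∀ i, z (f i) = 0)
    (hf : ∀ i, ∃ u, z u ≠ 0 ∧ u * f i ∈ Ideal.span {L₁, L₂})
    (s1 : L₁ ∈ Submodule.span ℂ (Set.range f)) (s2 : L₂ ∈ Submodule.span ℂ (Set.range f)) :
    L2 z f := by
  classical
  have hd' : Fintype.card (Fin 3) ≤ td ℂ (R ⧸ (⊥ : Ideal R)) := by
    rw [td_quot_bot, hd, Fintype.card_fin]
  have key : ∀ a b : R, z a = 0 → z b = 0 → LeAt z (RingHom.ker z) (Ideal.span {a, b, L₃}) →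
      Module.finrank ℂ (tan z ⊥) ≤ td ℂ (R ⧸ (⊥ : Ideal R)) ∧
        Function.Surjective (tanEv z ⊥ ![a, b, L₃]) := fun a b ha hb h =>
    surj_of_gen (P := ⊥) le_rfl bot_le (fun i => by fin_cases i <;> assumption)
      (by rwa [bot_sup_eq, Matrix.range_cons, Matrix.range_cons, Matrix.range_cons,
        Matrix.range_empty, Set.union_empty, Set.singleton_union, Set.singleton_union]) hd'
  obtain ⟨D₁, hD₁⟩ := (key _ _ z1 z2 hL).2 ![1, 0, 0]
  obtain ⟨D₂, hD₂⟩ := (key _ _ z1 z2 hL).2 ![0, 1, 0]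
  have a11 : D₁.1 L₁ = 1 := congrFun hD₁ 0
  have a12 : D₁.1 L₂ = 0 := congrFun hD₁ 1
  have a21 : D₂.1 L₁ = 0 := congrFun hD₂ 0
  have a22 : D₂.1 L₂ = 1 := congrFun hD₂ 1
  obtain ⟨i, j, hij⟩ : ∃ i j, D₁.1 (f i) * D₂.1 (f j) - D₁.1 (f j) * D₂.1 (f i) ≠ 0 := by
    by_contra o
    push Not at o
    obtain ⟨c, hc⟩ := (Submodule.mem_span_range_iff_exists_fun ℂ).1 s1
    obtain ⟨e, he⟩ := (Submodule.mem_span_range_iff_exists_fun ℂ).1 s2
    have h1 : D₁.1 L₁ * D₂.1 L₂ - D₁.1 L₂ * D₂.1 L₁ =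
        ∑ i, ∑ j, c i * e j * (D₁.1 (f i) * D₂.1 (f j) - D₁.1 (f j) * D₂.1 (f i)) := by
      rw [← hc, ← he, mul_comm (D₁.1 (∑ i, e i • f i))]
      simp only [map_sum, map_smul, smul_eq_mul, Finset.sum_mul_sum, ← Finset.sum_sub_distrib]
      exact Finset.sum_congr rfl fun i _ => Finset.sum_congr rfl fun j _ => by ring
    simp [o, a11, a12, a22] at h1
  choose u hu hm using hf
  choose a b hab using fun i => Ideal.mem_span_pair.1 (hm i)
  have hv : ∀ i, z (a i) = z (u i) * D₁.1 (f i) ∧ z (b i) = z (u i) * D₂.1 (f i) := fun i => by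
    have h1 := congrArg D₁.1 (hab i)
    have h2 := congrArg D₂.1 (hab i)
    rw [map_add, (mem_tan.1 D₁.2).1, (mem_tan.1 D₁.2).1, (mem_tan.1 D₁.2).1] at h1
    rw [map_add, (mem_tan.1 D₂.2).1, (mem_tan.1 D₂.2).1, (mem_tan.1 D₂.2).1] at h2
    simpa [z1, z2, zf, a11, a12, a21, a22] using And.intro h1 h2
  have hΔ : z (a i * b j - a j * b i) ≠ 0 := by
    rw [map_sub, map_mul, map_mul, (hv i).1, (hv i).2, (hv j).1, (hv j).2]
    convert mul_ne_zero (mul_ne_zero (hu i) (hu j)) hij using 1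
    ring
  have m1 : (a i * b j - a j * b i) * L₁ ∈ Ideal.span {f i, f j} :=
    Ideal.mem_span_pair.2 ⟨b j * u i, -(b i * u j), by
      linear_combination -b j * hab i + b i * hab j⟩
  have m2 : (a i * b j - a j * b i) * L₂ ∈ Ideal.span {f i, f j} :=
    Ideal.mem_span_pair.2 ⟨-(a j * u i), a i * u j, by
      linear_combination a j * hab i - a i * hab j⟩
  have hle : LeAt z (Ideal.span {L₁, L₂}) (Ideal.span {f i, f j}) := ⟨_, hΔ, fun x hx => by
    obtain ⟨s, t, rfl⟩ := Ideal.mem_span_pair.1 hx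
    rw [mul_add, mul_left_comm, mul_left_comm _ t]
    exact add_mem (Ideal.mul_mem_left _ _ m1) (Ideal.mul_mem_left _ _ m2)⟩
  have e3 : ∀ a b : R, Ideal.span {a, b, L₃} = Ideal.span {a, b} ⊔ Ideal.span {L₃} := fun a b => by
    rw [Ideal.span_insert, Ideal.span_insert, Ideal.span_insert, sup_assoc]
  have hL' : LeAt z (RingHom.ker z) (Ideal.span {f i, f j, L₃}) := by
    refine hL.trans ?_
    rw [e3, e3]
    exact (hle.trans (LeAt.of_le le_sup_left)).sup (LeAt.of_le le_sup_right)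
  obtain ⟨k1, k2⟩ := key _ _ (zf i) (zf j) hL'
  refine ⟨i, j, ⟨zf i, zf j, fun x hx => ?_, fun x y hxy => ?_⟩, ?_⟩
  · obtain ⟨D, hD⟩ := k2 ![1, 0, 0]
    have h1 : D.1 (f i) = 1 := congrFun hD 0
    refine ⟨1, ev_one, ?_⟩
    rw [(mul_eq_zero.1 hx).resolve_left fun o => by simp [o] at h1, mul_zero]
  · obtain ⟨s, hs, h1⟩ := reg_seq (P := ⊥) le_rfl bot_le k1 (f := ![f i, f j, L₃])
      (fun i => by fin_cases i <;> simp [zf, z3]) k2 {0}
    have h2 := h1 1 (by simp) x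
    rw [bot_sup_eq, Set.image_singleton] at h2
    obtain ⟨c, hc⟩ := Ideal.mem_span_singleton'.1 (h2 (Ideal.mem_span_singleton'.2
      ⟨y, (mul_comm _ _).trans hxy.symm⟩))
    exact ⟨s, c, hs, hc.symm.trans (mul_comm _ _)⟩
  · obtain ⟨s, hs, h1⟩ := hle
    refine ⟨s * ∏ k, u k, ev_mul hs ?_, fun k => ?_⟩
    · rw [map_prod]
      exact Finset.prod_ne_zero_iff.2 fun k _ => hu k
    · have h2 := Ideal.mul_mem_left _ (∏ l ∈ Finset.univ.erase k, u l) (h1 _ (hm k))
      obtain ⟨x, y, h3⟩ := Ideal.mem_span_pair.1 h2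
      refine ⟨x, y, ?_⟩
      rw [h3, ← Finset.prod_erase_mul _ _ (Finset.mem_univ k)]
      ring

open Sf Sf.SA

variable {K : Type} [Field K] [Algebra ℂ K] {S : Surf K}

theorem lin_repr {n : ℕ} (b : Module.Basis (Fin n) ℂ S.W) (l : S.W) :
    S.lin l = ∑ i, b.repr l i • S.lin (b i) :=
  ((congrArg S.linL (b.sum_repr l)).symm.trans (map_sum S.linL _ _)).trans
    (Finset.sum_congr rfl fun _ _ => map_smul S.linL _ _)

theorem exists_basis_ne (z : S.ring →ₐ[ℂ] ℂ) {n : ℕ} (b : Module.Basis (Fin n) ℂ S.W) :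
    (∃ w, z (S.lin w) ≠ 0) ↔ ∃ i, z (S.lin (b i)) ≠ 0 := by
  refine ⟨fun ⟨w, hw⟩ => ?_, fun ⟨i, hi⟩ => ⟨b i, hi⟩⟩
  by_contra o
  push Not at o
  simp [lin_repr b w, map_sum, o] at hw

theorem sm_basis (h : S.All) {n : ℕ} (b : Module.Basis (Fin n) ℂ S.W) :
    Sm (S.spc h) fun i => S.lin (b i) where
  var := isVar h
  uniq := ⟨(), fun _ => rfl⟩
  wt := fun i => lin_mem_wt h (b i)
  gen := by
    have h1 := S.adjoin_lin b.span_eq
    rwa [← Set.range_comp] at h1
  pts := fun z => (pt_iff h z).trans (exists_basis_ne z b)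
  reg := fun z i₀ h0 => by
    obtain ⟨p, hz⟩ := exists_over z
    obtain ⟨l₁, l₂, hp⟩ := exists_par h ((over_in hz (b i₀)).2 h0)
    have h0' : hom z (S.lin (b i₀)) ≠ 0 := h0
    let f : Fin n → S.ring := fun i =>
      hom z (S.lin (b i₀)) • S.lin (b i) - hom z (S.lin (b i)) • S.lin (b i₀)
    have zf : ∀ i, hom z (f i) = 0 := fun i => by simp [f, mul_comm]
    have hs : ∀ l : S.W, hom z (S.lin l) = 0 → S.lin l ∈ Submodule.span ℂ (Set.range f) :=
      fun l hl => by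
        have e := lin_repr b l
        refine (Submodule.smul_mem_iff _ h0').1
          ((Submodule.mem_span_range_iff_exists_fun ℂ).2 ⟨fun i => b.repr l i, ?_⟩)
        have e2 : ∑ i, b.repr l i * hom z (S.lin (b i)) = 0 := by
          rw [e] at hl
          simpa [map_sum] using hl
        simp only [f, smul_sub, Finset.sum_sub_distrib, smul_smul, ← Finset.sum_smul, e2,
          zero_smul, sub_zero]
        rw [e, Finset.smul_sum]
        exact Finset.sum_congr rfl fun i _ => by rw [smul_smul, mul_comm]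
    have := S.ring_ft
    have := Algebra.FiniteType.isNoetherianRing ℂ S.ring
    have z1 := (hz l₁).2 hp.van.1
    have z2 := (hz l₂).2 hp.van.2
    refine l2_of_par (z := hom z) (td_ring S) z1 z2 (sub_mem_ker (hom z) (S.lin (b i₀)))
      (leAt_of_forall fun r hr => loc_ker hz hp r hr) zf (fun i => loc_van hz hp (f i) ?_)
      (hs l₁ z1) (hs l₂ z2)
    have e : f i = S.lin (hom z (S.lin (b i₀)) • b i - hom z (S.lin (b i)) • b i₀) :=
      ((map_sub S.linL _ _).trans (congrArg₂ _ (map_smul S.linL _ _) (map_smul S.linL _ _))).symm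
    have h1 := (lin_mem_van (h := h) _).2 ((hz _).1 ((congrArg (hom z) e).symm.trans (zf i)))
    exact e ▸ h1

/-- the surface is smooth -/
theorem smo (h : S.All) : Smo (S.spc h) :=
  have := S.model.fin
  ⟨_, _, sm_basis h (Module.finBasis ℂ S.W)⟩

end Vale.Agent.P297Z.Dg
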