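import Vale.Agent.P297Z.Diag.Defs
import Vale.Agent.P297Z.Diag.Kos
import Vale.Agent.P297Z.Diag.Reg
import Vale.Agent.P297Z.K.AG
import Vale.Agent.P297Z.K.AK
import Vale.Agent.P297Z.Ch.Cc

/-!
# P297, diagonal: the classes of the symmetric powers
-/

set_option linter.all false

open scoped TensorProduct

noncomputable section

namespace Vale.Agent.P297Z.Dg

open GMod Finset

variable {X : Spc} {ι : Type} [Fintype ι] {d : ι → X.J → ℤ}

namespace Sym

section alg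

variable {R : Type} [CommRing R] {B : Type} [AddCommGroup B] [Module R B]

/-- the exterior product with a vector -/
def wd (a : B) (j : ℕ) : (⋀[R]^j B) →ₗ[R] (⋀[R]^(j + 1) B) :=
  (LinearMap.mulLeft R (ExteriorAlgebra.ι R a)).restrict fun _ hx => ι_mul_mem a hx

theorem wd_ι (a : B) (j : ℕ) (v : Fin j → B) :
    wd a j (exteriorPower.ιMulti R j v) = exteriorPower.ιMulti R (j + 1) (Fin.cons a v) :=
  Subtype.ext (ExteriorAlgebra.ιMulti_succ_apply (R := R) (Fin.cons a v : Fin (j + 1) → B)).symm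

theorem kos_wd0 (σ : B →ₗ[R] R) (a : B) (x : ⋀[R]^0 B) : kos σ 0 (wd a 0 x) = σ a • x :=
  Subtype.ext ((ctr_ι_mul σ a x.1).trans (by
    rw [ctr_of_zero σ x.2, mul_zero, sub_zero]
    rfl))

theorem kos_wd (σ : B →ₗ[R] R) (a : B) (j : ℕ) (x : ⋀[R]^(j + 1) B) :
    kos σ (j + 1) (wd a (j + 1) x) = σ a • x - wd a j (kos σ j x) :=
  Subtype.ext (ctr_ι_mul σ a x.1)

theorem dd_tmul (φ : B →ₗ[R] (ι → R)) (j k : ℕ) (x : ⋀[R]^(j + 1) B) (p : Hk ι R k) :
    dd φ j k (x ⊗ₜ p) = ∑ i, kos ((LinearMap.proj i).comp φ) j x ⊗ₜ mulX i k p := by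
  rw [dd, LinearMap.sum_apply]
  rfl

theorem aug_tmul (φ : B →ₗ[R] (ι → R)) (k : ℕ) (x : ⋀[R]^0 B) (p : Hk ι R k) :
    aug φ k (x ⊗ₜ p) = (JK φ k).mkQ (exteriorPower.zeroEquiv R B x • p) := rfl

theorem mem_JJ_id {k : ℕ} {p : MvPolynomial ι R} (hp : p.IsHomogeneous (k + 1)) :
    p ∈ JJ (LinearMap.id : (ι → R) →ₗ[R] (ι → R)) := by
  classical
  have h1 : p ∈ Ideal.span (MvPolynomial.X '' (Set.univ : Set ι) : Set (MvPolynomial ι R)) := by
    refine MvPolynomial.mem_ideal_span_X_image.2 fun m hm => ?_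
    by_contra hc
    have h0 : m = 0 := Finsupp.ext fun i => by
      by_contra hi
      exact hc ⟨i, trivial, hi⟩
    subst h0
    exact MvPolynomial.mem_support_iff.1 hm (hp.coeff_eq_zero (by simp))
  refine Ideal.span_mono ?_ h1
  rintro _ ⟨i, -, rfl⟩
  exact ⟨Pi.single i 1, by simp [lin]⟩

end alg

/-- the action on the exterior powers -/
def ea (B : GMod X) (g : X.J → ℂˣ) (j : ℕ) : (⋀[X.R]^j B.M) →+ (⋀[X.R]^j B.M) :=
  (B.ext_act j g).choose

variable {B : GMod X}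

theorem ea_smul (g : X.J → ℂˣ) (j : ℕ) (r : X.R) (x : ⋀[X.R]^j B.M) :
    ea B g j (r • x) = X.act g r • ea B g j x := (B.ext_act j g).choose_spec.1 r x

theorem ea_ι (g : X.J → ℂˣ) (j : ℕ) (v : Fin j → B.M) :
    ea B g j (exteriorPower.ιMulti X.R j v) = exteriorPower.ιMulti X.R j fun i => B.act g (v i) :=
  (B.ext_act j g).choose_spec.2 v

theorem ea_wd (g : X.J → ℂˣ) (a : B.M) (j : ℕ) (x : ⋀[X.R]^j B.M) :
    ea B g (j + 1) (wd a j x) = wd (B.act g a) j (ea B g j x) := by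
  induction x using Wh.ext_induction with
  | h1 v =>
    rw [wd_ι, ea_ι, ea_ι, wd_ι]
    exact congrArg _ (funext fun i => Fin.cases rfl (fun _ => rfl) i)
  | h0 => simp only [map_zero]
  | ha x y hx hy => simp only [map_add, hx, hy]
  | hs r x hx => rw [map_smul, ea_smul, ea_smul, map_smul, hx]

theorem ea_kos (g : X.J → ℂˣ) {σ : B.M →ₗ[X.R] X.R} {c : X.R}
    (h : ∀ b, σ (B.act g b) = c * X.act g (σ b)) (j : ℕ) (x : ⋀[X.R]^(j + 1) B.M) :
    kos σ j (ea B g (j + 1) x) = c • ea B g j (kos σ j x) := by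
  induction j with
  | zero =>
    induction x using Wh.ext_induction with
    | h1 v => rw [← Fin.cons_self_tail v, ← wd_ι, ea_wd, kos_wd0, kos_wd0, ea_smul, h, mul_smul]
    | h0 => simp only [map_zero, smul_zero]
    | ha x y hx hy => simp only [map_add, hx, hy, smul_add]
    | hs r x hx => rw [ea_smul, map_smul, map_smul, ea_smul, hx, smul_comm]
  | succ j ih =>
    induction x using Wh.ext_induction with
    | h1 v =>
      rw [← Fin.cons_self_tail v, ← wd_ι, ea_wd, kos_wd, kos_wd, map_sub, ea_smul, h, mul_smul,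
        ih, map_smul, ea_wd, smul_sub]
    | h0 => simp only [map_zero, smul_zero]
    | ha x y hx hy => simp only [map_add, hx, hy, smul_add]
    | hs r x hx => rw [ea_smul, map_smul, map_smul, ea_smul, hx, smul_comm]

/-- the action on the forms -/
def sa (d : ι → X.J → ℤ) (g : X.J → ℂˣ) (k : ℕ) (p : Hk ι X.R k) : Hk ι X.R k :=
  ⟨pact X d g p.1, pact_hom d g p.2⟩

theorem coe_sa (g : X.J → ℂˣ) (k : ℕ) (p : Hk ι X.R k) : (sa d g k p).1 = pact X d g p.1 := rfl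

theorem sa_mulX (g : X.J → ℂˣ) (k : ℕ) (i : ι) (p : Hk ι X.R k) :
    sa d g (k + 1) (mulX i k p) = algebraMap ℂ X.R (chr (d i) g) • mulX i k (sa d g k p) :=
  Subtype.ext (by
    rw [Submodule.coe_smul, coe_sa, coe_mulX, coe_mulX, coe_sa, map_mul, pact_X, algebraMap_smul,
      mul_smul_comm])

/-- the terms of the complex -/
abbrev PP (B : GMod X) (d : ι → X.J → ℤ) (j k : ℕ) : GMod X := (B.ext j).ten (Sy X d k)

variable {φ : B.M →ₗ[X.R] (ι → X.R)}

theorem dd_isHom (hφ : B.IsHom (Fr X d) φ) (j k : ℕ) :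
    (PP B d (j + 1) k).IsHom (PP B d j (k + 1)) (dd φ j k) :=
  isHom_ten fun g (x : ⋀[X.R]^(j + 1) B.M) (p : Hk ι X.R k) => by
  refine (dd_tmul φ j k (ea B g (j + 1) x) (sa d g k p)).trans ?_
  refine Eq.trans ?_ (congrArg ((PP B d j (k + 1)).act g) (dd_tmul φ j k x p)).symm
  refine Eq.trans (Finset.sum_congr rfl fun i _ => ?_)
    (map_sum ((PP B d j (k + 1)).act g) _ _).symm
  change _ = ea B g j (kos _ j x) ⊗ₜ[X.R] sa d g (k + 1) (mulX i k p)
  rw [sa_mulX, ea_kos g (c := algebraMap ℂ X.R (chr (d i) g)) fun b => by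
    rw [← Algebra.smul_def]
    exact congrFun (isHom_Fr.1 hφ g b) i, TensorProduct.smul_tmul]

theorem aug_isHom (hφ : B.IsHom (Fr X d) φ) (k : ℕ) :
    (PP B d 0 k).IsHom (SyQ hφ k) (aug φ k) :=
  isHom_ten fun g (x : ⋀[X.R]^0 B.M) (p : Hk ι X.R k) => by
  have h1 : (B.ext 0).IsHom (one X) (exteriorPower.zeroEquiv X.R B.M).toLinearMap :=
    isHom_ext fun g v => (exteriorPower.zeroEquiv_ιMulti (R := X.R) _).trans
      ((map_one (X.act g)).symm.trans
        (congrArg (X.act g) (exteriorPower.zeroEquiv_ιMulti v).symm))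
  have h2 : exteriorPower.zeroEquiv X.R B.M (ea B g 0 x) =
      X.act g (exteriorPower.zeroEquiv X.R B.M x) := h1 g x
  refine (aug_tmul φ k (ea B g 0 x) (sa d g k p)).trans ?_
  rw [h2]
  exact congrArg (JK φ k).mkQ ((Sy X d k).act_smul g _ p).symm

theorem ses_cok {A B C : GMod X} {f : A.M →ₗ[X.R] B.M} {g : B.M →ₗ[X.R] C.M} (hf : A.IsHom B f)
    (hg : B.IsHom C g) (h0 : ∀ a, g (f a) = 0) (h : ∀ z : X.Pt, ExAt z.1 f g) :
    ∃ u v, SES hf.cokerM C hg.cokerM u v := by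
  have hle : LinearMap.range f ≤ LinearMap.ker g := by
    rintro _ ⟨x, rfl⟩
    exact h0 x
  refine ⟨(LinearMap.range f).liftQ g hle, (LinearMap.range g).mkQ, hg.liftQ hf.stab_range hle,
    isHom_mkQ _ _ hg.stab_range, fun a => ?_, fun z => ⟨fun a ha => ?_, .of_ker fun b hb => ?_,
      .of_surj (Submodule.mkQ_surjective _)⟩⟩
  · obtain ⟨a, rfl⟩ := Submodule.Quotient.mk_surjective _ a
    exact (Submodule.Quotient.mk_eq_zero _).2 ⟨a, rfl⟩
  · obtain ⟨a, rfl⟩ := Submodule.Quotient.mk_surjective _ a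
    obtain ⟨s, y, hs, e⟩ := h z a ha
    exact ⟨s, hs, (Submodule.Quotient.mk_eq_zero _).2 ⟨y, e⟩⟩
  · obtain ⟨a, ha⟩ := (Submodule.Quotient.mk_eq_zero _).1 hb
    exact ⟨Submodule.Quotient.mk a, ha⟩

/-- the alternating sums -/
def TT (e h : ℕ → K0 X) (j m : ℕ) : K0 X := ∑ p ∈ antidiagonal m, (-1) ^ p.1 * e (p.1 + j) * h p.2

theorem TT_zero (e h : ℕ → K0 X) (j : ℕ) : TT e h j 0 = e j * h 0 := by simp [TT]

theorem TT_succ (e h : ℕ → K0 X) (j m : ℕ) :
    TT e h j (m + 1) = e j * h (m + 1) - TT e h (j + 1) m := by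
  rw [TT, TT, Nat.sum_antidiagonal_succ, sub_eq_add_neg, ← sum_neg_distrib]
  refine congrArg₂ _ (by simp) (sum_congr rfl fun p _ => ?_)
  rw [show p.1 + 1 + j = p.1 + (j + 1) by ring]
  ring

end Sym

open Sym

theorem Sy_isBun (d : ι → X.J → ℤ) (k : ℕ) :
    (Sy X d k).IsBun ((Fintype.card ι).multichoose k) := fun z => by
  classical
  have := AK.nontriv z.1
  have e : Hk ι X.R k = MvPolynomial.restrictSupport X.R {m | m.degree = k} :=
    MvPolynomial.homogeneousSubmodule_eq_finsupp_supported ι X.R k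
  have b := (MvPolynomial.basisRestrictSupport X.R {m : ι →₀ ℕ | m.degree = k}).map
    (LinearEquiv.ofEq _ _ e.symm)
  have := Module.Free.of_basis b
  have := Hk_fin ι X.R k
  have e2 : {m : ι →₀ ℕ | m.degree = k} = ↑((univ : Finset ι).finsuppAntidiag k) := by
    ext m
    simp [Finsupp.degree_eq_sum]
  refine (AK.free_of_free ?_ : FreeAt z.1 (Hk ι X.R k) _)
  rw [Module.finrank_eq_nat_card_basis b, e2, Nat.card_coe_set_eq, Set.ncard_coe_finset,
    card_finsuppAntidiag_nat_eq_multichoose, card_univ]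

theorem Sym.res_Q {B : GMod X} {r : ℕ} (hB : B.IsBun r) {φ : B.M →ₗ[X.R] (ι → X.R)}
    (hφ : B.IsHom (Fr X d) φ) (h : ∀ z : X.Pt, KReg z.1 φ) (m j : ℕ) :
    Res (m + 1) (dd_isHom hφ j m).cokerM
      (TT (fun i => kc (B.ext i) (r.choose i)) (hK X d) j (m + 1)) := by
  have hP : ∀ j k, (PP B d j k).IsBun (r.choose j * (Fintype.card ι).multichoose k) :=
    fun j k => (hB.ext j).ten (Sy_isBun d k)
  have hk : ∀ j k, kc (PP B d j k) (r.choose j * (Fintype.card ι).multichoose k) =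
      kc (B.ext j) (r.choose j) * hK X d k := fun j k => kc_ten (hB.ext j) (Sy_isBun d k)
  induction m generalizing j with
  | zero =>
    refine ⟨_, _, _, _, _, _, (dd_isHom hφ j 0).ses_coker fun z => (h z).inj j, hP j 1,
      Res.bun (hP (j + 1) 0) 0, ?_⟩
    rw [TT_succ, TT_zero, hk, hk]
  | succ m ih =>
    obtain ⟨u, v, hs⟩ := ses_cok (dd_isHom hφ (j + 1) m) (dd_isHom hφ j (m + 1)) (dd_dd φ j m)
      fun z => (h z).ex j m
    exact ⟨_, _, _, _, u, v, hs, hP j (m + 1 + 1), ih (j + 1), by rw [TT_succ, hk]⟩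

theorem res_SyQ₀ {B : GMod X} {r : ℕ} (hB : B.IsBun r) {φ : B.M →ₗ[X.R] (ι → X.R)}
    (hφ : B.IsHom (Fr X d) φ) (h : ∀ z : X.Pt, KReg z.1 φ) (k : ℕ) : Res k (SyQ hφ k)
      (∑ p ∈ antidiagonal k, (-1) ^ p.1 * kc (B.ext p.1) (r.choose p.1) * hK X d p.2) := by
  change Res k (SyQ hφ k) (TT (fun i => kc (B.ext i) (r.choose i)) (hK X d) 0 k)
  cases k with
  | zero =>
    refine (Res.qis (qis_of_bij (aug_isHom hφ 0) fun z =>
      ⟨.of_inj (aug_zero_inj φ), .of_surj (aug_surj φ 0)⟩)).1 ?_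
    rw [TT_zero, hK, ← kc_ten (hB.ext 0) (Sy_isBun d 0)]
    exact Res.bun ((hB.ext 0).ten (Sy_isBun d 0)) 0
  | succ k =>
    have hle : LinearMap.range (dd φ 0 k) ≤ LinearMap.ker (aug φ (k + 1)) := by
      rintro _ ⟨x, rfl⟩
      exact aug_dd φ k x
    refine (Res.qis (qis_of_bij ((aug_isHom hφ (k + 1)).liftQ (dd_isHom hφ 0 k).stab_range hle)
      fun z => ⟨fun a ha => ?_, .of_surj fun b => ?_⟩)).1 (res_Q hB hφ h k 0)
    · obtain ⟨a, rfl⟩ := Submodule.Quotient.mk_surjective _ a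
      exact ⟨1, ev_one, (one_smul _ _).trans
        ((Submodule.Quotient.mk_eq_zero _).2 (aug_ex φ k a ha))⟩
    · obtain ⟨a, ha⟩ := aug_surj φ (k + 1) b
      exact ⟨Submodule.Quotient.mk a, ha⟩

theorem Sym.hK_zero (d : ι → X.J → ℤ) : hK X d 0 = 1 := by
  let f : X.R →ₗ[X.R] Hk ι X.R 0 :=
    (Algebra.linearMap X.R (MvPolynomial ι X.R)).codRestrict _ fun r =>
      MvPolynomial.isHomogeneous_C ι r
  have hf : (one X).IsHom (Sy X d 0) f := fun g r => Subtype.ext (pact_C d g r).symm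
  rw [hK, Nat.multichoose_zero_right, ← kc_qis (qis_of_bij hf fun z =>
    ⟨.of_inj fun a b hab => MvPolynomial.C_injective ι X.R (congrArg Subtype.val hab),
      .of_surj fun p : Hk ι X.R 0 => ⟨(p.1.coeff 0 : X.R), Subtype.ext (MvPolynomial.totalDegree_eq_zero_iff_eq_C.1
        (Nat.le_zero.1 (MvPolynomial.IsHomogeneous.totalDegree_le p.2))).symm⟩⟩) 1, kc_one]

theorem hK_eq [Nonempty X.Pt] (d : ι → X.J → ℤ) (k : ℕ) :
    hK X d k = sig k (∑ i, line X (-d i)) := by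
  have hB : (Fr X d).IsBun (∑ _i : ι, 1) := isBun_pi fun i => (isBun_one X).shift (-d i)
  have hc : kc (Fr X d) (∑ _i : ι, 1) = ∑ i, line X (-d i) :=
    kc_pi fun i => (isBun_one X).shift (-d i)
  have hφ : (Fr X d).IsHom (Fr X d) LinearMap.id := IsHom.id _
  have h0 : ∀ k, ∑ p ∈ antidiagonal (k + 1),
      (-1) ^ p.1 * lam p.1 (∑ i, line X (-d i)) * hK X d p.2 = 0 := fun k => by
    have h1 := res_SyQ₀ hB hφ (fun z => kreg_of_split (hB z) (c := 1) ev_one LinearMap.id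
      fun b => (one_smul _ b).symm) (k + 1)
    have h2 : ∀ z : X.Pt, ZeroAt z.1 (SyQ hφ (k + 1)).M := fun z a => by
      obtain ⟨a, rfl⟩ := Submodule.Quotient.mk_surjective _ a
      exact ⟨1, ev_one, (one_smul _ _).trans
        ((Submodule.Quotient.mk_eq_zero _).2 (mem_JJ_id a.2))⟩
    have h3 := h1.unique' (Res.bun (isBun_zero h2) (k + 1))
    rw [kc_zero h2] at h3
    simpa only [← lam_kc hB, hc] using h3
  have h1 : lamS (∑ i, line X (-d i)) * PowerSeries.mk (fun k => (-1) ^ k * hK X d k) = 1 := by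
    ext k
    rw [PowerSeries.coeff_mul]
    simp only [coeff_lamS, PowerSeries.coeff_mk]
    cases k with
    | zero => simp [lam_zero, hK_zero]
    | succ k =>
      rw [PowerSeries.coeff_one, if_neg (Nat.succ_ne_zero k), ← mul_zero ((-1) ^ (k + 1)),
        ← h0 k, mul_sum]
      refine sum_congr rfl fun p hp => ?_
      rw [← mem_antidiagonal.1 hp, pow_add]
      have e : ((-1 : K0 X) ^ p.1) * (-1) ^ p.1 = 1 := by rw [← mul_pow]; simp
      linear_combination (-((-1) ^ p.2 * lam p.1 (∑ i, line X (-d i)) * hK X d p.2)) * e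
  have h2 : PowerSeries.mk (fun k => (-1) ^ k * hK X d k) = lamS (-∑ i, line X (-d i)) := by
    rw [← mul_one (lamS _), ← h1, ← mul_assoc, lamS_neg_mul, one_mul]
  have h3 := congrArg (PowerSeries.coeff k) h2
  rw [PowerSeries.coeff_mk, coeff_lamS] at h3
  rw [Cc.sig_nat, ← h3, ← mul_assoc, ← mul_pow]
  simp

theorem res_SyQ [Nonempty X.Pt] {B : GMod X} {r : ℕ} (hB : B.IsBun r)
    {φ : B.M →ₗ[X.R] (ι → X.R)} (hφ : B.IsHom (Fr X d) φ) (h : ∀ z : X.Pt, KReg z.1 φ) (k : ℕ) :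
    Res k (SyQ hφ k) (sig k (∑ i, line X (-d i) - kc B r)) := by
  have e : sig k (∑ i, line X (-d i) - kc B r) =
      ∑ p ∈ antidiagonal k, (-1) ^ p.1 * kc (B.ext p.1) (r.choose p.1) * hK X d p.2 := by
    rw [Cc.sig_nat, neg_sub, sub_eq_add_neg, lam_add, mul_sum]
    refine sum_congr rfl fun p hp => ?_
    rw [hK_eq, Cc.sig_nat, lam_kc hB, ← mem_antidiagonal.1 hp, pow_add]
    ring
  rw [e]
  exact res_SyQ₀ hB hφ h k

end Vale.Agent.P297Z.Dg
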